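import Mathlib

/-!
Cubic extensions: basis of powers, traces of powers, discriminant.
-/

open Module Polynomial

set_option linter.unusedSectionVars false

namespace Vale.Agent.P011.Six

variable {R E : Type} [Field R] [Field E] [Algebra R E]

theorem cub_fd (h3 : finrank R E = 3) : FiniteDimensional R E :=
  Module.finite_of_finrank_pos (by rw [h3]; norm_num)

theorem cub_deg (h3 : finrank R E = 3) {g : E} (hg : ∀ c : R, algebraMap R E c ≠ g) :
    (minpoly R g).natDegree = 3 := by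
  have hfd := cub_fd h3
  have hint : IsIntegral R g := IsIntegral.of_finite R g
  have h1 : (minpoly R g).natDegree ∣ 3 := by
    rw [← h3, ← IntermediateField.adjoin.finrank hint]
    exact ⟨finrank (IntermediateField.adjoin R {g}) E, (Module.finrank_mul_finrank R _ E).symm⟩
  rcases (Nat.dvd_prime Nat.prime_three).mp h1 with h2 | h2
  · exfalso
    obtain ⟨c, hc⟩ := minpoly.natDegree_eq_one_iff.mp h2
    exact hg c hc
  · exact h2

/-- The powers of an element outside the base field are independent. -/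
theorem cub_indep (h3 : finrank R E = 3) {g : E} (hg : ∀ c : R, algebraMap R E c ≠ g)
    {a₀ a₁ a₂ : R} (h : algebraMap R E a₀ + algebraMap R E a₁ * g + algebraMap R E a₂ * g ^ 2 = 0) :
    a₀ = 0 ∧ a₁ = 0 ∧ a₂ = 0 := by
  have hfd := cub_fd h3
  have hdeg := cub_deg h3 hg
  obtain ⟨p, hp⟩ : ∃ p : R[X], p = C a₀ + C a₁ * X + C a₂ * X ^ 2 := ⟨_, rfl⟩
  have hp0 : aeval g p = 0 := by
    rw [hp]
    simp only [map_add, map_mul, map_pow, aeval_C, aeval_X]
    exact h
  have hpz : p = 0 := by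
    by_contra hne
    have h1 := Polynomial.natDegree_le_of_dvd (minpoly.dvd R g hp0) hne
    rw [hdeg] at h1
    have h2 : p.natDegree ≤ 2 := by
      rw [hp]
      compute_degree
    omega
  have h0 := congrArg (fun q => q.coeff 0) hpz
  have h1 := congrArg (fun q => q.coeff 1) hpz
  have h2 := congrArg (fun q => q.coeff 2) hpz
  rw [hp] at h0 h1 h2
  simp [coeff_X, coeff_C, coeff_X_pow] at h0 h1 h2
  exact ⟨h0, h1, h2⟩

theorem exists_cub_basis (h3 : finrank R E = 3) {g : E} (hg : ∀ c : R, algebraMap R E c ≠ g) :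
    ∃ b : Basis (Fin 3) R E, b 0 = 1 ∧ b 1 = g ∧ b 2 = g ^ 2 := by
  have hfd := cub_fd h3
  have hli : LinearIndependent R ![1, g, g ^ 2] := by
    rw [Fintype.linearIndependent_iff]
    intro a ha
    rw [Fin.sum_univ_three] at ha
    simp only [Matrix.cons_val_zero, Matrix.cons_val_one, Matrix.cons_val, Algebra.smul_def,
      mul_one] at ha
    obtain ⟨h0, h1, h2⟩ := cub_indep h3 hg ha
    intro i
    fin_cases i
    · exact h0
    · exact h1
    · exact h2
  refine ⟨basisOfLinearIndependentOfCardEqFinrank hli (by rw [h3]; rfl), ?_, ?_, ?_⟩ <;>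
    simp [coe_basisOfLinearIndependentOfCardEqFinrank]

theorem exists_coef (h3 : finrank R E = 3) {g : E} (hg : ∀ c : R, algebraMap R E c ≠ g) (y : E) :
    ∃ a₀ a₁ a₂ : R, y = algebraMap R E a₀ + algebraMap R E a₁ * g + algebraMap R E a₂ * g ^ 2 := by
  obtain ⟨b, h0, h1, h2⟩ := exists_cub_basis h3 hg
  refine ⟨b.repr y 0, b.repr y 1, b.repr y 2, ?_⟩
  conv_lhs => rw [← b.sum_repr y]
  rw [Fin.sum_univ_three, h0, h1, h2]
  simp only [Algebra.smul_def, mul_one]

/-- The coefficients of the equation, in terms of the traces. -/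
theorem exists_cub (h3 : finrank R E = 3) {g : E} (hg : ∀ c : R, algebraMap R E c ≠ g) :
    ∃ e₁ e₂ e₃ : R, g ^ 3 = algebraMap R E e₁ * g ^ 2 - algebraMap R E e₂ * g +
      algebraMap R E e₃ ∧ Algebra.trace R E g = e₁ ∧
      Algebra.trace R E (g ^ 2) = e₁ ^ 2 - 2 * e₂ ∧ Algebra.norm R (1 + g) = 1 + e₁ + e₂ + e₃ := by
  obtain ⟨b, h0, h1, h2⟩ := exists_cub_basis h3 hg
  obtain ⟨a₀, a₁, a₂, ha⟩ := exists_coef h3 hg (g ^ 3)
  have hfd := cub_fd h3
  have key : ∀ c₀ c₁ c₂ : R, b.repr (algebraMap R E c₀ + algebraMap R E c₁ * g +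
      algebraMap R E c₂ * g ^ 2) = Finsupp.equivFunOnFinite.symm ![c₀, c₁, c₂] := by
    intro c₀ c₁ c₂
    have e1 : algebraMap R E c₀ + algebraMap R E c₁ * g + algebraMap R E c₂ * g ^ 2 =
        c₀ • b 0 + c₁ • b 1 + c₂ • b 2 := by
      rw [h0, h1, h2]
      simp only [Algebra.smul_def, mul_one]
    rw [e1, map_add, map_add, map_smul, map_smul, map_smul]
    simp only [Basis.repr_self]
    ext i
    fin_cases i <;> simp
  have key' : ∀ (c₀ c₁ c₂ : R) (y : E), y = algebraMap R E c₀ + algebraMap R E c₁ * g +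
      algebraMap R E c₂ * g ^ 2 → b.repr y 0 = c₀ ∧ b.repr y 1 = c₁ ∧ b.repr y 2 = c₂ := by
    rintro c₀ c₁ c₂ y rfl
    rw [key]
    simp
  have hg4 : g ^ 4 = algebraMap R E (a₂ * a₀) + algebraMap R E (a₂ * a₁ + a₀) * g +
      algebraMap R E (a₂ * a₂ + a₁) * g ^ 2 := by
    have e1 : g ^ 4 = g ^ 3 * g := by ring
    rw [e1, ha]
    simp only [map_add, map_mul]
    linear_combination algebraMap R E a₂ * ha
  refine ⟨a₂, -a₁, a₀, by rw [ha, map_neg]; ring, ?_, ?_, ?_⟩
  · rw [Algebra.trace_eq_matrix_trace b, Matrix.trace, Fin.sum_univ_three]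
    simp only [Matrix.diag_apply, Algebra.leftMulMatrix_eq_repr_mul, h0, h1, h2]
    have k0 := key' 0 1 0 (g * 1) (by simp)
    have k1 := key' 0 0 1 (g * g) (by simp; ring)
    have k2 := key' a₀ a₁ a₂ (g * g ^ 2) (by rw [← ha]; ring)
    rw [k0.1, k1.2.1, k2.2.2]
    ring
  · rw [Algebra.trace_eq_matrix_trace b, Matrix.trace, Fin.sum_univ_three]
    simp only [Matrix.diag_apply, Algebra.leftMulMatrix_eq_repr_mul, h0, h1, h2]
    have k0 := key' 0 0 1 (g ^ 2 * 1) (by simp)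
    have k1 := key' a₀ a₁ a₂ (g ^ 2 * g) (by rw [← ha]; ring)
    have k2 := key' _ _ _ (g ^ 2 * g ^ 2) (by rw [← hg4]; ring)
    rw [k0.1, k1.2.1, k2.2.2]
    ring
  · rw [Algebra.norm_eq_matrix_det b, Matrix.det_fin_three]
    simp only [Algebra.leftMulMatrix_eq_repr_mul, h0, h1, h2]
    have k0 := key' 1 1 0 ((1 + g) * 1) (by simp)
    have k1 := key' 0 1 1 ((1 + g) * g) (by simp; ring)
    have k2 := key' a₀ a₁ (1 + a₂) ((1 + g) * g ^ 2) (by
      have e1 : (1 + g) * g ^ 2 = g ^ 2 + g ^ 3 := by ring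
      rw [e1, ha, map_add, map_one]
      ring)
    rw [k0.1, k0.2.1, k0.2.2, k1.1, k1.2.1, k1.2.2, k2.1, k2.2.1, k2.2.2]
    ring

theorem trace_one_cub (h3 : finrank R E = 3) : Algebra.trace R E (1 : E) = 3 := by
  have := Algebra.trace_algebraMap (R := R) (S := E) (1 : R)
  rw [map_one, h3, nsmul_eq_mul, mul_one] at this
  exact_mod_cast this

/-- The traces of the third and fourth powers. -/
theorem trace_pow (h3 : finrank R E = 3) {g : E} {e₁ e₂ e₃ : R}
    (he : g ^ 3 = algebraMap R E e₁ * g ^ 2 - algebraMap R E e₂ * g + algebraMap R E e₃) :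
    Algebra.trace R E (g ^ 3) = e₁ * Algebra.trace R E (g ^ 2) - e₂ * Algebra.trace R E g +
      3 * e₃ ∧ Algebra.trace R E (g ^ 4) = e₁ * Algebra.trace R E (g ^ 3) -
        e₂ * Algebra.trace R E (g ^ 2) + e₃ * Algebra.trace R E g := by
  have h0 := trace_one_cub h3
  constructor
  · have e1 : g ^ 3 = e₁ • g ^ 2 - e₂ • g + e₃ • (1 : E) := by
      rw [he]
      simp only [Algebra.smul_def, mul_one]
    rw [e1]
    simp only [map_add, map_sub, map_smul, smul_eq_mul, h0]
    ring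
  · have e1 : g ^ 4 = e₁ • g ^ 3 - e₂ • g ^ 2 + e₃ • g := by
      have e2 : g ^ 4 = g ^ 3 * g := by ring
      rw [e2]
      nth_rewrite 1 [he]
      simp only [Algebra.smul_def]
      ring
    rw [e1]
    simp only [map_add, map_sub, map_smul, smul_eq_mul]

/-- Homomorphisms from a cubic extension. -/
theorem exists_lift (h3 : finrank R E = 3) {g : E} (hg : ∀ c : R, algebraMap R E c ≠ g)
    {e₁ e₂ e₃ : R}
    (he : g ^ 3 = algebraMap R E e₁ * g ^ 2 - algebraMap R E e₂ * g + algebraMap R E e₃)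
    {S : Type} [Ring S] [Algebra R S] {y : S}
    (hy : y ^ 3 = algebraMap R S e₁ * y ^ 2 - algebraMap R S e₂ * y + algebraMap R S e₃) :
    ∃ f : E →ₐ[R] S, f g = y := by
  have hfd := cub_fd h3
  obtain ⟨b, h0, h1, h2⟩ := exists_cub_basis h3 hg
  let pb : PowerBasis R E :=
    { gen := g
      dim := 3
      basis := b
      basis_eq_pow := fun i => by
        fin_cases i
        · simpa using h0
        · simpa using h1
        · simpa using h2 }
  have hm : minpoly R g = X ^ 3 - C e₁ * X ^ 2 + C e₂ * X - C e₃ := by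
    symm
    obtain ⟨p, hp⟩ : ∃ p : R[X], p = X ^ 3 - C e₁ * X ^ 2 + C e₂ * X - C e₃ := ⟨_, rfl⟩
    rw [← hp]
    have hdeg : p.natDegree = 3 := by
      rw [hp]
      compute_degree!
    have hmon : p.Monic := by
      rw [hp]
      monicity!
    have hroot : aeval g p = 0 := by
      rw [hp]
      simp only [map_sub, map_add, map_mul, map_pow, aeval_X, aeval_C]
      rw [he]
      ring
    exact Polynomial.eq_of_monic_of_dvd_of_natDegree_le (minpoly.monic (IsIntegral.of_finite R g))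
      hmon (minpoly.dvd R g hroot) (by rw [hdeg, cub_deg h3 hg])
  refine ⟨pb.lift y ?_, pb.lift_gen y _⟩
  change aeval y (minpoly R g) = 0
  rw [hm]
  simp only [map_sub, map_add, map_mul, map_pow, aeval_X, aeval_C]
  rw [hy]
  abel

/-- The sum of the conjugates. -/
theorem sum_conj (h3 : finrank R E = 3) {g : E} (hg : ∀ c : R, algebraMap R E c ≠ g)
    {e₁ e₂ : R} (ht1 : Algebra.trace R E g = e₁)
    (ht2 : Algebra.trace R E (g ^ 2) = e₁ ^ 2 - 2 * e₂)
    {S : Type} [Ring S] [Algebra R S] (f₁ f₂ f₃ : E →ₐ[R] S)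
    (hs1 : f₁ g + f₂ g + f₃ g = algebraMap R S e₁)
    (hs2 : f₁ g ^ 2 + f₂ g ^ 2 + f₃ g ^ 2 = algebraMap R S (e₁ ^ 2 - 2 * e₂)) (y : E) :
    f₁ y + f₂ y + f₃ y = algebraMap R S (Algebra.trace R E y) := by
  obtain ⟨a₀, a₁, a₂, rfl⟩ := exists_coef h3 hg y
  have e1 : algebraMap R E a₀ + algebraMap R E a₁ * g + algebraMap R E a₂ * g ^ 2 =
      a₀ • (1 : E) + a₁ • g + a₂ • g ^ 2 := by
    simp only [Algebra.smul_def, mul_one]
  rw [e1]
  simp only [map_add, map_smul, map_pow, map_one, trace_one_cub h3, ht1, ht2, smul_eq_mul]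
  have e2 : a₀ • (1 : S) + a₁ • f₁ g + a₂ • f₁ g ^ 2 + (a₀ • (1 : S) + a₁ • f₂ g +
      a₂ • f₂ g ^ 2) + (a₀ • (1 : S) + a₁ • f₃ g + a₂ • f₃ g ^ 2) =
      a₀ • (3 : S) + a₁ • (f₁ g + f₂ g + f₃ g) + a₂ • (f₁ g ^ 2 + f₂ g ^ 2 + f₃ g ^ 2) := by
    have : (3 : S) = 1 + 1 + 1 := by norm_num
    rw [this]
    simp only [smul_add]
    abel
  rw [e2, hs1, hs2]
  simp only [Algebra.smul_def]
  rw [map_mul (algebraMap R S) a₀ 3, map_ofNat, map_mul, map_mul]

end Vale.Agent.P011.Six
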