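import Vale.Agent.P011.Even.GFinish
import Vale.Agent.P011.Six.Cub

/-!
Positivity of trace forms of cubic extensions at a real place.
-/

open Module Polynomial NumberField IsDedekindDomain

set_option linter.unusedSectionVars false

namespace Vale.Agent.P011.Six

open Vale.Agent.P011.Arith Vale.Agent.P011.Even

variable {k F : Type} [Field k] [NumberField k] [Field F] [NumberField F] [Algebra k F]

/-- Total positivity at the places above a real place, from positivity of the trace form. -/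
theorem pos_of_trace {φ : k →+* ℝ} {t : F}
    (h : ∀ a : F, a ≠ 0 → 0 < φ (Algebra.trace k F (a * a * t))) (ψ : F →+* ℝ)
    (hψ : ψ.comp (algebraMap k F) = φ) : 0 < ψ t := by
  classical
  by_contra hcon
  have ht0 : t ≠ 0 := by
    rintro rfl
    have := h 1 one_ne_zero
    rw [mul_zero, map_zero, map_zero] at this
    exact lt_irrefl _ this
  have hneg : ψ t < 0 := lt_of_le_of_ne (not_lt.mp hcon) ((_root_.map_ne_zero ψ).mpr ht0)
  let _ : Algebra k ℂ := (Complex.ofRealHom.comp φ).toAlgebra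
  have halg : ∀ c : k, algebraMap k ℂ c = ((φ c : ℝ) : ℂ) := fun _ => rfl
  let σ₀ : F →ₐ[k] ℂ :=
    { toRingHom := Complex.ofRealHom.comp ψ
      commutes' := fun c => by
        rw [halg, ← hψ]
        rfl }
  have hσ₀ : ∀ z, σ₀ z = ((ψ z : ℝ) : ℂ) := fun _ => rfl
  obtain ⟨C, hC⟩ : ∃ C : ℝ, C = ∑ σ : F →ₐ[k] ℂ, ‖σ t‖ := ⟨_, rfl⟩
  have hC0 : 0 ≤ C := by rw [hC]; exact Finset.sum_nonneg fun _ _ => norm_nonneg _
  obtain ⟨ε, hε, hε1, hε2⟩ : ∃ ε : ℝ, 0 < ε ∧ ε ≤ 1 / 2 ∧ ε * (4 * (C + 1)) ≤ -ψ t := by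
    refine ⟨min (1 / 2) (-ψ t / (4 * (C + 1))), ?_, min_le_left _ _, ?_⟩
    · have : 0 < -ψ t := by linarith
      positivity
    · have h1 := min_le_right (1 / 2) (-ψ t / (4 * (C + 1)))
      rwa [le_div_iff₀ (by positivity)] at h1
  obtain ⟨a, -, ha⟩ := approxVal (F := F) ∅ (fun _ => 0) (fun _ => 1) (fun v hv => one_ne_zero)
    (fun w => if w = InfinitePlace.mk (σ₀ : F →+* ℂ) then 1 else 0) hε
  have h1 : |ψ a - 1| < ε := by
    have h2 := ha (InfinitePlace.mk (σ₀ : F →+* ℂ))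
    rw [if_pos rfl, InfinitePlace.apply] at h2
    have h3 : (σ₀ : F →+* ℂ) (a - 1) = ((ψ a - 1 : ℝ) : ℂ) := by
      change σ₀ (a - 1) = _
      rw [hσ₀, map_sub, map_one]
    rw [h3, Complex.norm_real] at h2
    exact h2
  have h2 : ∀ σ : F →ₐ[k] ℂ, σ ≠ σ₀ → ‖σ a‖ < ε := by
    intro σ hσ
    have h3 := ha (InfinitePlace.mk (σ : F →+* ℂ))
    have hne : InfinitePlace.mk (σ : F →+* ℂ) ≠ InfinitePlace.mk (σ₀ : F →+* ℂ) := by
      intro h4
      rw [InfinitePlace.mk_eq_iff] at h4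
      apply hσ
      ext z
      rcases h4 with h5 | h5
      · exact RingHom.congr_fun h5 z
      · have h6 := RingHom.congr_fun h5 z
        have h7 : (starRingEnd ℂ) (σ z) = ((ψ z : ℝ) : ℂ) := h6
        rw [hσ₀]
        have h8 := congrArg (starRingEnd ℂ) h7
        rwa [Complex.conj_conj, Complex.conj_ofReal] at h8
    rw [if_neg hne, sub_zero, InfinitePlace.apply] at h3
    exact h3
  have ha0 : a ≠ 0 := by
    rintro rfl
    rw [map_zero, zero_sub, abs_neg, abs_one] at h1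
    linarith
  have h3 := h a ha0
  have h4 : ((φ (Algebra.trace k F (a * a * t)) : ℝ) : ℂ) =
      ∑ σ : F →ₐ[k] ℂ, σ (a * a * t) := by
    rw [← halg, trace_eq_sum_embeddings ℂ]
  have h5 : φ (Algebra.trace k F (a * a * t)) = ∑ σ : F →ₐ[k] ℂ, (σ (a * a * t)).re := by
    have h6 := congrArg Complex.re h4
    rw [Complex.ofReal_re, Complex.re_sum] at h6
    exact h6
  rw [h5, ← Finset.add_sum_erase _ _ (Finset.mem_univ σ₀)] at h3
  have h6 : (σ₀ (a * a * t)).re = ψ a ^ 2 * ψ t := by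
    rw [hσ₀, Complex.ofReal_re, map_mul, map_mul]
    ring
  have h7 : ∑ σ ∈ Finset.univ.erase σ₀, (σ (a * a * t)).re ≤ ε ^ 2 * C := by
    calc ∑ σ ∈ Finset.univ.erase σ₀, (σ (a * a * t)).re
        ≤ ∑ σ ∈ Finset.univ.erase σ₀, ε ^ 2 * ‖σ t‖ := by
          refine Finset.sum_le_sum fun σ hσ => ?_
          have h8 := h2 σ (Finset.ne_of_mem_erase hσ)
          have h9 := Complex.re_le_norm (σ (a * a * t))
          rw [map_mul, map_mul, norm_mul, norm_mul] at h9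
          rw [map_mul, map_mul]
          have h10 : ‖σ a‖ * ‖σ a‖ ≤ ε ^ 2 := by
            rw [pow_two]
            exact mul_le_mul h8.le h8.le (norm_nonneg _) hε.le
          exact h9.trans (mul_le_mul_of_nonneg_right h10 (norm_nonneg _))
      _ ≤ ∑ σ : F →ₐ[k] ℂ, ε ^ 2 * ‖σ t‖ :=
          Finset.sum_le_sum_of_subset_of_nonneg (Finset.subset_univ _)
            fun _ _ _ => by positivity
      _ = ε ^ 2 * C := by rw [hC, Finset.mul_sum]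
  rw [h6] at h3
  rw [abs_lt] at h1
  have h8 : 1 / 4 ≤ ψ a ^ 2 := by nlinarith
  have h9 : ε ^ 2 * C ≤ -ψ t / 8 := by
    have : ε * C ≤ -ψ t / 4 := by nlinarith
    nlinarith
  nlinarith

/-- The discriminant, in terms of the traces of powers. -/
def disc3 {R : Type} [CommRing R] (T₁ T₂ T₃ T₄ : R) : R :=
  3 * (T₂ * T₄ - T₃ ^ 2) - T₁ * (T₁ * T₄ - T₂ * T₃) + T₂ * (T₁ * T₃ - T₂ ^ 2)

/-- The discriminant of a cubic generator, in terms of the other roots. -/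
theorem disc3_roots {R : Type} [CommRing R] {g a b T₁ T₂ T₃ T₄ e₁ e₂ e₃ : R} (h1 : e₁ = g + a)
    (h2 : e₂ = g * a + b) (h3 : e₃ = g * b) (hT1 : T₁ = e₁) (hT2 : T₂ = e₁ ^ 2 - 2 * e₂)
    (hT3 : T₃ = e₁ * T₂ - e₂ * T₁ + 3 * e₃) (hT4 : T₄ = e₁ * T₃ - e₂ * T₂ + e₃ * T₁) :
    disc3 T₁ T₂ T₃ T₄ = (a ^ 2 - 4 * b) * (g ^ 2 - a * g + b) ^ 2 := by
  subst hT4 hT3 hT2 hT1 h3 h2 h1
  rw [disc3]
  ring

/-- The trace of a square. -/
theorem trace_sq_form (g : F) (T₁ T₂ T₃ T₄ a₀ a₁ a₂ : k) (h3 : finrank k F = 3)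
    (h1 : Algebra.trace k F g = T₁) (h2 : Algebra.trace k F (g ^ 2) = T₂)
    (h3' : Algebra.trace k F (g ^ 3) = T₃) (h4 : Algebra.trace k F (g ^ 4) = T₄) :
    Algebra.trace k F ((algebraMap k F a₀ + algebraMap k F a₁ * g + algebraMap k F a₂ * g ^ 2) *
      (algebraMap k F a₀ + algebraMap k F a₁ * g + algebraMap k F a₂ * g ^ 2)) =
      a₀ ^ 2 * 3 + 2 * (a₀ * a₁) * T₁ + (a₁ ^ 2 + 2 * (a₀ * a₂)) * T₂ + 2 * (a₁ * a₂) * T₃ +
        a₂ ^ 2 * T₄ := by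
  have h0 : Algebra.trace k F (1 : F) = 3 := by
    have := Algebra.trace_algebraMap (R := k) (S := F) (1 : k)
    rw [map_one, h3, nsmul_eq_mul, mul_one] at this
    exact_mod_cast this
  have e1 : (algebraMap k F a₀ + algebraMap k F a₁ * g + algebraMap k F a₂ * g ^ 2) *
      (algebraMap k F a₀ + algebraMap k F a₁ * g + algebraMap k F a₂ * g ^ 2) =
      (a₀ ^ 2) • (1 : F) + (2 * (a₀ * a₁)) • g + (a₁ ^ 2 + 2 * (a₀ * a₂)) • g ^ 2 +
        (2 * (a₁ * a₂)) • g ^ 3 + (a₂ ^ 2) • g ^ 4 := by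
    simp only [Algebra.smul_def, map_add, map_mul, map_pow, map_ofNat]
    ring
  rw [e1]
  simp only [map_add, map_smul, smul_eq_mul, h0, h1, h2, h3', h4]

/-- Positivity of the discriminant. -/
theorem disc3_pos {φ : k →+* ℝ} (h3 : finrank k F = 3) {g : F}
    (hg : ∀ c : k, algebraMap k F c ≠ g)
    (h : ∀ a : F, a ≠ 0 → 0 < φ (Algebra.trace k F (a * a))) {T₁ T₂ T₃ T₄ : k}
    (h1 : Algebra.trace k F g = T₁) (h2 : Algebra.trace k F (g ^ 2) = T₂)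
    (h3' : Algebra.trace k F (g ^ 3) = T₃) (h4 : Algebra.trace k F (g ^ 4) = T₄) :
    0 < φ (disc3 T₁ T₂ T₃ T₄) := by
  have key : ∀ a₀ a₁ a₂ : k, ¬ (a₀ = 0 ∧ a₁ = 0 ∧ a₂ = 0) →
      0 < φ (a₀ ^ 2 * 3 + 2 * (a₀ * a₁) * T₁ + (a₁ ^ 2 + 2 * (a₀ * a₂)) * T₂ +
        2 * (a₁ * a₂) * T₃ + a₂ ^ 2 * T₄) := by
    intro a₀ a₁ a₂ hne
    rw [← trace_sq_form g T₁ T₂ T₃ T₄ a₀ a₁ a₂ h3 h1 h2 h3' h4]
    exact h _ fun h0 => hne (cub_indep h3 hg h0)
  obtain ⟨m, hm⟩ : ∃ m, m = 3 * T₂ - T₁ ^ 2 := ⟨_, rfl⟩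
  have hm0 : 0 < φ m := by
    have h5 := key (-T₁) 3 0 (fun h => by
      have := h.2.1
      norm_num at this)
    have e1 : (-T₁) ^ 2 * 3 + 2 * (-T₁ * 3) * T₁ + (3 ^ 2 + 2 * (-T₁ * 0)) * T₂ +
        2 * (3 * 0) * T₃ + 0 ^ 2 * T₄ = 3 * m := by
      rw [hm]; ring
    rw [e1, map_mul, map_ofNat] at h5
    linarith
  have hmz : m ≠ 0 := by
    rintro h0
    rw [h0, map_zero] at hm0
    exact lt_irrefl _ hm0
  have h5 := key (T₁ * T₃ - T₂ * T₂) (T₂ * T₁ - 3 * T₃) m (fun h => hmz h.2.2)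
  have e1 : (T₁ * T₃ - T₂ * T₂) ^ 2 * 3 + 2 * ((T₁ * T₃ - T₂ * T₂) * (T₂ * T₁ - 3 * T₃)) * T₁ +
      ((T₂ * T₁ - 3 * T₃) ^ 2 + 2 * ((T₁ * T₃ - T₂ * T₂) * m)) * T₂ +
      2 * ((T₂ * T₁ - 3 * T₃) * m) * T₃ + m ^ 2 * T₄ = m * disc3 T₁ T₂ T₃ T₄ := by
    rw [hm, disc3]; ring
  rw [e1, map_mul] at h5
  exact (pos_iff_pos_of_mul_pos h5).mp hm0

end Vale.Agent.P011.Six
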