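import Vale.Agent.P011.Even.GFinish

/-!
Pure quaternions with a given square.
-/

open Module Polynomial NumberField IsDedekindDomain

set_option linter.unusedSectionVars false

namespace Vale.Agent.P011.Six

open Vale.Agent.P011.Arith Vale.Agent.P011.Even

section

variable {k E : Type} [Field k] [NumberField k] [Field E] [NumberField E] [Algebra k E]

/-- The quaternion algebra splits over the extensions containing a square root of `δ`. -/
theorem split_of_sqrt (α β δ : kˣ) {θ : E} (hθ : θ ^ 2 = algebraMap k E δ)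
    (hfin : ∀ v : HeightOneSpectrum (𝓞 k), β ∈ NF α ⊔ LS (v.valuation k) ∨
      δ ∉ LS (v.valuation k))
    (hreal : ∀ φ : k →+* ℝ, φ α < 0 → φ β < 0 → φ δ < 0) : inc k E β ∈ NF (inc k E α) := by
  refine hasse_norm _ _ ?_
  rintro (w | ψ)
  · change inc k E β ∈ NF (inc k E α) ⊔ LS (w.valuation E)
    obtain ⟨v, hv⟩ := Sch.exists_below (F := k) w
    rcases hfin v with h | h
    · exact Sch.sup_map hv h
    rcases Sch.local_split v α β δ h with h1 | ⟨y, n, l, hn, hl, h1⟩
    · exact Sch.sup_map hv h1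
    · have h2 : inc k E (β * n * l) ∈ NF (inc k E α) := by
        refine ⟨θ, algebraMap k E y, ?_⟩
        rw [inc_val_g, hθ, inc_val_g]
        have h3 : ((β * n * l : kˣ) : k) = (δ : k) - α * y ^ 2 := by
          rw [h1]; push_cast; ring
        rw [h3]
        simp
      have h3 : inc k E β = inc k E (β * n * l) * (inc k E n)⁻¹ * (inc k E l)⁻¹ := by
        rw [map_mul, map_mul, mul_right_comm (inc k E β * inc k E n) (inc k E l) (inc k E n)⁻¹,
          mul_inv_cancel_right, mul_inv_cancel_right]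
      rw [h3]
      exact mul_mem (mul_mem (Subgroup.mem_sup_left h2)
        (inv_mem (Subgroup.mem_sup_left (Sch.NF_map hn))))
        (inv_mem (Subgroup.mem_sup_right (LS_map hv hl)))
  · change inc k E β ∈ NF (inc k E α) ⊔ LSR ψ
    obtain ⟨φ, hφ⟩ : ∃ φ : k →+* ℝ, φ = ψ.comp (algebraMap k E) := ⟨_, rfl⟩
    have hval : ∀ u : kˣ, ψ (inc k E u) = φ u := fun _ => by rw [hφ]; rfl
    by_cases hb : 0 < φ β
    · exact Subgroup.mem_sup_right (by rw [mem_LSR, hval]; exact hb)
    · have hb' : φ β < 0 := lt_of_le_of_ne (not_lt.mp hb) ((map_ne_zero φ).mpr β.ne_zero)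
      have ha' : 0 < φ α := by
        by_contra ha
        have ha' : φ α < 0 := lt_of_le_of_ne (not_lt.mp ha) ((map_ne_zero φ).mpr α.ne_zero)
        have h1 := hreal φ ha' hb'
        have h2 : φ δ = ψ θ ^ 2 := by
          rw [← map_pow, hθ, hφ]
          rfl
        rw [h2] at h1
        exact absurd h1 (not_lt.mpr (sq_nonneg _))
      have h1 : inc k E β / (-inc k E α) ∈ LSR ψ := by
        rw [mem_LSR, Units.val_div_eq_div_val, map_div₀, Units.val_neg, map_neg, hval, hval]
        exact div_pos_of_neg_of_neg hb' (by linarith)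
      have h2 : inc k E β = -inc k E α * (inc k E β / (-inc k E α)) := by
        rw [mul_div_cancel]
      rw [h2]
      exact Subgroup.mul_mem_sup (Sch.neg_mem_NF _) h1

end

variable {k F : Type} [Field k] [NumberField k] [Field F] [NumberField F] [Algebra k F]

/-- Pure quaternions with a given square. -/
theorem exists_pure (α β δ : kˣ) (e f : Fˣ) (he : inc k F δ = e * f ^ 2)
    (hβ : inc k F β ∉ NF (inc k F α))
    (hfin : ∀ v : HeightOneSpectrum (𝓞 k), β ∈ NF α ⊔ LS (v.valuation k) ∨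
      δ ∉ LS (v.valuation k))
    (hreal : ∀ φ : k →+* ℝ, φ α < 0 → φ β < 0 → φ δ < 0) :
    ∃ l m₀ m₁ : F, (e : F) = algebraMap k F α * l ^ 2 +
      algebraMap k F β * (m₀ ^ 2 - algebraMap k F α * m₁ ^ 2) := by
  have heF : algebraMap k F δ = (e : F) * f ^ 2 := by
    have := congrArg Units.val he
    rw [inc_val_g] at this
    rw [this]; push_cast; ring
  by_cases hsq : IsSquare (e : F)
  · exfalso
    obtain ⟨r, hr⟩ := hsq
    exact hβ (split_of_sqrt α β δ (θ := r * f) (by rw [heF, hr]; ring) hfin hreal)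
  obtain ⟨E, _, _, _, hE, θ, hθ⟩ := exists_quad e hsq
  have hθ' : ∀ x : F, algebraMap F E x ≠ θ := by
    rintro r rfl
    apply hsq
    refine ⟨r, (algebraMap F E).injective ?_⟩
    rw [← hθ, map_mul, pow_two]
  let _ : Algebra k E := ((algebraMap F E).comp (algebraMap k F)).toAlgebra
  have _ : IsScalarTower k F E := IsScalarTower.of_algebraMap_eq fun _ => rfl
  obtain ⟨X, Y, hXY⟩ := split_of_sqrt (E := E) α β δ (θ := θ * algebraMap F E f) (by
    rw [mul_pow, hθ, ← map_pow, ← map_mul, ← heF, ← IsScalarTower.algebraMap_apply]) hfin hreal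
  rw [inc_val_g, inc_val_g, IsScalarTower.algebraMap_apply k F E,
    IsScalarTower.algebraMap_apply k F E (α : k)] at hXY
  obtain ⟨x1, x2, y1, y2, h1, h2⟩ := Sch.descend hθ hE hθ' hXY
  obtain ⟨n, hn⟩ : ∃ n, n = x2 ^ 2 - algebraMap k F α * y2 ^ 2 := ⟨_, rfl⟩
  rw [← hn] at h1
  by_cases hn0 : n = 0
  · exfalso
    apply hβ
    refine ⟨x1, y1, ?_⟩
    rw [inc_val_g, inc_val_g, h1, hn0, mul_zero, add_zero]
  · refine ⟨(y1 * x2 - x1 * y2) / n, x2 / n, -(y2 / n), ?_⟩
    rw [h1]
    have e1 : (x2 / n) ^ 2 - algebraMap k F α * (-(y2 / n)) ^ 2 = 1 / n := by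
      have : (x2 / n) ^ 2 - algebraMap k F α * (-(y2 / n)) ^ 2 =
          (x2 ^ 2 - algebraMap k F α * y2 ^ 2) / n ^ 2 := by ring
      rw [this, ← hn]
      field_simp
    rw [e1]
    field_simp
    have e2 : algebraMap k F α * (y1 * x2 - x1 * y2) ^ 2 =
        (x1 * x2 - algebraMap k F α * (y1 * y2)) ^ 2 -
          (x1 ^ 2 - algebraMap k F α * y1 ^ 2) * n := by
      rw [hn]; ring
    have e3 : x1 * x2 - algebraMap k F α * (y1 * y2) = 0 := by rw [h2]; ring
    rw [e3] at e2
    linear_combination -e2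

end Vale.Agent.P011.Six
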