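import Vale.Agent.P011.Six.Q2
import Vale.Agent.P011.Six.Pure
import Vale.Agent.P011.Six.Pos
import Vale.Agent.P011.Two.Tr

/-!
The symmetric cubic subfield with its conjugates and the element inducing the transposition.
-/

open Module Polynomial NumberField IsDedekindDomain

set_option linter.unusedSectionVars false

namespace Vale.Agent.P011.Six

open Vale.Agent.P011.Arith Vale.Agent.P011.Even Vale.Agent.P011.Two Vale.Agent.P011.One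
open Vale.Agent.P011.MPQ

/-- The condition at the real places. -/
def RealC (k : Type) {D : Type} [Field k] [DivisionRing D] [StarRing D] [Algebra k D]
    (α β d : kˣ) : Prop :=
  ∀ φ : k →+* ℝ, φ α < 0 → φ β < 0 → φ d < 0 ∧ ∀ x : D, x ≠ 0 → 0 < φ (Two.tr k (x * star x))

variable {k K D : Type} [Field k] [NumberField k] [Field K] [NumberField K] [StarRing K]
  [DivisionRing D] [StarRing D] [Algebra k K] [Algebra k D] [Algebra K D] [IsScalarTower k K D]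
  {d : kˣ} {s : K} {F : Type} [Field F] [NumberField F] [Algebra k F]

theorem not_mem_NF_of_fr {ι : F →ₐ[k] D} {α β : Fˣ} {i j : D} (h : QFr ι α β i j) :
    β ∉ NF α := by
  rintro ⟨x, y, hxy⟩
  have h1 := h.aniso ⟨x, y, 1, 0⟩ (by
    rw [nrd_mk, hxy]; ring)
  have h2 := congrArg QuaternionAlgebra.imJ h1
  exact one_ne_zero h2

/-- The pure quaternions in the algebra. -/
theorem exists_p0 {ι : F →ₐ[k] D} {α β : Fˣ} {i j : D} (H : QFr ι α β i j)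
    {φ : Qt α β →+* D} (hφ : ∀ q, φ q = ι q.re + ι q.imI * i + ι q.imJ * j + ι q.imK * (i * j))
    {e l m₀ m₁ : F} (he0 : e ≠ 0)
    (he : e = α * l ^ 2 + β * (m₀ ^ 2 - α * m₁ ^ 2)) :
    ∃ h : Qt α β, WF ι (φ ⟨0, l, m₀, m₁⟩) (φ h) e := by
  have hα : (α : F) ≠ 0 := α.ne_zero
  have hβ : (β : F) ≠ 0 := β.ne_zero
  have hcom : ∀ (t : F) (q : Qt α β), ι t * φ q = φ q * ι t := by
    intro t q
    have h1 : ι t = φ (algebraMap F (Qt α β) t) := by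
      rw [hφ, QuaternionAlgebra.algebraMap_eq]
      simp
    rw [h1, ← map_mul, ← map_mul, Algebra.commutes]
  have hww : φ ⟨0, l, m₀, m₁⟩ * φ ⟨0, l, m₀, m₁⟩ = ι e := by
    have h1 : ι e = φ (algebraMap F (Qt α β) e) := by
      rw [hφ, QuaternionAlgebra.algebraMap_eq]
      simp
    rw [h1, ← map_mul]
    congr 1
    rw [QuaternionAlgebra.algebraMap_eq, he]
    ext <;> simp <;> ring
  have hw0 : φ ⟨0, l, m₀, m₁⟩ ≠ 0 := by
    intro h0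
    rw [h0, mul_zero, eq_comm, map_eq_zero] at hww
    exact he0 hww
  by_cases h12 : l = 0 ∧ m₀ = 0
  · refine ⟨⟨0, 1, 0, 0⟩, H.sym, fun t => hcom t _, fun t => hcom t _, hww, ?_, hw0, ?_⟩
    · rw [← map_mul, ← map_mul, ← map_neg]
      congr 1
      obtain ⟨rfl, rfl⟩ := h12
      ext <;> simp
    · intro h0
      have h1 := congrArg QuaternionAlgebra.imI (qhom_inj H hφ h0)
      exact one_ne_zero h1
  · refine ⟨⟨0, β * m₀, -(α * l), 0⟩, H.sym, fun t => hcom t _, fun t => hcom t _, hww, ?_,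
      hw0, ?_⟩
    · rw [← map_mul, ← map_mul, ← map_neg]
      congr 1
      ext <;> simp <;> ring
    · intro h0
      have h1 := qhom_inj H hφ h0
      have e1 := congrArg QuaternionAlgebra.imI h1
      have e2 := congrArg QuaternionAlgebra.imJ h1
      simp only [QuaternionAlgebra.imI_zero, QuaternionAlgebra.imJ_zero, neg_eq_zero,
        mul_eq_zero, hα, hβ, false_or] at e1 e2
      exact h12 ⟨e2, e1⟩

/-- **The system.** -/
theorem exists_sys (hS : Setting k K D d s) (hdeg : finrank K D = 6 ^ 2) {ι : F →ₐ[k] D}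
    {g a b : F} {e₁ e₂ e₃ : k} (hc : CubD k g a b e₁ e₂ e₃) {α β : kˣ} {i j : D}
    (H : QFr ι (inc k F α) (inc k F β) i j) (δ : kˣ) (hδ : (δ : k) = d * dsc k g)
    (hfin : ∀ v : HeightOneSpectrum (𝓞 k), β ∈ NF α ⊔ LS (v.valuation k) ∨
      δ ∉ LS (v.valuation k)) (hR : RealC (D := D) k α β d) :
    ∃ (l m₀ m₁ e : F) (p q h : D) (κ : k), p = ι l * i + (ι m₀ + ι m₁ * i) * j ∧
      WF ι p h e ∧ algebraMap k F d * e = a ^ 2 - 4 * b ∧ star p = -p ∧ star q = -q ∧ q ≠ 0 ∧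
      q * q = algebraMap k D κ ∧
      q * (ι a + algebraMap K D s * p) = (ι a + algebraMap K D s * p) * q ∧
      2 * (q * ι g) = (ι a - algebraMap K D s * p) * q := by
  have hcharD : CharZero D := charZero_of_injective_algebraMap (algebraMap k D).injective
  have hfD := hS.fin
  have hfkK : FiniteDimensional k K := Module.finite_of_finrank_pos (by rw [hS.rank]; norm_num)
  have hfkD : FiniteDimensional k D := Module.Finite.trans K D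
  have hd0 : algebraMap k F d ≠ 0 := (_root_.map_ne_zero _).mpr d.ne_zero
  have hdsc := hc.dsc
  have hdelta : algebraMap k F δ =
      algebraMap k F d * ((a ^ 2 - 4 * b) * (g ^ 2 - a * g + b) ^ 2) := by
    rw [hδ, map_mul, hdsc]
  have hne : algebraMap k F δ ≠ 0 := (_root_.map_ne_zero _).mpr δ.ne_zero
  have hq0 : a ^ 2 - 4 * b ≠ 0 := by
    intro h0
    rw [hdelta, h0, zero_mul, mul_zero] at hne
    exact hne rfl
  have hf0 : g ^ 2 - a * g + b ≠ 0 := by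
    intro h0
    rw [hdelta, h0] at hne
    exact hne (by ring)
  obtain ⟨eu, heu⟩ : ∃ eu : Fˣ, (eu : F) = (a ^ 2 - 4 * b) / algebraMap k F d :=
    ⟨Units.mk0 _ (div_ne_zero hq0 hd0), rfl⟩
  obtain ⟨fu, hfu⟩ : ∃ fu : Fˣ, (fu : F) = algebraMap k F d * (g ^ 2 - a * g + b) :=
    ⟨Units.mk0 _ (mul_ne_zero hd0 hf0), rfl⟩
  have hdis : ∀ φ : k →+* ℝ, φ α < 0 → φ β < 0 → φ δ < 0 := by
    intro φ h1 h2
    obtain ⟨h3, h4⟩ := hR φ h1 h2
    have h5 : 0 < φ (dsc k g) := by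
      refine disc3_pos hc.h3 hc.hg ?_ rfl rfl rfl rfl
      intro t ht
      obtain ⟨r, hr⟩ := Two.trace_sub (K := k) ι
      have h6 := h4 (ι t) (fun h0 => ht ((map_eq_zero ι).mp h0))
      rw [H.sym, ← map_mul, hr, map_mul, map_natCast] at h6
      exact pos_of_mul_pos_right h6 (Nat.cast_nonneg r)
    rw [hδ, map_mul]
    exact mul_neg_of_neg_of_pos h3 h5
  obtain ⟨l, m₀, m₁, hlm⟩ := exists_pure α β δ eu fu (by
    apply Units.ext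
    rw [inc_val_g, hdelta, Units.val_mul, Units.val_pow_eq_pow_val, heu, hfu]
    field_simp) (not_mem_NF_of_fr H) hfin hdis
  obtain ⟨φ, hφ⟩ := exists_qhom H
  have hde : algebraMap k F d * (eu : F) = a ^ 2 - 4 * b := by
    rw [heu]; field_simp
  obtain ⟨h₀, HW⟩ := exists_p0 H hφ (e := (eu : F)) eu.ne_zero (by rw [hlm]; rfl)
  obtain ⟨p₀, hp₀⟩ : ∃ p₀ : Qt (inc k F α) (inc k F β), p₀ = ⟨0, l, m₀, m₁⟩ := ⟨_, rfl⟩
  rw [← hp₀] at HW
  have hsp₀ : star (φ p₀) = -φ p₀ := by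
    rw [star_qhom H hφ, ← map_neg]
    congr 1
    rw [hp₀]
    ext <;> simp
  obtain ⟨ι₂, q₂, t₀, hq1, hq2, sym₂, hcom, hpc, hq0', hsq, hqι, hqq, hqg, hprod, hconj⟩ :=
    exists_q2 hS hdeg hc HW hde hsp₀
  have ht0 : t₀ ≠ 0 := by
    rintro rfl
    rw [map_zero, neg_zero, mul_self_eq_zero] at hqq
    exact hq0' hqq
  obtain ⟨tu, htu⟩ : ∃ tu : Fˣ, (tu : F) = t₀ := ⟨Units.mk0 t₀ ht0, rfl⟩
  obtain ⟨x, y, z, t, hxy⟩ := Sch.quaternion_norm (inc k F α) (inc k F β) tu (by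
    intro ψ h1 h2
    rw [htu]
    refine pos_of_trace (φ := ψ.comp (algebraMap k F)) ?_ ψ rfl
    intro c hc0
    obtain ⟨-, h4⟩ := hR (ψ.comp (algebraMap k F)) h1 h2
    obtain ⟨r, hr⟩ := Two.trace_sub (K := k) ι₂
    have h6 := h4 (ι₂ c * q₂) (mul_ne_zero (fun h0 => hc0 ((map_eq_zero ι₂).mp h0)) hq0')
    have h7 : ι₂ c * q₂ * star (ι₂ c * q₂) = ι₂ (c * c * t₀) := by
      rw [star_mul, hsq, sym₂]
      have e1 : ι₂ c * q₂ * (-q₂ * ι₂ c) = -(ι₂ c * (q₂ * q₂) * ι₂ c) := by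
        noncomm_ring
      rw [e1, hqq, map_mul, map_mul, mul_neg, neg_mul, neg_neg, mul_assoc, ← map_mul ι₂ t₀,
        mul_comm t₀, map_mul, mul_assoc]
    rw [h7, hr, map_mul, map_natCast] at h6
    exact pos_of_mul_pos_right h6 (Nat.cast_nonneg r))
  rw [htu] at hxy
  obtain ⟨gq, hgq⟩ : ∃ gq : Qt (inc k F α) (inc k F β), gq = ⟨x, y, z, t⟩ := ⟨_, rfl⟩
  have hnrd : nrd gq = t₀ := by rw [hgq, nrd_mk, hxy]
  have hιφ : ∀ c, ι c = φ (algebraMap F (Qt (inc k F α) (inc k F β)) c) := by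
    intro c
    rw [hφ, QuaternionAlgebra.algebraMap_eq]
    simp
  have hcomφ : ∀ (c : F) (q : Qt (inc k F α) (inc k F β)), ι c * φ q = φ q * ι c := by
    intro c q
    rw [hιφ, ← map_mul, ← map_mul, Algebra.commutes]
  obtain ⟨g₀, hg₀⟩ : ∃ g₀, g₀ = φ gq := ⟨_, rfl⟩
  have hg1 : star g₀ * g₀ = ι t₀ := by
    rw [hg₀, star_qhom H hφ, ← map_mul, star_mul_self_qt, hnrd, ← hιφ]
  have hιt0 : ι t₀ ≠ 0 := fun h0 => ht0 ((map_eq_zero ι).mp h0)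
  have hg0 : g₀ ≠ 0 := by
    rintro h0
    rw [h0, mul_zero] at hg1
    exact hιt0 hg1.symm
  have hgc : ∀ c, ι c * g₀ = g₀ * ι c := fun c => by rw [hg₀, hcomφ]
  have hgci : ∀ c, ι c * g₀⁻¹ = g₀⁻¹ * ι c := by
    intro c
    rw [eq_inv_mul_iff_mul_eq₀ hg0, ← mul_assoc, ← hgc, mul_assoc, mul_inv_cancel₀ hg0, mul_one]
  have hgs : star g₀ = ι t₀ * g₀⁻¹ := by
    rw [eq_mul_inv_iff_mul_eq₀ hg0, hg1]
  have hgs2 : star g₀⁻¹ = g₀ * (ι t₀)⁻¹ := by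
    rw [star_inv₀, hgs, mul_inv_rev, inv_inv]
  -- the elements `u₁`, `u₂`
  obtain ⟨u₁, hu₁⟩ : ∃ u, u = ι t₀ := ⟨_, rfl⟩
  obtain ⟨u₂, hu₂⟩ : ∃ u, u = ι₂ t₀ := ⟨_, rfl⟩
  obtain ⟨u₃, hu₃⟩ : ∃ u, u = algebraMap k D (Algebra.trace k F t₀) - ι t₀ - ι₂ t₀ := ⟨_, rfl⟩
  have hu20 : u₂ ≠ 0 := by
    rw [hu₂]
    exact fun h0 => ht0 ((map_eq_zero ι₂).mp h0)
  rw [← hu₁] at hιt0 hgs hgs2
  obtain ⟨n, hn⟩ := hprod t₀
  rw [← hu₃, ← hu₁, ← hu₂] at hn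
  have hc3 := hconj t₀
  rw [← hu₃, ← hu₁] at hc3
  have hu30 : u₃ ≠ 0 := by
    intro h0
    rw [h0, zero_mul, mul_eq_zero] at hc3
    rcases hc3 with h | h
    · exact hq0' h
    · exact hιt0 h
  have hn0 : n ≠ 0 := by
    rintro rfl
    rw [map_zero] at hn
    exact mul_ne_zero (mul_ne_zero hιt0 hu20) hu30 hn
  have hu12 : u₁ * u₂ = u₂ * u₁ := by rw [hu₁, hu₂, hcom]
  have hu2q : q₂ * u₂ = u₂ * q₂ := by rw [hu₂, hqι]
  have hqq' : q₂ * q₂ = -u₂ := by rw [hqq, hu₂]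
  have hpq : g₀ * φ p₀ * g₀⁻¹ = φ (gq * p₀ * star gq * algebraMap F _ t₀⁻¹) := by
    have h1 : g₀⁻¹ = star g₀ * u₁⁻¹ := by
      rw [hgs, hu₁, hgci, mul_assoc, mul_inv_cancel₀ (hu₁ ▸ hιt0), mul_one]
    rw [h1, map_mul, map_mul, map_mul, ← hιφ, map_inv₀, hg₀, star_qhom H hφ, hu₁]
    simp only [mul_assoc]
  obtain ⟨pq, hpqd⟩ : ∃ pq, pq = gq * p₀ * star gq * algebraMap F _ t₀⁻¹ := ⟨_, rfl⟩
  have hre : pq.re = 0 := by
    rw [hpqd, QuaternionAlgebra.algebraMap_eq, hgq, hp₀]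
    simp only [QuaternionAlgebra.re_mul, QuaternionAlgebra.imI_mul, QuaternionAlgebra.imJ_mul,
      QuaternionAlgebra.imK_mul, QuaternionAlgebra.re_star, QuaternionAlgebra.imI_star,
      QuaternionAlgebra.imJ_star, QuaternionAlgebra.imK_star]
    ring
  obtain ⟨p, hp⟩ : ∃ p, p = g₀ * φ p₀ * g₀⁻¹ := ⟨_, rfl⟩
  have hpf : p = ι pq.imI * i + (ι pq.imJ + ι pq.imK * i) * j := by
    rw [hp, hpq, ← hpqd, hφ, hre, map_zero, zero_add, add_mul, mul_assoc (ι pq.imK), add_assoc]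
  have hSg : ∀ c : D, g₀ * (algebraMap K D s * c) * g₀⁻¹ = algebraMap K D s * (g₀ * c * g₀⁻¹) := by
    intro c
    rw [← mul_assoc g₀, ← sS_comm g₀]
    simp only [mul_assoc]
  have hgιg : ∀ c, g₀ * ι c * g₀⁻¹ = ι c := by
    intro c
    rw [← hgc, mul_assoc, mul_inv_cancel₀ hg0, mul_one]
  have hA : ι a + algebraMap K D s * p = g₀ * (2 * ι₂ g) * g₀⁻¹ := by
    rw [hq1, mul_add, add_mul, hgιg, hSg, hp]
  have hB : ι a - algebraMap K D s * p = g₀ * (2 * (ι₂ a - ι g)) * g₀⁻¹ := by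
    rw [hq2, mul_sub, sub_mul, hgιg, hSg, hp]
  obtain ⟨m, hm⟩ : ∃ m, m = u₁⁻¹ * u₂⁻¹ := ⟨_, rfl⟩
  have hmc : ∀ y : D, u₁ * y = y * u₁ → u₂ * y = y * u₂ → m * y = y * m := by
    intro y h1 h2
    have h3 : u₁⁻¹ * y = y * u₁⁻¹ := by
      rw [inv_mul_eq_iff_eq_mul₀ hιt0, ← mul_assoc, h1, mul_assoc, mul_inv_cancel₀ hιt0, mul_one]
    have h4 : u₂⁻¹ * y = y * u₂⁻¹ := by
      rw [inv_mul_eq_iff_eq_mul₀ hu20, ← mul_assoc, h2, mul_assoc, mul_inv_cancel₀ hu20, mul_one]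
    rw [hm, mul_assoc, h4, ← mul_assoc, h3, mul_assoc]
  have hmul : ∀ x y : D, (g₀ * x * g₀⁻¹) * (g₀ * y * g₀⁻¹) = g₀ * (x * y) * g₀⁻¹ := by
    intro x y
    simp only [mul_assoc, inv_mul_cancel_left₀ hg0]
  have hq2u1 : q₂ * u₁⁻¹ = u₃⁻¹ * q₂ := by
    rw [eq_inv_mul_iff_mul_eq₀ hu30, ← mul_assoc, ← hc3, mul_assoc, mul_inv_cancel₀ hιt0, mul_one]
  have hq2u2 : q₂ * u₂⁻¹ = u₂⁻¹ * q₂ := by
    rw [eq_inv_mul_iff_mul_eq₀ hu20, ← mul_assoc, ← hu2q, mul_assoc, mul_inv_cancel₀ hu20, mul_one]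
  refine ⟨pq.imI, pq.imJ, pq.imK, eu, p, g₀ * (m * q₂) * g₀⁻¹, g₀ * φ h₀ * g₀⁻¹, -n⁻¹, hpf, ?_,
    hde, ?_, ?_, ?_, ?_, ?_, ?_⟩
  · refine ⟨H.sym, ?_, ?_, ?_, ?_, ?_, ?_⟩
    · intro c
      rw [hp, hpq, hcomφ]
    · intro c
      rw [← mul_assoc, ← mul_assoc, hgc, mul_assoc g₀, hcomφ, mul_assoc, mul_assoc, mul_assoc,
        mul_assoc, hgci]
    · rw [hp, hmul, HW.ww, hgιg]
    · rw [hp, hmul, hmul, HW.wh, mul_neg, neg_mul]
    · rw [hp]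
      exact mul_ne_zero (mul_ne_zero hg0 HW.w0) (inv_ne_zero hg0)
    · exact mul_ne_zero (mul_ne_zero hg0 HW.h0) (inv_ne_zero hg0)
  · rw [hp, star_mul, star_mul, hsp₀, hgs2, hgs, hu₁]
    have e1 : g₀ * (ι t₀)⁻¹ * (-φ p₀ * (ι t₀ * g₀⁻¹)) =
        -(g₀ * ((ι t₀)⁻¹ * (φ p₀ * ι t₀)) * g₀⁻¹) := by noncomm_ring
    rw [e1, ← hcomφ, inv_mul_cancel_left₀ (hu₁ ▸ hιt0)]
  · rw [star_mul, star_mul, star_mul, hsq, hgs2, hgs]
    have sm : star m = m := by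
      rw [hm, star_mul, star_inv₀, star_inv₀, hu₁, hu₂, H.sym, sym₂, ← mul_inv_rev, ← mul_inv_rev,
        ← hu₁, ← hu₂, hu12]
    rw [sm]
    have e1 : g₀ * u₁⁻¹ * (-q₂ * m * (u₁ * g₀⁻¹)) = -(g₀ * (u₁⁻¹ * (q₂ * (m * u₁))) * g₀⁻¹) := by
      noncomm_ring
    have e2 : m * u₁ = u₂⁻¹ := by
      rw [hmc u₁ rfl hu12.symm, hm, ← mul_assoc, mul_inv_cancel₀ hιt0, one_mul]
    rw [e1, e2, hq2u2, ← mul_assoc u₁⁻¹, ← hm]
  · exact mul_ne_zero (mul_ne_zero hg0 (mul_ne_zero (by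
      rw [hm]
      exact mul_ne_zero (inv_ne_zero hιt0) (inv_ne_zero hu20)) hq0')) (inv_ne_zero hg0)
  · rw [hmul]
    have e1 : q₂ * m = u₃⁻¹ * u₂⁻¹ * q₂ := by
      rw [hm, ← mul_assoc, hq2u1, mul_assoc, hq2u2, mul_assoc]
    have e2 : m * q₂ * (m * q₂) = -(algebraMap k D n)⁻¹ := by
      have e3 : m * q₂ * (m * q₂) = m * (q₂ * m) * q₂ := by simp only [mul_assoc]
      have e4 : m * (u₃⁻¹ * u₂⁻¹ * q₂) * q₂ = m * (u₃⁻¹ * u₂⁻¹) * (q₂ * q₂) := by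
        simp only [mul_assoc]
      rw [e3, e1, e4, hqq', mul_neg]
      congr 1
      have e5 : m * (u₃⁻¹ * u₂⁻¹) * u₂ = m * u₃⁻¹ := by
        rw [mul_assoc, mul_assoc u₃⁻¹, inv_mul_cancel₀ hu20, mul_one]
      have e6 : u₁⁻¹ * u₂⁻¹ = u₂⁻¹ * u₁⁻¹ := by
        rw [← mul_inv_rev, ← mul_inv_rev, hu12]
      have e7 : (u₁ * u₂ * u₃)⁻¹ = u₃⁻¹ * (u₂⁻¹ * u₁⁻¹) := by
        rw [mul_inv_rev, mul_inv_rev]
      have e8 : u₃ * m = m * u₃ := by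
        refine (hmc u₃ ?_ ?_).symm
        · rw [hu₃, hu₁]
          have h1 : ι t₀ * ι₂ t₀ = ι₂ t₀ * ι t₀ := hcom t₀ t₀
          rw [mul_sub, mul_sub, sub_mul, sub_mul, h1, Algebra.commutes]
        · rw [hu₃, hu₂]
          have h1 : ι t₀ * ι₂ t₀ = ι₂ t₀ * ι t₀ := hcom t₀ t₀
          rw [mul_sub, mul_sub, sub_mul, sub_mul, h1, Algebra.commutes]
      have e9 : m * u₃⁻¹ = u₃⁻¹ * m := by
        rw [eq_inv_mul_iff_mul_eq₀ hu30, ← mul_assoc, e8, mul_assoc, mul_inv_cancel₀ hu30,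
          mul_one]
      rw [e5, ← hn, e7, e9, hm, e6]
    rw [e2, mul_neg, neg_mul, ← map_inv₀, ← Algebra.commutes, mul_assoc, mul_inv_cancel₀ hg0,
      mul_one, map_neg]
  · rw [hA, hmul, hmul]
    congr 2
    have e1 : q₂ * (2 * ι₂ g) = 2 * ι₂ g * q₂ := by
      rw [← mul_assoc, (Commute.ofNat_right q₂ 2).eq, mul_assoc, hqι, mul_assoc]
    have e2 : m * (2 * ι₂ g) = 2 * ι₂ g * m := by
      apply hmc
      · rw [← mul_assoc, (Commute.ofNat_right u₁ 2).eq, mul_assoc, hu₁, hcom, mul_assoc]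
      · rw [← mul_assoc, (Commute.ofNat_right u₂ 2).eq, mul_assoc, hu₂, ← map_mul, mul_comm t₀,
          map_mul, mul_assoc]
    rw [mul_assoc, e1, ← mul_assoc, e2, mul_assoc]
  · rw [hB, hmul]
    have e1 : g₀ * (m * q₂) * g₀⁻¹ * ι g = g₀ * (m * (q₂ * ι g)) * g₀⁻¹ := by
      rw [mul_assoc, ← hgci]
      simp only [mul_assoc]
    rw [e1, hqg]
    have e2 : m * ((ι₂ a - ι g) * q₂) = (ι₂ a - ι g) * (m * q₂) := by
      rw [← mul_assoc, hmc (ι₂ a - ι g), mul_assoc]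
      · rw [mul_sub, sub_mul, hu₁, hcom, ← map_mul, ← map_mul, mul_comm]
      · rw [mul_sub, sub_mul, hu₂, ← hcom, ← map_mul, ← map_mul, mul_comm]
    rw [e2]
    have e3 : (2 : D) * (g₀ * ((ι₂ a - ι g) * (m * q₂)) * g₀⁻¹) =
        g₀ * (2 * (ι₂ a - ι g) * (m * q₂)) * g₀⁻¹ := by
      have : g₀ * (2 * (ι₂ a - ι g) * (m * q₂)) = (g₀ * 2) * ((ι₂ a - ι g) * (m * q₂)) := by
        simp only [mul_assoc]
      rw [this, (Commute.ofNat_right g₀ 2).eq]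
      simp only [mul_assoc]
    exact e3

end Vale.Agent.P011.Six
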