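import Vale.Agent.P011.Six.Max

/-!
The invariant of the element `z` is a norm: the determinant of a semilinear map in dimension
three.
-/

open Module Polynomial NumberField IsDedekindDomain

set_option linter.unusedSectionVars false

namespace Vale.Agent.P011.Six

open Vale.Agent.P011.Arith Vale.Agent.P011.Even Vale.Agent.P011.Two Vale.Agent.P011.One

/-- The determinant of a semilinear map with scalar square. -/
theorem semi_det {M V : Type} [Field M] [AddCommGroup V] [Module M V] (b : Basis (Fin 3) M V)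
    (σ : M →+* M) (Z : V → V) (hadd : ∀ x y, Z (x + y) = Z x + Z y)
    (hsm : ∀ (m : M) (y : V), Z (m • y) = σ m • Z y) {θ : M} (hZZ : ∀ y, Z (Z y) = θ • y) :
    ∃ m : M, m * σ m = θ ^ 3 := by
  classical
  obtain ⟨A, hA⟩ : ∃ A : Matrix (Fin 3) (Fin 3) M, A = Matrix.of fun p l => b.repr (Z (b l)) p :=
    ⟨_, rfl⟩
  have hZ0 : Z 0 = 0 := by
    have := hadd 0 0
    rw [add_zero] at this
    exact left_eq_add.mp this
  have hsum : ∀ (f : Fin 3 → V), Z (∑ p, f p) = ∑ p, Z (f p) := by
    intro f
    rw [Fin.sum_univ_three, Fin.sum_univ_three, hadd, hadd]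
  have h1 : ∀ l, Z (b l) = ∑ p, A p l • b p := by
    intro l
    conv_lhs => rw [← b.sum_repr (Z (b l))]
    rw [hA]
    rfl
  have h2 : A * σ.mapMatrix A = θ • (1 : Matrix (Fin 3) (Fin 3) M) := by
    ext q l
    have h3 : Z (Z (b l)) = ∑ q, (∑ p, A q p * σ (A p l)) • b q := by
      conv_lhs => rw [h1 l]
      rw [hsum]
      have e1 : ∀ p, Z (A p l • b p) = ∑ q, (A q p * σ (A p l)) • b q := by
        intro p
        rw [hsm, h1 p, Finset.smul_sum]
        exact Finset.sum_congr rfl fun q _ => by rw [smul_smul, mul_comm]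
      rw [Finset.sum_congr rfl fun p _ => e1 p, Finset.sum_comm]
      exact Finset.sum_congr rfl fun q _ => by rw [← Finset.sum_smul]
    rw [hZZ] at h3
    have h4 := congrArg (fun v => b.repr v q) h3
    simp only [map_smul, map_sum, Basis.repr_self, Finsupp.smul_apply, Finsupp.coe_finsetSum,
      Finset.sum_apply, smul_eq_mul] at h4
    rw [Matrix.mul_apply]
    simp only [RingHom.mapMatrix_apply, Matrix.map_apply]
    rw [Matrix.smul_apply, Matrix.one_apply, smul_eq_mul]
    rw [Finset.sum_eq_single q (fun p _ hp => by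
      rw [Finsupp.single_eq_of_ne (Ne.symm hp), mul_zero]) (fun h => absurd (Finset.mem_univ q) h),
      Finsupp.single_eq_same, mul_one] at h4
    rw [← h4]
    by_cases hql : q = l
    · rw [hql, Finsupp.single_eq_same, if_pos rfl]
    · rw [Finsupp.single_eq_of_ne hql, if_neg hql]
  refine ⟨A.det, ?_⟩
  have h3 := congrArg Matrix.det h2
  rw [Matrix.det_mul, Matrix.det_smul, Matrix.det_one, mul_one, Fintype.card_fin] at h3
  rw [← h3, RingHom.map_det]

variable {k K D : Type} [Field k] [NumberField k] [Field K] [NumberField K] [StarRing K]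
  [DivisionRing D] [StarRing D] [Algebra k K] [Algebra k D] [Algebra K D] [IsScalarTower k K D]
  {d : kˣ} {s : K}

/-- The data of the quaternion algebra over `k`. -/
structure Base (k : Type) {D : Type} [Field k] [DivisionRing D] [StarRing D] [Algebra k D]
    (α β : kˣ) (i j : D) : Prop where
  si : star i = -i
  sj : star j = -j
  ii : i * i = algebraMap k D α
  jj : j * j = algebraMap k D β
  ij : i * j = -(j * i)

theorem Base.i0 {α β : kˣ} {i j : D} (hb : Base k α β i j) : i ≠ 0 := by
  rintro rfl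
  have h := hb.ii
  rw [mul_zero, eq_comm, map_eq_zero] at h
  exact α.ne_zero h

theorem Base.j0 {α β : kˣ} {i j : D} (hb : Base k α β i j) : j ≠ 0 := by
  rintro rfl
  have h := hb.jj
  rw [mul_zero, eq_comm, map_eq_zero] at h
  exact β.ne_zero h

/-- The centralizer of `i` has half the dimension. -/
theorem finrank_cen_i (hS : Setting k K D d s) {α β : kˣ} {i j : D} (hb : Base k α β i j) :
    finrank K D = 2 * finrank K (Subalgebra.centralizer K {i}) := by
  have hfD := hS.fin
  have hcharD : CharZero D := charZero_of_injective_algebraMap (algebraMap k D).injective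
  have hi0 := hb.i0
  have hj0 := hb.j0
  have hmem : ∀ y : D, y ∈ Subalgebra.centralizer K {i} ↔ i * y = y * i := by
    intro y
    rw [Subalgebra.mem_centralizer_iff]
    simp
  let V := Subalgebra.centralizer K {i}
  let f : V × V →ₗ[K] D :=
    { toFun := fun p => (p.1 : D) + j * (p.2 : D)
      map_add' := fun p q => by
        simp only [Prod.fst_add, Prod.snd_add]
        change ((p.1 : D) + q.1) + j * ((p.2 : D) + q.2) = _
        noncomm_ring
      map_smul' := fun c p => by
        simp only [Prod.smul_fst, Prod.smul_snd, RingHom.id_apply, smul_add]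
        change c • (p.1 : D) + j * (c • (p.2 : D)) = _
        rw [mul_smul_comm] }
  have hf : Function.Bijective f := by
    constructor
    · rw [← LinearMap.ker_eq_bot, LinearMap.ker_eq_bot']
      rintro ⟨y, y'⟩ hp
      have h1 : (y : D) + j * (y' : D) = 0 := hp
      have hy := (hmem y).mp y.2
      have hy' := (hmem y').mp y'.2
      have h2 : ((y : D) - j * y') * i = 0 := by
        have e1 : ((y : D) - j * y') * i = y * i - j * (y' * i) := by noncomm_ring
        rw [e1, ← hy, ← hy', ← mul_assoc]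
        have e2 : j * i = -(i * j) := by rw [hb.ij, neg_neg]
        rw [e2]
        have e3 : i * (y : D) - -(i * j) * y' = i * (y + j * y') := by noncomm_ring
        rw [e3, h1, mul_zero]
      have h3 : (y : D) - j * y' = 0 := (mul_eq_zero.mp h2).resolve_right hi0
      have h4 : (2 : D) * y = 0 := by
        have : (2 : D) * y = (y + j * y') + (y - j * y') := by noncomm_ring
        rw [this, h1, h3, add_zero]
      have h5 : (y : D) = 0 := (mul_eq_zero.mp h4).resolve_left two_ne_zero
      rw [h5, zero_add] at h1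
      have h6 : (y' : D) = 0 := (mul_eq_zero.mp h1).resolve_left hj0
      exact Prod.ext (Subtype.ext h5) (Subtype.ext h6)
    · intro y
      have hii : i * (i * y * i⁻¹) * i⁻¹ = y := by
        have e1 : i * (i * y * i⁻¹) * i⁻¹ = (i * i) * y * (i⁻¹ * i⁻¹) := by simp only [mul_assoc]
        have e2 : i⁻¹ * i⁻¹ = (i * i)⁻¹ := (mul_inv_rev i i).symm
        rw [e1, e2, hb.ii, Algebra.commutes, mul_assoc, mul_inv_cancel₀, mul_one]
        rw [Ne, map_eq_zero]
        exact α.ne_zero
      have h1 : (2 : D)⁻¹ * (y + i * y * i⁻¹) ∈ V := by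
        rw [hmem]
        have e1 : i * ((2 : D)⁻¹ * (y + i * y * i⁻¹)) = (2 : D)⁻¹ * (i * y + i * (i * y * i⁻¹)) := by
          have : i * (2 : D)⁻¹ = (2 : D)⁻¹ * i :=
            ((Commute.ofNat_right i 2).inv_right₀).eq
          rw [← mul_assoc, this, mul_assoc, mul_add]
        have e2 : (2 : D)⁻¹ * (y + i * y * i⁻¹) * i = (2 : D)⁻¹ * (y * i + i * y) := by
          rw [mul_assoc, add_mul, inv_mul_cancel_right₀ hi0]
        have e3 : i * (i * y * i⁻¹) = y * i := (mul_inv_eq_iff_eq_mul₀ hi0).mp hii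
        rw [e1, e2, e3, add_comm]
      have h2 : j⁻¹ * ((2 : D)⁻¹ * (y - i * y * i⁻¹)) ∈ V := by
        rw [hmem]
        have e3 : i * (i * y * i⁻¹) = y * i := (mul_inv_eq_iff_eq_mul₀ hi0).mp hii
        have e0 : i * (2 : D)⁻¹ = (2 : D)⁻¹ * i := ((Commute.ofNat_right i 2).inv_right₀).eq
        have e4 : i * j⁻¹ = -(j⁻¹ * i) := by
          have h5 : j * (i * j⁻¹ + j⁻¹ * i) * j = 0 := by
            have : j * (i * j⁻¹ + j⁻¹ * i) * j = j * i * (j⁻¹ * j) + (j * j⁻¹) * (i * j) := by
              noncomm_ring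
            rw [this, inv_mul_cancel₀ hj0, mul_inv_cancel₀ hj0, mul_one, one_mul, hb.ij]
            abel
          have h6 := (mul_eq_zero.mp ((mul_eq_zero.mp h5).resolve_right hj0)).resolve_left hj0
          exact eq_neg_of_add_eq_zero_left h6
        rw [← mul_assoc, e4, neg_mul, mul_assoc j⁻¹ i, ← mul_assoc i, e0, mul_assoc (2 : D)⁻¹,
          mul_sub, e3, mul_assoc j⁻¹, mul_assoc (2 : D)⁻¹ _ i, sub_mul, inv_mul_cancel_right₀ hi0,
          ← mul_neg, ← mul_neg, neg_sub]
      refine ⟨(⟨_, h1⟩, ⟨_, h2⟩), ?_⟩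
      change (2 : D)⁻¹ * (y + i * y * i⁻¹) + j * (j⁻¹ * ((2 : D)⁻¹ * (y - i * y * i⁻¹))) = y
      rw [mul_inv_cancel_left₀ hj0, ← mul_add]
      have : y + i * y * i⁻¹ + (y - i * y * i⁻¹) = 2 * y := by noncomm_ring
      rw [this, inv_mul_cancel_left₀ two_ne_zero]
  have h1 := (LinearEquiv.ofBijective f hf).finrank_eq
  rw [Module.finrank_prod] at h1
  rw [← h1, two_mul]


/-- The invariant of `z` is a norm. -/
theorem exists_normform (hS : Setting k K D d s) (hdeg : finrank K D = 6 ^ 2) {α β : kˣ}
    {i j : D} (hb : Base k α β i j) {F : Type} [Field F] [NumberField F] [Algebra k F]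
    (h3 : finrank k F = 3) {ι : F →ₐ[k] D} {z : D} (H : WF ι i z (algebraMap k F α)) {θ : D}
    (hθ : θ ∈ EF hS ι) (hzz : z * z * algebraMap k D β = θ) (hθθ : θ * star θ = 1)
    (hθs : star θ ∈ EF hS ι) :
    ∃ P ∈ EF hS ι, ∃ Q ∈ EF hS ι, θ = P * P - algebraMap k D α * (Q * Q) := by
  have hfD := hS.fin
  have hcharD : CharZero D := charZero_of_injective_algebraMap (algebraMap k D).injective
  have hz0 := H.h0
  have hi0 := hb.i0
  obtain ⟨M, _, _, _, jM, hM, hMr⟩ := exists_MF hS H
  have hinj : Function.Injective jM := jM.toRingHom.injective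
  rw [h3] at hMr
  have hV := finrank_cen_i hS hb
  have hmem : ∀ y : D, y ∈ Subalgebra.centralizer K {i} ↔ i * y = y * i := by
    intro y
    rw [Subalgebra.mem_centralizer_iff]
    simp
  let V := Subalgebra.centralizer K {i}
  have hMi : ∀ m : M, jM m ∈ V := by
    intro m
    obtain ⟨x, hx, x', hx', h4⟩ := (hM _).mp ⟨m, rfl⟩
    rw [hmem, h4, mul_add, add_mul, ← EF_comm_of (hS := hS) H.cw hx, mul_assoc i x',
      EF_comm_of (hS := hS) H.cw hx']
  -- the module structure
  let φ : M →+* V := (jM : M →+* D).codRestrict V hMi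
  let _ : Module M V := Module.compHom V φ
  have hsmul : ∀ (m : M) (y : V), ((m • y : V) : D) = jM m * y := fun _ _ => rfl
  have _ : IsScalarTower K M V := ⟨fun c m y => Subtype.ext (by
    change jM (c • m) * (y : D) = c • (jM m * (y : D))
    rw [Algebra.smul_def c m, map_mul, jM.commutes, mul_assoc, ← Algebra.smul_def])⟩
  have _ : FiniteDimensional M V := FiniteDimensional.right K M V
  have hfin : finrank M V = 3 := by
    have h5 : finrank K M * finrank M V = finrank K V := Module.finrank_mul_finrank K M V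
    have h6 : finrank K V = 18 := by
      change finrank K (Subalgebra.centralizer K {i}) = 18
      rw [hdeg] at hV
      omega
    rw [h6, hMr] at h5
    omega
  let b : Basis (Fin 3) M V := Module.finBasisOfFinrankEq M V hfin
  -- the semilinear map
  have hZm : ∀ y : V, z * (y : D) * j ∈ V := by
    intro y
    have hy := (hmem y).mp y.2
    rw [hmem]
    calc i * (z * (y : D) * j) = (i * z) * y * j := by simp only [mul_assoc]
      _ = -(z * (i * y) * j) := by rw [H.wh]; simp only [mul_assoc, neg_mul]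
      _ = -(z * y * (i * j)) := by rw [hy]; simp only [mul_assoc]
      _ = z * y * j * i := by rw [hb.ij]; simp only [mul_assoc, mul_neg, neg_neg]
  let Z : V → V := fun y => ⟨z * (y : D) * j, hZm y⟩
  have hZv : ∀ y : V, ((Z y : V) : D) = z * (y : D) * j := fun _ => rfl
  -- the automorphism
  have hσm : ∀ m : M, ∃ m' : M, jM m' = z * jM m * z⁻¹ := by
    intro m
    obtain ⟨x, hx, x', hx', h4⟩ := (hM _).mp ⟨m, rfl⟩
    have h5 : z * jM m * z⁻¹ = x + i * (-x') := by
      rw [h4, mul_inv_eq_iff_eq_mul₀ hz0, mul_add, add_mul, ← EF_comm_of (hS := hS) H.ch hx,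
        ← mul_assoc z i]
      have e1 : z * i = -(i * z) := by rw [H.wh, neg_neg]
      rw [e1, mul_assoc i (-x'), neg_mul x' z, EF_comm_of (hS := hS) H.ch hx', neg_mul,
        mul_assoc i z x', mul_neg]
    obtain ⟨m', hm'⟩ := (hM _).mpr (⟨x, hx, -x', neg_mem hx', rfl⟩ : x + i * (-x') ∈ MF hS H)
    exact ⟨m', by rw [hm', h5]⟩
  choose σ0 hσ0 using hσm
  let σ : M →+* M :=
    { toFun := σ0
      map_one' := hinj (by rw [hσ0, map_one, mul_one, mul_inv_cancel₀ hz0])
      map_mul' := fun a c => hinj (by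
        rw [hσ0, map_mul, map_mul, hσ0, hσ0]
        simp only [mul_assoc, inv_mul_cancel_left₀ hz0])
      map_zero' := hinj (by rw [hσ0, map_zero, mul_zero, zero_mul])
      map_add' := fun a c => hinj (by rw [hσ0, map_add, map_add, hσ0, hσ0, mul_add, add_mul]) }
  have hσ : ∀ m, jM (σ m) = z * jM m * z⁻¹ := hσ0
  obtain ⟨θ', hθ'⟩ := (hM θ).mpr ⟨θ, hθ, 0, zero_mem _, by rw [mul_zero, add_zero]⟩
  have hβ0 : algebraMap k D β ≠ 0 := by
    rw [Ne, map_eq_zero]
    exact β.ne_zero
  obtain ⟨m, hm⟩ := semi_det b σ Z (fun x y => Subtype.ext (by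
      change z * ((x : D) + y) * j = z * (x : D) * j + z * (y : D) * j
      noncomm_ring))
    (fun m y => Subtype.ext (by
      change z * (jM m * (y : D)) * j = jM (σ m) * (z * (y : D) * j)
      rw [hσ]
      simp only [mul_assoc, inv_mul_cancel_left₀ hz0]))
    (θ := θ') (fun y => Subtype.ext (by
      change z * (z * (y : D) * j) * j = jM θ' * (y : D)
      rw [hθ', ← hzz]
      have e1 : z * (z * (y : D) * j) * j = z * z * y * (j * j) := by simp only [mul_assoc]
      rw [e1, hb.jj, mul_assoc (z * z), ← Algebra.commutes (β : k) (y : D)]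
      simp only [mul_assoc]))
  obtain ⟨x, hx, x', hx', h4⟩ := (hM _).mp ⟨m, rfl⟩
  have h5 : jM (σ m) = x - i * x' := by
    rw [hσ, h4, mul_inv_eq_iff_eq_mul₀ hz0, mul_add, sub_mul, ← EF_comm_of (hS := hS) H.ch hx,
      ← mul_assoc z i]
    have e1 : z * i = -(i * z) := by rw [H.wh, neg_neg]
    rw [e1, mul_assoc i x', EF_comm_of (hS := hS) H.ch hx', neg_mul,
      mul_assoc i z x', sub_eq_add_neg]
  have h6 := congrArg jM hm
  rw [map_mul, map_pow, h5, h4, hθ'] at h6
  have hix' := EF_comm_of (hS := hS) H.cw hx'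
  have hix := EF_comm_of (hS := hS) H.cw hx
  have h7 : θ ^ 3 = x * x - algebraMap k D α * (x' * x') := by
    rw [← h6]
    have e1 : (x + i * x') * (x - i * x') = x * x - (x * i) * x' + i * (x' * x) -
        i * (x' * i) * x' := by noncomm_ring
    rw [e1, hix, hix', EF_comm (hS := hS) hx' hx, ← mul_assoc i i, hb.ii]
    noncomm_ring
  have hss : star θ * θ = 1 := by
    have h0 : θ ≠ 0 := left_ne_zero_of_mul_eq_one hθθ
    rw [eq_inv_of_mul_eq_one_right hθθ, inv_mul_cancel₀ h0]
  have hxs := EF_comm (hS := hS) hx hθs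
  have hxs' := EF_comm (hS := hS) hx' hθs
  refine ⟨x * star θ, mul_mem hx hθs, x' * star θ, mul_mem hx' hθs, ?_⟩
  have e1 : x * star θ * (x * star θ) - algebraMap k D α * (x' * star θ * (x' * star θ)) =
      (x * x - algebraMap k D α * (x' * x')) * (star θ * star θ) := by
    have e2 : x * star θ * (x * star θ) = x * x * (star θ * star θ) := by
      rw [mul_assoc x, ← mul_assoc (star θ), ← hxs]
      simp only [mul_assoc]
    have e3 : x' * star θ * (x' * star θ) = x' * x' * (star θ * star θ) := by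
      rw [mul_assoc x', ← mul_assoc (star θ), ← hxs']
      simp only [mul_assoc]
    rw [e2, e3]
    noncomm_ring
  rw [e1, ← h7]
  have e4 : θ ^ 3 * (star θ * star θ) = θ * (θ * (θ * star θ) * star θ) := by noncomm_ring
  rw [e4, hθθ, mul_one, hθθ, mul_one]


end Vale.Agent.P011.Six
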