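import Vale.Agent.P011.Six.Kappa
import Vale.Agent.P011.Pow.MP

/-!
The subgroups of finite index are open in degree six.
-/

open Module NumberField IsDedekindDomain Filter Topology

set_option linter.unusedSectionVars false

namespace Vale.Agent.P011.Six

open Vale.Agent.P011.Arith Vale.Agent.P011.Even Vale.Agent.P011.Two Vale.Agent.P011.One

variable {k K D : Type} [Field k] [NumberField k] [Field K] [NumberField K] [StarRing K]
  [DivisionRing D] [StarRing D] [Algebra k K] [Algebra k D] [Algebra K D] [IsScalarTower k K D]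
  {d : kˣ} {s : K} {α β : kˣ} {i j : D}

/-- The symmetric square root `s i`. -/
theorem si_mem (hS : Setting k K D d s) (hb : Base k α β i j) :
    algebraMap K D s * i ∈ Xa D (d * α) := by
  have hs : star (algebraMap K D s) = -algebraMap K D s := by
    rw [hS.star_alg, hS.star_s, map_neg]
  have hc : ∀ y : D, algebraMap K D s * y = y * algebraMap K D s := sS_comm
  refine ⟨?_, ?_⟩
  · rw [star_mul, hb.si, hs, neg_mul_neg, hc]
  · rw [mul_assoc, ← mul_assoc i, ← hc i, mul_assoc, hb.ii, ← mul_assoc, sS_sq hS, ← map_mul,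
      Units.val_mul]

/-- Every subgroup of finite index is open for the topology of the places at which the group is
anisotropic. -/
theorem open_six (hS : Setting k K D d s) (hdeg : finrank K D = 6 ^ 2) (hb : Base k α β i j)
    (hR : RealC (D := D) k α β d) (hD : DiscC k α β d i j) {Ω : Type} [Field Ω] [Algebra K Ω]
    (f : D →ₐ[K] Matrix (Fin 6) (Fin 6) Ω) (H : Subgroup (SUD f)) (hi : H.index ≠ 0) :
    IsOpen[adicTop (Adiv k K D) (SUD f)] (H : Set (SUD f)) := by
  have hfin := hS.fin
  have hKf : FiniteDimensional k K := Module.finite_of_finrank_pos (by rw [hS.rank]; norm_num)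
  have hDf : FiniteDimensional k D := Module.Finite.trans K D
  have : H.FiniteIndex := ⟨hi⟩
  have hi' : H.normalCore.index ≠ 0 := Subgroup.FiniteIndex.index_ne_zero
  obtain ⟨S, hSf, h⟩ := Pow.pf_of_abAt hS (by norm_num) hdeg f (finBasis k D) (si_mem hS hb)
    H.normalCore hi' (ab_six hS hdeg hb hR hD f (finBasis k D) H.normalCore hi')
  refine isOpen_of_pf hS (by norm_num) hdeg f (finBasis k D) H hi'
    (fun g => H.normalCore_le (Subgroup.pow_index_mem _ g)) hSf (h.mono ?_)
  rintro _ ⟨g, hg, rfl⟩
  exact ⟨g, H.normalCore_le hg, rfl⟩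

end Vale.Agent.P011.Six
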