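import Vale.Agent.P011.Six.EichB
import Vale.Agent.P011.Six.Final

/-!
Weak approximation in degree six.
-/

open NumberField IsDedekindDomain TensorProduct Module Polynomial

set_option linter.unusedSectionVars false

namespace Vale.Agent.P011.Six

open Vale.Agent.P011.Arith Vale.Agent.P011.Even Vale.Agent.P011.Two Vale.Agent.P011.W
  Vale.Agent.P011.Pow Vale.Agent.P011.One

/-- A quaternion algebra with a positive square is split at a real place. -/
theorem spl_quad {E C : Type} [Field E] [DivisionRing C] [Algebra E C] [FiniteDimensional E C]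
    [Algebra.IsCentral E C] (hC : finrank E C = 2 ^ 2) {x : C} {a : E}
    (hx : x * x = algebraMap E C a) (hxn : ∀ c : E, algebraMap E C c ≠ x) (φ : E →+* ℝ)
    (ha : 0 < φ a) : Spl C 2 φ := by
  let _ : Algebra E ℝ := φ.toAlgebra
  have hint : IsIntegral E x := IsIntegral.of_finite E x
  have hm : (X ^ 2 - Polynomial.C a : E[X]).Monic := monic_X_pow_sub_C a two_ne_zero
  have hd : (X ^ 2 - Polynomial.C a : E[X]).natDegree = 2 := natDegree_X_pow_sub_C
  have h0 : aeval x (X ^ 2 - Polynomial.C a : E[X]) = 0 := by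
    rw [map_sub, map_pow, aeval_X, aeval_C, pow_two, hx, sub_self]
  have h1 : 2 ≤ (minpoly E x).natDegree := by
    rw [minpoly.two_le_natDegree_iff hint]
    rintro ⟨c, hc⟩
    exact hxn c hc
  have h2 : minpoly E x = X ^ 2 - Polynomial.C a := by
    refine Polynomial.eq_of_monic_of_dvd_of_natDegree_le (minpoly.monic hint) hm
      (minpoly.dvd E x h0) ?_ |>.symm
    rw [hd]
    exact h1
  have h3 : aeval (Real.sqrt (φ a)) (minpoly E x) = 0 := by
    have h4 : algebraMap E ℝ a = φ a := rfl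
    rw [h2, map_sub, map_pow, aeval_X, aeval_C, h4, Real.sq_sqrt ha.le, sub_self]
  exact spl_of_root hC x (by rw [h2, hd]) _ h3

/-- The quaternions do not act on a space of dimension six. -/
theorem quat_not_six (I J : Matrix (Fin 6) (Fin 6) ℝ) {a b : ℝ} (ha : a < 0) (hb : b < 0)
    (hI : I * I = a • 1) (hJ : J * J = b • 1) (hIJ : I * J = -(J * I)) : False := by
  have hqb : ∃ ι : Quaternion ℝ →ₐ[ℝ] Matrix (Fin 6) (Fin 6) ℝ, True := by
    have h1 : (√(-a))⁻¹ * (√(-a))⁻¹ * a = -1 := by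
      rw [← mul_inv, Real.mul_self_sqrt (by linarith), inv_neg, neg_mul, inv_mul_cancel₀ ha.ne]
    have h2 : (√(-b))⁻¹ * (√(-b))⁻¹ * b = -1 := by
      rw [← mul_inv, Real.mul_self_sqrt (by linarith), inv_neg, neg_mul, inv_mul_cancel₀ hb.ne]
    let q : QuaternionAlgebra.Basis (Matrix (Fin 6) (Fin 6) ℝ) (-1 : ℝ) (0 : ℝ) (-1 : ℝ) :=
      { i := (√(-a))⁻¹ • I
        j := (√(-b))⁻¹ • J
        k := ((√(-a))⁻¹ • I) * ((√(-b))⁻¹ • J)
        i_mul_i := by
          rw [smul_mul_smul_comm, hI, smul_smul, h1, zero_smul, add_zero]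
        j_mul_j := by
          rw [smul_mul_smul_comm, hJ, smul_smul, h2]
        i_mul_j := rfl
        j_mul_i := by
          rw [smul_mul_smul_comm, smul_mul_smul_comm, hIJ, zero_smul, zero_sub, smul_neg, neg_neg,
            mul_comm] }
    exact ⟨QuaternionAlgebra.lift q, trivial⟩
  obtain ⟨ι, -⟩ := hqb
  let V := Fin 6 → ℝ
  let ψ : Quaternion ℝ →+* Module.End ℝ V :=
    (Matrix.toLinAlgEquiv' : Matrix (Fin 6) (Fin 6) ℝ ≃ₐ[ℝ] (V →ₗ[ℝ] V)).toRingEquiv.toRingHom.comp
      (ι : Quaternion ℝ →+* Matrix (Fin 6) (Fin 6) ℝ)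
  let _ : Module (Quaternion ℝ) V := Module.compHom V ψ
  have : IsScalarTower ℝ (Quaternion ℝ) V := ⟨fun x c v => by
    change ψ (x • c) v = x • ψ c v
    have h1 : ψ (x • c) = x • ψ c := by
      change Matrix.toLinAlgEquiv' (ι (x • c)) = x • Matrix.toLinAlgEquiv' (ι c)
      rw [map_smul, map_smul]
    rw [h1]
    rfl⟩
  have h1 := Module.finrank_mul_finrank ℝ (Quaternion ℝ) V
  rw [Quaternion.finrank_eq_four, Module.finrank_fin_fun] at h1
  omega

variable {k K D : Type} [Field k] [NumberField k] [Field K] [NumberField K] [StarRing K]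
    [DivisionRing D] [StarRing D] [Algebra k K] [Algebra k D] [Algebra K D] [IsScalarTower k K D]
    {d : kˣ} {s : K} {α β : kˣ} {i j : D}

theorem Base.not_K [CharZero D] (hb : Base k α β i j) {x : D} (hx : x * i = i * x)
    (hj : x * j = j * x) : x ≠ i ∧ x ≠ j := by
  have h2 : (2 : D) ≠ 0 := two_ne_zero
  have h0 := hb.i0
  have h0' := hb.j0
  have hij := hb.ij
  constructor
  · rintro rfl
    have h1 : (2 : D) * (j * x) = 0 := by
      rw [two_mul]
      nth_rw 1 [← hj]
      rw [hij, neg_add_cancel]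
    exact (mul_ne_zero h2 (mul_ne_zero h0' h0)) h1
  · rintro rfl
    have h1 : (2 : D) * (x * i) = 0 := by
      rw [two_mul]
      nth_rw 1 [hx]
      rw [hij, neg_add_cancel]
    exact (mul_ne_zero h2 (mul_ne_zero h0' h0)) h1

/-- The quaternion algebra is split where `D` is. -/
theorem not_spl_six (hb : Base k α β i j) (φ : K →+* ℝ) (ha : φ (algebraMap k K α) < 0)
    (hb' : φ (algebraMap k K β) < 0) : ¬ Spl D 6 φ := by
  rintro ⟨f, hf⟩
  have e1 : ∀ c : k, f (algebraMap k D c) = φ (algebraMap k K c) • 1 := by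
    intro c
    rw [IsScalarTower.algebraMap_apply k K D, hf]
    ext a b
    rw [Matrix.scalar_apply, Matrix.diagonal_apply, Matrix.smul_apply, Matrix.one_apply,
      smul_eq_mul, mul_ite, mul_one, mul_zero]
  refine quat_not_six (f i) (f j) ha hb' ?_ ?_ ?_
  · rw [← map_mul, hb.ii, e1]
  · rw [← map_mul, hb.jj, e1]
  · rw [← map_mul, hb.ij, map_neg, map_mul]

/-- The norm theorem in degree six. -/
theorem en_six (hS : Setting k K D d s) (hdeg : finrank K D = 6 ^ 2) (hb : Base k α β i j) :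
    EN K D 6 := by
  classical
  have := hS.fin
  have := hS.cen
  have hcharD : CharZero D := charZero_of_injective_algebraMap (algebraMap k D).injective
  intro T hT hTu γ hγ
  -- the quaternion part
  obtain ⟨Y, hYs, hYi, hYj, hYn⟩ := exists_sym hS hdeg hb
  obtain ⟨F, _, _, _, ι, g, sym, ci, cjj, h3, hg, hgk⟩ := exists_FY hS hdeg hb hYs hYi hYj hYn
  obtain ⟨E, _, _, _, jE, hrange, hE⟩ := exists_EF hS ι sym
  rw [h3] at hE
  obtain ⟨C, _, _, _, _, ιC, hC, hιC, hcomm⟩ := W.exists_centralizer (n := 3) (m := 2)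
    (by rw [hdeg]) hE (by norm_num) jE
  have hEi : ∀ z, i * jE z = jE z * i := fun z =>
    (EF_comm_of (hS := hS) (ι := ι) ci ((hrange _).mp ⟨z, rfl⟩)).symm
  have hEj : ∀ z, j * jE z = jE z * j := fun z =>
    (EF_comm_of (hS := hS) (ι := ι) cjj ((hrange _).mp ⟨z, rfl⟩)).symm
  obtain ⟨i', hi'⟩ := hcomm i hEi
  obtain ⟨j', hj'⟩ := hcomm j hEj
  have hij' : ∀ z : E, algebraMap E C z ≠ i' ∧ algebraMap E C z ≠ j' := by
    intro z
    have h1 := Base.not_K hb (x := jE z) (hEi z).symm (hEj z).symm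
    constructor
    · intro h
      apply h1.1
      rw [← hιC, h, hi']
    · intro h
      apply h1.2
      rw [← hιC, h, hj']
  have hkE : ∀ c : k, jE (algebraMap K E (algebraMap k K c)) = algebraMap k D c := fun c => by
    rw [jE.commutes, ← IsScalarTower.algebraMap_apply]
  have hii : i' * i' = algebraMap E C (algebraMap K E (algebraMap k K α)) := by
    apply ιC.injective
    rw [map_mul, hi', hb.ii, hιC, hkE]
  have hjj : j' * j' = algebraMap E C (algebraMap K E (algebraMap k K β)) := by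
    apply ιC.injective
    rw [map_mul, hj', hb.jj, hιC, hkE]
  have hspl : ∀ φ : E →+* ℝ, Spl C 2 φ ∨ ¬ Spl D 6 (φ.comp (algebraMap K E)) := by
    intro φ
    have hα0 : φ (algebraMap K E (algebraMap k K α)) ≠ 0 := (_root_.map_ne_zero _).mpr
      ((_root_.map_ne_zero _).mpr ((_root_.map_ne_zero _).mpr α.ne_zero))
    have hβ0 : φ (algebraMap K E (algebraMap k K β)) ≠ 0 := (_root_.map_ne_zero _).mpr
      ((_root_.map_ne_zero _).mpr ((_root_.map_ne_zero _).mpr β.ne_zero))
    rcases lt_or_gt_of_ne hα0 with h1 | h1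
    · rcases lt_or_gt_of_ne hβ0 with h2 | h2
      · exact Or.inr (not_spl_six hb _ h1 h2)
      · exact Or.inl (spl_quad hC hjj (fun c => (hij' c).2) φ h2)
    · exact Or.inl (spl_quad hC hii (fun c => (hij' c).1) φ h1)
  obtain ⟨δ₁, hδ₁0, hδ₁1, hδ₁⟩ := part_near (n := 6) hdeg Nat.prime_two hC (by rw [hE]) ιC
    (fun c => by rw [hιC, jE.commutes]) (fun _ φ => hspl φ) T hT γ hγ
  -- the cubic part
  have hiK : i * i = algebraMap K D (algebraMap k K α) := by
    rw [hb.ii, ← IsScalarTower.algebraMap_apply]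
  have hnt : ∀ c : K, algebraMap K D c ≠ i := fun c =>
    (Base.not_K hb (x := algebraMap K D c) (Algebra.commutes _ _) (Algebra.commutes _ _)).1
  have hFL := finrank_FL hiK hnt
  have : FiniteDimensional K (FL hiK) := Module.finite_of_finrank_pos (by rw [hFL]; norm_num)
  have : NumberField (FL hiK) := numberField_fin (k := K)
  have := cen_CT hiK hnt
  obtain ⟨δ₂, hδ₂0, hδ₂1, hδ₂⟩ := part_near (n := 6) hdeg Nat.prime_three (K' := FL hiK)
    (C := CT hiK) (finrank_FC hiK hnt (m := 3) (by rw [hdeg])) (by rw [hFL]) (cv hiK)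
    (fun c => rfl) (fun h => absurd h (by norm_num)) T hT γ hγ
  refine ⟨fun _ => min δ₁ δ₂, fun _ => ?_, fun y hy hyp hyT => ?_⟩
  · rcases min_choice δ₁ δ₂ with h | h <;> rw [h] <;> assumption
  obtain ⟨t₁, z₁, h11, h12, h13⟩ := hδ₁ y hy hyp fun w hw => (hyT w hw).trans_le (min_le_left _ _)
  obtain ⟨t₂, z₂, h21, h22, h23⟩ := hδ₂ y hy hyp fun w hw => (hyT w hw).trans_le (min_le_right _ _)
  rw [hE] at h11
  rw [hFL] at h21
  have ht₂ : t₂ ≠ 0 := h21.ne_zero hdeg (pow_ne_zero 2 hy)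
  have h4 := h11.mul (h21.inv ht₂)
  have e1 : y ^ 3 * (y ^ 2)⁻¹ = y := by field_simp
  rw [e1] at h4
  obtain ⟨z, hz⟩ := exists_nrd hdeg ((t₁ - 1) + -(t₂ - 1))
  have h5 := hz.mul (h21.inv ht₂)
  have e2 : ((t₁ - 1) + -(t₂ - 1)) * t₂⁻¹ = t₁ * t₂⁻¹ - 1 := by
    rw [neg_sub, sub_add_sub_cancel, sub_mul, mul_inv_cancel₀ ht₂]
  rw [e2] at h5
  refine ⟨t₁ * t₂⁻¹, _, h4, h5, fun w hw => ?_⟩
  have h6 := hTu w hw _ _ _ _ _ h12 (Pow.HasNrd.neg h22) hz
  have h7 : w.valuation K y = 1 := by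
    have h8 := (w.valuation K).map_one_add_of_lt (x := y - 1)
      (((hyT w hw).trans_le (min_le_left _ _)).trans_le hδ₁1)
    rwa [add_sub_cancel] at h8
  rw [map_mul, map_inv₀, map_pow, h7, one_pow, inv_one, mul_one]
  refine h6.trans_lt (max_lt (h13 w hw) ?_)
  rw [map_mul, map_pow, Valuation.map_neg, map_one, one_pow, one_mul]
  exact h23 w hw

end Vale.Agent.P011.Six
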