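import Vale.Agent.P011.Six.EichA
import Vale.Agent.P011.One.WAd

/-!
Weak approximation from the norm theorem.
-/

open NumberField IsDedekindDomain TensorProduct Module Filter Topology

set_option linter.unusedSectionVars false

namespace Vale.Agent.P011.Six

open Vale.Agent.P011.Arith Vale.Agent.P011.Even Vale.Agent.P011.Two Vale.Agent.P011.W
  Vale.Agent.P011.Pow Vale.Agent.P011.One

/-- The norm theorem with elements close to one. -/
def EN (K D : Type) [Field K] [NumberField K] [DivisionRing D] [Algebra K D] (n : ℕ) : Prop :=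
  ∀ T : Set (HeightOneSpectrum (𝓞 K)), T.Finite → (∀ w ∈ T, Ult K D n w) →
    ∀ γ : HeightOneSpectrum (𝓞 K) → Z0, (∀ w, γ w ≠ 0) →
    ∃ δ : HeightOneSpectrum (𝓞 K) → Z0, (∀ w, δ w ≠ 0) ∧ ∀ y : K, y ≠ 0 →
      (∀ φ : K →+* ℝ, Spl D n φ ∨ 0 < φ y) → (∀ w ∈ T, w.valuation K (y - 1) < δ w) →
      ∃ (t : D) (z : K), HasNrd K n t y ∧ HasNrd K n (t - 1) z ∧ ∀ w ∈ T, w.valuation K z < γ w

variable {k K D : Type} [Field k] [NumberField k] [Field K] [NumberField K] [StarRing K]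
    [DivisionRing D] [StarRing D] [Algebra k K] [Algebra k D] [Algebra K D] [IsScalarTower k K D]
    {d : kˣ} {s : K} {n : ℕ}

/-- Unitary elements with given reduced norm near `1` at places where the reduced norm is
ultrametric. -/
theorem nrd_near_of (hS : Setting k K D d s) (hD : finrank K D = n ^ 2) (hEN : EN K D n)
    (T : Set (HeightOneSpectrum (𝓞 K))) (hT : T.Finite) (hTu : ∀ w ∈ T, Ult K D n w)
    (γ : HeightOneSpectrum (𝓞 K) → Z0) (hγ : ∀ w, γ w ≠ 0) :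
    ∃ δ : HeightOneSpectrum (𝓞 K) → Z0, (∀ w, δ w ≠ 0) ∧ ∀ ν : K, ν * star ν = 1 →
      (∀ φ : K →+* ℝ, Spl D n φ ∨ 0 < φ ν) →
      (∀ w ∈ T, w.valuation K (ν - 1) < δ w ∧ w.valuation K (star ν - 1) < δ w) →
      ∃ (u : D) (z : K), u * star u = 1 ∧ HasNrd K n u ν ∧ HasNrd K n (u - 1) z ∧
        ∀ w ∈ T, w.valuation K z < γ w := by
  classical
  have := hS.fin
  have := hS.cen
  obtain ⟨σ, hσ⟩ := exists_starAut hS
  choose c hc _ using fun w : HeightOneSpectrum (𝓞 K) => Arith.exists_conj σ w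
  have hc' : ∀ w x, (c w).valuation K x = w.valuation K (star x) := by
    intro w x
    rw [← hc w (star x), hσ, star_star]
  obtain ⟨γ₀, hγ₀0, hγ₀1, hγ₀⟩ := exists_lower T hT γ hγ
  obtain ⟨δ₁, hδ₁0, hδ₁⟩ := hEN (T ∪ c '' T) (hT.union (hT.image c)) (by
    rintro w (hw | ⟨w, hw, rfl⟩)
    · exact hTu w hw
    · intro x y a b e hx hy he
      have h1 := HasNrd.star hS.star_alg he
      rw [star_add] at h1
      rw [hc', hc', hc']
      exact hTu w hw _ _ _ _ _ (HasNrd.star hS.star_alg hx) (HasNrd.star hS.star_alg hy) h1)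
    (fun _ => γ₀) (fun _ => hγ₀0)
  have h20 : ∀ w : HeightOneSpectrum (𝓞 K), w.valuation K 2 ≠ 0 := fun w =>
    (Valuation.ne_zero_iff _).mpr two_ne_zero
  have h21 : ∀ w : HeightOneSpectrum (𝓞 K), w.valuation K 2 ≤ 1 := fun w =>
    e_val_nat_le (w.valuation K) 2
  have hmin : ∀ a b : Z0, a ≠ 0 → b ≠ 0 → min a b ≠ 0 := by
    intro a b ha hb
    rcases min_choice a b with h | h <;> rw [h] <;> assumption
  refine ⟨fun w => min (min (δ₁ w) (δ₁ (c w))) 1 * w.valuation K 2,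
    fun w => mul_ne_zero (hmin _ _ (hmin _ _ (hδ₁0 w) (hδ₁0 _)) one_ne_zero) (h20 w),
    fun ν hν hpos hνT => ?_⟩
  -- `ζ / star ζ = ν`
  obtain ⟨ζ, hζ0, hζν, hζpos, hζT⟩ : ∃ ζ : K, ζ ≠ 0 ∧ ζ * (star ζ)⁻¹ = ν ∧
      (∀ φ : K →+* ℝ, Spl D n φ ∨ 0 < φ ζ) ∧
      ∀ w ∈ T, w.valuation K (ζ - 1) < min (min (δ₁ w) (δ₁ (c w))) 1 ∧
        w.valuation K (star ζ - 1) < min (min (δ₁ w) (δ₁ (c w))) 1 := by
    by_cases hν1 : ν = -1
    · refine ⟨s, hS.s_ne, ?_, fun φ => ?_, fun w hw => ?_⟩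
      · rw [hS.star_s, hν1, inv_neg, mul_neg, mul_inv_cancel₀ hS.s_ne]
      · rcases hpos φ with h | h
        · exact Or.inl h
        · exfalso
          rw [hν1, map_neg, map_one] at h
          linarith
      · exfalso
        have h1 := (hνT w hw).1
        have e1 : ν - 1 = -2 := by rw [hν1]; norm_num
        rw [e1, Valuation.map_neg] at h1
        have h2 : min (min (δ₁ w) (δ₁ (c w))) 1 * w.valuation K 2 ≤ 1 * w.valuation K 2 :=
          mul_le_mul_left (min_le_right _ _) _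
        rw [one_mul] at h2
        exact absurd (h1.trans_le h2) (lt_irrefl _)
    · have h1 : 1 + ν ≠ 0 := fun h => hν1 (by linear_combination h)
      have hν0 : ν ≠ 0 := left_ne_zero_of_mul_eq_one hν
      have h2 : star (2 : K) = 2 := star_ofNat 2
      have hsν : star ν = ν⁻¹ := eq_inv_of_mul_eq_one_right hν
      have hsζ : star ((1 + ν) / 2) = (1 + ν⁻¹) / 2 := by
        rw [star_div₀, star_add, star_one, hsν, h2]
      refine ⟨(1 + ν) / 2, div_ne_zero h1 two_ne_zero, ?_, fun φ => ?_, fun w hw => ?_⟩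
      · have h3 : (1 + ν⁻¹) / 2 = ((1 + ν) / 2) * ν⁻¹ := by
          rw [div_mul_eq_mul_div, add_mul, mul_inv_cancel₀ hν0, one_mul, add_comm]
        rw [hsζ, h3, mul_inv, inv_inv, ← mul_assoc,
          mul_inv_cancel₀ (div_ne_zero h1 two_ne_zero), one_mul]
      · rcases hpos φ with h | h
        · exact Or.inl h
        · right
          rw [map_div₀, map_add, map_one, map_ofNat]
          linarith
      · have key : ∀ μ : K, w.valuation K (μ - 1) <
            min (min (δ₁ w) (δ₁ (c w))) 1 * w.valuation K 2 →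
            w.valuation K ((1 + μ) / 2 - 1) < min (min (δ₁ w) (δ₁ (c w))) 1 := by
          intro μ hμ
          have e1 : (1 + μ) / 2 - 1 = (μ - 1) / 2 := by ring
          rw [e1, map_div₀]
          exact (div_lt_iff₀ (zero_lt_iff.mpr (h20 w))).mpr hμ
        refine ⟨key ν (hνT w hw).1, ?_⟩
        rw [hsζ, ← hsν]
        exact key _ (hνT w hw).2
  obtain ⟨Z, z, hZ, hz, hzT⟩ := hδ₁ ζ hζ0 hζpos (by
    rintro w (hw | ⟨w, hw, rfl⟩)
    · exact (hζT w hw).1.trans_le ((min_le_left _ _).trans (min_le_left _ _))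
    · rw [hc', star_sub, star_one]
      exact (hζT w hw).2.trans_le ((min_le_left _ _).trans (min_le_right _ _)))
  obtain ⟨A, hu, h1, h2, h3⟩ := exists_unitary_nrd hS hD hζ0 hZ hz
  rw [hζν] at h1
  obtain ⟨z', hz'⟩ := exists_nrd (n := n) hD (Z * A - 1)
  refine ⟨Z * A, z', hu, h1, hz', fun w hw => ?_⟩
  have e1 : Z * A - 1 = (Z - 1) * A + (A - 1) := by
    rw [sub_mul, one_mul]; abel
  rw [e1] at hz'
  have h4 := hTu w hw _ _ _ _ _ (hz.mul h2) h3 hz'
  have h5 : w.valuation K (star ζ) = 1 := by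
    have h6 := (w.valuation K).map_one_add_of_lt (x := star ζ - 1)
      ((hζT w hw).2.trans_le (min_le_right _ _))
    rwa [add_sub_cancel] at h6
  have h6 : w.valuation K (z * (star ζ)⁻¹) < γ w := by
    rw [map_mul, map_inv₀, h5, inv_one, mul_one]
    exact (hzT w (Or.inl hw)).trans_le (hγ₀ w hw)
  have h7 : w.valuation K ((-1) ^ n * star z * (star ζ)⁻¹) < γ w := by
    rw [map_mul, map_mul, map_pow, Valuation.map_neg, map_one, one_pow, one_mul, map_inv₀, h5,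
      inv_one, mul_one, ← hc']
    exact (hzT (c w) (Or.inr ⟨w, hw, rfl⟩)).trans_le (hγ₀ w hw)
  exact h4.trans_lt (max_lt h6 h7)

/-- **Weak approximation.** -/
theorem dense_of (hS : Setting k K D d s) (hn2 : 2 ≤ n) (hdeg : finrank K D = n ^ 2)
    (hEN : EN K D n) {Ω : Type} [Field Ω] [Algebra K Ω]
    (f : D →ₐ[K] Matrix (Fin n) (Fin n) Ω) {M : ℕ} (B : Basis (Fin M) k D)
    (h : ∀ c : k, star (algebraMap k D c) = algebraMap k D c)
    (x : ∀ v : Adiv k K D, GAt K h n (v : HeightOneSpectrum (𝓞 k))) (ε : ℝ) (hε : 0 < ε) :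
    ∃ g : SUD f, ∀ (v : Adiv k K D) (i : Fin M),
      ‖(Algebra.TensorProduct.basis ((v : HeightOneSpectrum (𝓞 k)).adicCompletion k) B).repr
        (delta (Adiv k K D) ((g : Dˣ) : D) v -
          (((x v : GAt K h n v) : ((v : HeightOneSpectrum (𝓞 k)).adicCompletion k ⊗[k] D)ˣ) :
            (v : HeightOneSpectrum (𝓞 k)).adicCompletion k ⊗[k] D)) i‖ < ε := by
  classical
  have := hS.fin
  have := hS.cen
  have hA : (Adiv k K D).Finite := adiv_finite hn2 hdeg
  -- the local elements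
  obtain ⟨X, hX⟩ : ∃ X : ∀ v : HeightOneSpectrum (𝓞 k), (v.adicCompletion k ⊗[k] D)ˣ,
      ∀ v : Adiv k K D, X v = (x v : ((v : HeightOneSpectrum (𝓞 k)).adicCompletion k ⊗[k] D)ˣ) :=
    ⟨fun v => if hv : v ∈ Adiv k K D then (x ⟨v, hv⟩ : (v.adicCompletion k ⊗[k] D)ˣ) else 1,
      fun v => dif_pos v.2⟩
  have hXG : ∀ v ∈ Adiv k K D, X v ∈ GAt K h n v := fun v hv => by
    rw [hX ⟨v, hv⟩]
    exact (x ⟨v, hv⟩).2
  obtain ⟨y, hyu, hyX⟩ := exists_seq_unitary hS h B hA (fun v hv => by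
    obtain ⟨φ, -⟩ := hv
    exact ⟨φ⟩) X fun v hv => (mem_GAt.mp (hXG v hv)).1
  choose ν hν using fun j => exists_nrd hdeg (y j)
  have hνs : ∀ j, ν j * star (ν j) = 1 := by
    intro j
    have h1 : HasNrd K n (y j * star (y j)) (ν j * star (ν j)) :=
      (hν j).mul (HasNrd.star hS.star_alg (hν j))
    rw [hyu j] at h1
    exact h1.unique hdeg HasNrd.one
  -- the constants
  choose C hC hCm using fun v : HeightOneSpectrum (𝓞 k) => szA_mul B v
  choose C' hC' hCs using fun v : HeightOneSpectrum (𝓞 k) =>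
    nm_linear (B := B) (p := (Sum.inl v : Pl k)) (starLin h)
  obtain ⟨β, hβ⟩ : ∃ β : HeightOneSpectrum (𝓞 k) → ℝ, ∀ v, β v = szA B v (X v) + 1 :=
    ⟨_, fun _ => rfl⟩
  have hβ0 : ∀ v, 0 < β v := fun v => by
    have := szA_nonneg (B := B) (X v : v.adicCompletion k ⊗[k] D)
    rw [hβ]
    linarith
  obtain ⟨η, hη⟩ : ∃ η : HeightOneSpectrum (𝓞 k) → ℝ, ∀ v, η v = ε / (2 * (C v * β v * C' v)) :=
    ⟨_, fun _ => rfl⟩
  have hη0 : ∀ v, 0 < η v := fun v => by
    have h1 := hC v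
    have h2 := hC' v
    have h3 := hβ0 v
    rw [hη]
    positivity
  have hγ : ∀ v : HeightOneSpectrum (𝓞 k), ∃ γ : Z0, γ ≠ 0 ∧ (v ∈ Adiv k K D →
      ∀ w : HeightOneSpectrum (𝓞 K), Ab w v → ∀ g : D, g * star g = 1 →
      ∀ ρ : K, HasNrd K n (g - 1) ρ → w.valuation K ρ < γ → nm B (.inl v) (g - 1) < η v) := by
    intro v
    by_cases hv : v ∈ Adiv k K D
    · obtain ⟨γ, h1, h2⟩ := dn_tdiv hS hdeg (adiv_iff.mp hv) B (hη0 v)
      exact ⟨γ, h1, fun _ => h2⟩
    · exact ⟨1, one_ne_zero, fun h => absurd h hv⟩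
  choose γ hγ0 hγ using hγ
  obtain ⟨γ₀, hγ₀, hγm⟩ := exists_min hA γ hγ0
  -- the places above
  obtain ⟨T, hTd⟩ : ∃ T : Set (HeightOneSpectrum (𝓞 K)), T = ⋃ v ∈ Adiv k K D,
      {w : HeightOneSpectrum (𝓞 K) | Ab w v} := ⟨_, rfl⟩
  have hT : T.Finite := by
    rw [hTd]
    exact hA.biUnion fun v _ => above_finite v
  have hTm : ∀ w, w ∈ T ↔ ∃ v ∈ Adiv k K D, Ab w v := by
    intro w
    rw [hTd, Set.mem_iUnion₂]
    simp only [Set.mem_ofPred_eq, exists_prop]
  obtain ⟨δ, hδ0, hδ⟩ := nrd_near_of hS hdeg hEN T hT (fun w hw => by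
    obtain ⟨v, hv, hwv⟩ := (hTm w).mp hw
    exact ult_of_tdiv hS hdeg (adiv_iff.mp hv) hwv) (fun _ => γ₀) fun _ => hγ₀
  have ev1 : ∀ᶠ j in atTop, ∀ w ∈ T, w.valuation K (ν j - 1) < δ w ∧
      w.valuation K (star (ν j) - 1) < δ w := by
    rw [eventually_all_finite hT]
    intro w hw
    obtain ⟨v, hv, hwv⟩ := (hTm w).mp hw
    exact eventually_star hS hdeg B hv hwv hν (mem_GAt.mp (hXG v hv)).2 (hyX v hv) (hδ0 w)
  have ev2 : ∀ᶠ j in atTop, ∀ v ∈ Adiv k K D,
      szA B v (1 ⊗ₜ y j - (X v : v.adicCompletion k ⊗[k] D)) < min 1 (ε / 2) := by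
    rw [eventually_all_finite hA]
    intro v hv
    exact (szA_sub_tendsto (hyX v hv)).eventually
      (Iio_mem_nhds (lt_min one_pos (half_pos hε)))
  obtain ⟨j, hj1, hj2⟩ := (ev1.and ev2).exists
  obtain ⟨u, z, hu, huν, huz, hz⟩ := hδ (ν j) (hνs j) (fun φ => by
    by_cases hφ : Spl D n φ
    · exact Or.inl hφ
    · exact Or.inr (nrd_pos_of hdeg φ hφ (left_ne_zero_of_mul_eq_one (hyu j)) (hν j))) hj1
  have hu' : star u * u = 1 := by
    have h0 : u ≠ 0 := left_ne_zero_of_mul_eq_one hu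
    rw [eq_inv_of_mul_eq_one_right hu, inv_mul_cancel₀ h0]
  have hgu : (y j * star u) * star (y j * star u) = 1 := by
    rw [star_mul, star_star, mul_assoc, ← mul_assoc (star u), hu', one_mul, hyu j]
  have hgn : HasNrd K n (y j * star u) 1 := by
    have h1 : HasNrd K n (y j * star u) (ν j * star (ν j)) :=
      (hν j).mul (HasNrd.star hS.star_alg huν)
    rwa [hνs j] at h1
  refine ⟨⟨Units.mk0 (y j * star u) (left_ne_zero_of_mul_eq_one hgu), hgu, ?_⟩, fun v i => ?_⟩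
  · rw [Units.val_mk0, hgn Ω f, map_one]
  · obtain ⟨v, hv⟩ := v
    rw [← hX ⟨v, hv⟩]
    change ‖cof B v (1 ⊗ₜ (y j * star u) - (X v : v.adicCompletion k ⊗[k] D)) i‖ < ε
    refine (szA_coord _ i).trans_lt ?_
    obtain ⟨w, hw⟩ := exists_above (E := K) v
    have h1 : nm B (.inl v) (u - 1) < η v := hγ v hv w hw u hu z huz
      ((hz w ((hTm w).mpr ⟨v, hv, hw⟩)).trans_le (hγm v hv))
    have h2 := hj2 v hv
    rw [lt_min_iff] at h2
    have h3 : (1 : v.adicCompletion k) ⊗ₜ[k] (y j * star u) - (X v : v.adicCompletion k ⊗[k] D) =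
        (1 ⊗ₜ y j) * (1 ⊗ₜ star (u - 1)) + (1 ⊗ₜ y j - (X v : v.adicCompletion k ⊗[k] D)) := by
      rw [star_sub, star_one, TensorProduct.tmul_sub, mul_sub,
        Algebra.TensorProduct.tmul_mul_tmul, Algebra.TensorProduct.tmul_mul_tmul, one_mul,
        mul_one, sub_add_sub_cancel]
    have h4 : szA B v ((1 : v.adicCompletion k) ⊗ₜ[k] star (u - 1)) ≤ C' v * η v := by
      rw [szA_tmul]
      exact (hCs v (u - 1)).trans (mul_le_mul_of_nonneg_left h1.le (hC' v).le)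
    have h5 : szA B v ((1 : v.adicCompletion k) ⊗ₜ[k] y j) ≤ β v := by
      have h6 := szA_add (B := B) (X v : v.adicCompletion k ⊗[k] D)
        (1 ⊗ₜ y j - (X v : v.adicCompletion k ⊗[k] D))
      rw [add_sub_cancel] at h6
      rw [hβ]
      linarith [h2.1]
    rw [h3]
    refine (szA_add _ _).trans_lt ?_
    have h6 : szA B v ((1 ⊗ₜ y j) * (1 ⊗ₜ star (u - 1))) ≤ C v * β v * (C' v * η v) :=
      (hCm v _ _).trans (mul_le_mul (mul_le_mul_of_nonneg_left h5 (hC v).le) h4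
        (szA_nonneg _) (mul_nonneg (hC v).le (hβ0 v).le))
    have h7 : C v * β v * (C' v * η v) = ε / 2 := by
      have h8 := (hC v).ne'
      have h9 := (hC' v).ne'
      have h10 := (hβ0 v).ne'
      rw [hη]
      field_simp
    rw [h7] at h6
    linarith [h2.2]

end Vale.Agent.P011.Six
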