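import Vale.Agent.P011.Six.Ident

/-!
The elements of the quaternion algebras attached to the conjugates.
-/

open Module Polynomial NumberField IsDedekindDomain

set_option linter.unusedSectionVars false

namespace Vale.Agent.P011.Six

open Vale.Agent.P011.Arith Vale.Agent.P011.Even Vale.Agent.P011.Two Vale.Agent.P011.One

/-- Conjugation. -/
def cj (k : Type) {D : Type} [Field k] [DivisionRing D] [Algebra k D] (q : D) (hq : q ≠ 0) :
    D →ₐ[k] D where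
  toFun := fun y => q * y * q⁻¹
  map_one' := by rw [mul_one, mul_inv_cancel₀ hq]
  map_mul' := fun x y => by
    rw [mul_assoc (q * x), ← mul_assoc q⁻¹, ← mul_assoc q⁻¹, inv_mul_cancel₀ hq, one_mul,
      ← mul_assoc, ← mul_assoc]
  map_zero' := by rw [mul_zero, zero_mul]
  map_add' := fun x y => by rw [mul_add, add_mul]
  commutes' := fun c => by rw [← Algebra.commutes, mul_assoc, mul_inv_cancel₀ hq, mul_one]

theorem cj_apply {k D : Type} [Field k] [DivisionRing D] [Algebra k D] (q : D) (hq : q ≠ 0)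
    (y : D) : cj k q hq y = q * y * q⁻¹ := rfl

theorem cj_eq {k D : Type} [Field k] [DivisionRing D] [Algebra k D] {q : D} {hq : q ≠ 0}
    {y y' : D} (h : q * y = y' * q) : cj k q hq y = y' := by
  rw [cj_apply, h, mul_assoc, mul_inv_cancel₀ hq, mul_one]

theorem map_rr {M D : Type} [Field M] [DivisionRing D] (c j : M →+* D) {x y x' y' : M}
    (hx : c x = j x') (hy : c y = j y') : c (rr x y) = j (rr x' y') := by
  simp only [rr, map_div₀, map_add, map_mul, map_one, hx, hy]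

theorem map_rho {M D : Type} [Field M] [DivisionRing D] (c j : M →+* D) {x y x' y' : M}
    (hx : c x = j x') (hy : c y = j y') : c (rho x y) = j (rho x' y') := by
  simp only [rho, map_div₀, map_add, map_mul, map_one, hx, hy, map_rr c j hx hy]

variable {k K D : Type} [Field k] [NumberField k] [Field K] [NumberField K] [StarRing K]
  [DivisionRing D] [StarRing D] [Algebra k K] [Algebra k D] [Algebra K D] [IsScalarTower k K D]
  {d : kˣ} {s : K} {F : Type} [Field F] [NumberField F] [Algebra k F]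

/-- Elements of `F K (p)` whose adjoint is the conjugate over `F K`. -/
theorem exists_pair (hS : Setting k K D d s) {ι : F →ₐ[k] D} {p h : D} {e : F}
    (H : WF ι p h e) (sp : star p = -p) {y : D} (hy : y ∈ MF hS H)
    (hs : star y = h * y * h⁻¹) : ∃ a₀ a₁ : F, y = ι a₀ + ι a₁ * p ∧
      y + h * y * h⁻¹ = ι (2 * a₀) ∧ y * (h * y * h⁻¹) = ι (a₀ ^ 2 - e * a₁ ^ 2) := by
  obtain ⟨x, hx, x', hx', rfl⟩ := hy
  have hph : h * p = -(p * h) := by rw [H.wh, neg_neg]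
  have e1 : h * (x + p * x') * h⁻¹ = x - p * x' := by
    rw [mul_inv_eq_iff_eq_mul₀ H.h0, mul_add, ← EF_comm_of (hS := hS) H.ch hx, ← mul_assoc, hph,
      sub_mul, mul_assoc p x', EF_comm_of (hS := hS) H.ch hx']
    noncomm_ring
  have hsE : ∀ y ∈ EF hS ι, star y ∈ EF hS ι := by
    rintro _ ⟨a, b, rfl⟩
    exact ⟨a, -b, by rw [EF_star (hS := hS) H.sym, map_neg, mul_neg, sub_eq_add_neg]⟩
  have e2 : star (x + p * x') = star x - p * star x' := by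
    rw [star_add, star_mul, sp, mul_neg, EF_comm_of (hS := hS) H.cw (hsE _ hx'), sub_eq_add_neg]
  rw [e1, e2] at hs
  have h0 : (star x - x) + p * (x' - star x') = 0 := by
    have : (star x - x) + p * (x' - star x') = (star x - p * star x') - (x - p * x') := by
      noncomm_ring
    rw [this, hs, sub_self]
  obtain ⟨h1, h2⟩ := MF_zero hS H (sub_mem (hsE _ hx) hx) (sub_mem hx' (hsE _ hx')) h0
  obtain ⟨a₀, rfl⟩ := EF_sym (hS := hS) H.sym hx (sub_eq_zero.mp h1)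
  obtain ⟨a₁, rfl⟩ := EF_sym (hS := hS) H.sym hx' (sub_eq_zero.mp h2).symm
  refine ⟨a₀, a₁, by rw [H.cw], ?_, ?_⟩
  · rw [e1, map_mul, map_ofNat]
    noncomm_ring
  · rw [e1, map_sub, map_mul, map_pow, map_pow, ← H.ww]
    have c1 : ι a₀ * ι a₁ = ι a₁ * ι a₀ := by rw [← map_mul, mul_comm, map_mul]
    have c2 : (ι a₀ + p * ι a₁) * (ι a₀ - p * ι a₁) = ι a₀ * ι a₀ - (ι a₀ * p) * ι a₁ +
        p * (ι a₁ * ι a₀) - p * (ι a₁ * p) * ι a₁ := by noncomm_ring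
    rw [c2, H.cw, H.cw, ← c1]
    noncomm_ring

/-- The norm of the conjugates. -/
noncomputable def nu (hS : Setting k K D d s) (θ : D) : D :=
  6⁻¹ * (Lam hS θ ^ 3 - 3 * (Lam hS θ * Lam hS (θ ^ 2)) + 2 * Lam hS (θ ^ 3))

/-- The elements `a₀, a₁, b₀, b₁`. -/
theorem exists_ab (hS : Setting k K D d s) (hdeg : finrank K D = 6 ^ 2) {ι : F →ₐ[k] D}
    {g a b' : F} {e₁ e₂ e₃ : k} (hc : CubD k g a b' e₁ e₂ e₃) {p h q : D} {e : F} {κ : k}
    (H : WF ι p h e) (he : algebraMap k F d * e = a ^ 2 - 4 * b') (sp : star p = -p)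
    (hq0 : q ≠ 0) (hqq : q * q = algebraMap k D κ)
    (hq1 : q * (ι a + algebraMap K D s * p) = (ι a + algebraMap K D s * p) * q)
    (hq2 : 2 * (q * ι g) = (ι a - algebraMap K D s * p) * q)
    {A A' : F} (hA : A ^ 2 - algebraMap k F d * A' ^ 2 = 1) {θ : D}
    (hθ : θ = ι A + algebraMap K D s * ι A') {Ω : Type} [Field Ω] [Algebra K Ω]
    (f : D →ₐ[K] Matrix (Fin 6) (Fin 6) Ω) (hf : (f θ).det = 1)
    (hnu : 1 + nu hS θ + nu hS θ ^ 2 + nu hS θ ^ 3 + nu hS θ ^ 4 + nu hS θ ^ 5 ≠ 0)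
    (hden : (1 + θ⁻¹) ^ 2 + (1 + θ⁻¹) * (Lam hS θ - θ) + θ⁻¹ ≠ 0) (hone : 1 + θ⁻¹ ≠ 0)
    (b : Fˣ) (hb : (b : F) = 2 + 2 * A) :
    ∃ a₀ a₁ b₀ b₁ : F, a₀ ^ 2 - e * a₁ ^ 2 = 1 ∧ (b₀ ^ 2 - e * b₁ ^ 2) * b = 1 ∧
      q * (ι a₀ + ι a₁ * p) = (1 + θ⁻¹) * (ι b₀ + ι b₁ * p) * q ∧
      ι (2 - 2 * a₀) * ((1 + θ⁻¹) ^ 2 + (1 + θ⁻¹) * (Lam hS θ - θ) + θ⁻¹) =
        -((Lam hS θ - θ) ^ 2 - 4 * θ⁻¹) ∧
      ι (2 * b₀) * ((1 + θ⁻¹) * ((1 + θ⁻¹) ^ 2 + (1 + θ⁻¹) * (Lam hS θ - θ) + θ⁻¹)) =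
        (1 + θ⁻¹) ^ 2 * (Lam hS θ - θ) + 4 * (1 + θ⁻¹) * θ⁻¹ + θ⁻¹ * (Lam hS θ - θ) := by
  have hcharD : CharZero D := charZero_of_injective_algebraMap (algebraMap k D).injective
  obtain ⟨M, _, _, _, _, _, jM, ι₁, ι₂, ι₃, P, hι₁, hP, hPP, hP0, h2g, h3g, hsum⟩ :=
    exists_tower hS hc H he
  have hcM : CharZero M := charZero_of_injective_algebraMap (algebraMap k M).injective
  have hinj : Function.Injective jM := jM.toRingHom.injective
  have hjk : ∀ c : k, jM (algebraMap k M c) = algebraMap k D c := by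
    intro c
    rw [IsScalarTower.algebraMap_apply k K M, jM.commutes, ← IsScalarTower.algebraMap_apply]
  obtain ⟨jk, hjkd⟩ : ∃ jk : M →ₐ[k] D, ∀ y, jk y = jM y :=
    ⟨{ (jM : M →+* D) with commutes' := hjk }, fun _ => rfl⟩
  obtain ⟨S, hSd⟩ : ∃ S, S = algebraMap K M s := ⟨_, rfl⟩
  have hjS : jM S = algebraMap K D s := by rw [hSd, jM.commutes]
  have hSS : S * S = algebraMap k M d := by
    rw [hSd, ← map_mul, ← pow_two, hS.sq, ← IsScalarTower.algebraMap_apply]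
  have hSc : ∀ y : D, algebraMap K D s * y = y * algebraMap K D s := sS_comm
  have h20 : (2 : D) ≠ 0 := two_ne_zero
  rw [← hSd] at h2g h3g
  have h2D : 2 * jM (ι₂ g) = ι a + algebraMap K D s * p := by
    rw [← map_ofNat jM 2, ← map_mul, h2g, map_add, map_mul, hι₁, hP, hjS]
  have h3D : 2 * jM (ι₃ g) = ι a - algebraMap K D s * p := by
    rw [← map_ofNat jM 2, ← map_mul, h3g, map_sub, map_mul, hι₁, hP, hjS]
  -- conjugation by `h`
  obtain ⟨c₁, hc₁⟩ : ∃ c₁ : M →ₐ[k] D, ∀ y, c₁ y = h * jM y * h⁻¹ :=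
    ⟨(cj k h H.h0).comp jk, fun y => by rw [AlgHom.comp_apply, cj_apply, hjkd]⟩
  have hph : h * p = -(p * h) := by rw [H.wh, neg_neg]
  have hc₁S : c₁ S = jM S := by
    rw [hc₁, hjS, ← hSc, mul_assoc, mul_inv_cancel₀ H.h0, mul_one]
  have hc₁1 : ∀ t, c₁ (ι₁ t) = jM (ι₁ t) := by
    intro t
    rw [hc₁, hι₁, ← H.ch, mul_assoc, mul_inv_cancel₀ H.h0, mul_one]
  have hhS : h * (algebraMap K D s * p) = -(algebraMap K D s * p * h) := by
    rw [← mul_assoc, ← hSc, mul_assoc, hph, mul_neg, mul_assoc]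
  have hc₁2 : ∀ t, c₁ (ι₂ t) = jM (ι₃ t) := by
    intro t
    have h1 := hom_ext_gen hc.h3 hc.hg (f₁ := c₁.comp ι₂) (f₂ := jk.comp ι₃) (by
      rw [AlgHom.comp_apply, AlgHom.comp_apply, hjkd]
      apply mul_left_cancel₀ h20
      rw [h3D, ← map_ofNat c₁ 2, ← map_mul, hc₁, map_mul, map_ofNat, h2D,
        mul_inv_eq_iff_eq_mul₀ H.h0, mul_add, ← H.ch, hhS, sub_mul, sub_eq_add_neg]) t
    rw [AlgHom.comp_apply, AlgHom.comp_apply, hjkd] at h1
    exact h1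
  have hc₁3 : ∀ t, c₁ (ι₃ t) = jM (ι₂ t) := by
    intro t
    have h1 := hom_ext_gen hc.h3 hc.hg (f₁ := c₁.comp ι₃) (f₂ := jk.comp ι₂) (by
      rw [AlgHom.comp_apply, AlgHom.comp_apply, hjkd]
      apply mul_left_cancel₀ h20
      rw [h2D, ← map_ofNat c₁ 2, ← map_mul, hc₁, map_mul, map_ofNat, h3D,
        mul_inv_eq_iff_eq_mul₀ H.h0, mul_sub, ← H.ch, hhS, add_mul, sub_neg_eq_add]) t
    rw [AlgHom.comp_apply, AlgHom.comp_apply, hjkd] at h1
    exact h1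
  -- the adjoint
  obtain ⟨c₂, hc₂⟩ : ∃ c₂ : M →ₐ[k] D, ∀ y, c₂ y = star (jM y) :=
    ⟨{ toFun := fun y => star (jM y)
       map_one' := by rw [map_one, star_one]
       map_mul' := fun x y => by rw [mul_comm x y, map_mul, star_mul]
       map_zero' := by rw [map_zero, star_zero]
       map_add' := fun x y => by rw [map_add, star_add]
       commutes' := fun c => by rw [hjk, Even.star_alg hS] }, fun y => rfl⟩
  have hc₂S : c₂ S = -jM S := by rw [hc₂, hjS, star_S hS]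
  have hc₂1 : ∀ t, c₂ (ι₁ t) = jM (ι₁ t) := fun t => by rw [hc₂, hι₁, H.sym]
  have hsSp : star (algebraMap K D s * p) = algebraMap K D s * p := by
    rw [star_mul, sp, star_S hS, neg_mul_neg, hSc]
  have hc₂2 : ∀ t, c₂ (ι₂ t) = jM (ι₂ t) := by
    intro t
    have h1 := hom_ext_gen hc.h3 hc.hg (f₁ := c₂.comp ι₂) (f₂ := jk.comp ι₂) (by
      rw [AlgHom.comp_apply, AlgHom.comp_apply, hjkd]
      apply mul_left_cancel₀ h20
      have e1 : 2 * c₂ (ι₂ g) = c₂ (2 * ι₂ g) := by rw [map_mul, map_ofNat]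
      rw [e1, hc₂, map_mul, map_ofNat, h2D, star_add, H.sym, hsSp]) t
    rw [AlgHom.comp_apply, AlgHom.comp_apply, hjkd] at h1
    exact h1
  have hc₂3 : ∀ t, c₂ (ι₃ t) = jM (ι₃ t) := by
    intro t
    have h1 := hom_ext_gen hc.h3 hc.hg (f₁ := c₂.comp ι₃) (f₂ := jk.comp ι₃) (by
      rw [AlgHom.comp_apply, AlgHom.comp_apply, hjkd]
      apply mul_left_cancel₀ h20
      have e1 : 2 * c₂ (ι₃ g) = c₂ (2 * ι₃ g) := by rw [map_mul, map_ofNat]
      rw [e1, hc₂, map_mul, map_ofNat, h3D, star_sub, H.sym, hsSp]) t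
    rw [AlgHom.comp_apply, AlgHom.comp_apply, hjkd] at h1
    exact h1
  -- conjugation by `q`
  obtain ⟨c₃, hc₃⟩ : ∃ c₃ : M →ₐ[k] D, ∀ y, c₃ y = q * jM y * q⁻¹ :=
    ⟨(cj k q hq0).comp jk, fun y => by rw [AlgHom.comp_apply, cj_apply, hjkd]⟩
  have hc₃S : c₃ S = jM S := by
    rw [hc₃, hjS, ← hSc, mul_assoc, mul_inv_cancel₀ hq0, mul_one]
  have hc₃2 : ∀ t, c₃ (ι₂ t) = jM (ι₂ t) := by
    intro t
    have h1 := hom_ext_gen hc.h3 hc.hg (f₁ := c₃.comp ι₂) (f₂ := jk.comp ι₂) (by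
      rw [AlgHom.comp_apply, AlgHom.comp_apply, hjkd]
      apply mul_left_cancel₀ h20
      rw [h2D, ← map_ofNat c₃ 2, ← map_mul, hc₃, map_mul, map_ofNat, h2D,
        mul_inv_eq_iff_eq_mul₀ hq0, hq1]) t
    rw [AlgHom.comp_apply, AlgHom.comp_apply, hjkd] at h1
    exact h1
  have hc₃1 : ∀ t, c₃ (ι₁ t) = jM (ι₃ t) := by
    intro t
    have h1 := hom_ext_gen hc.h3 hc.hg (f₁ := c₃.comp ι₁) (f₂ := jk.comp ι₃) (by
      rw [AlgHom.comp_apply, AlgHom.comp_apply, hjkd]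
      apply mul_left_cancel₀ h20
      rw [h3D, hc₃, hι₁, ← mul_assoc, hq2, mul_assoc, mul_inv_cancel₀ hq0, mul_one]) t
    rw [AlgHom.comp_apply, AlgHom.comp_apply, hjkd] at h1
    exact h1
  have hc₃3 : ∀ t, c₃ (ι₃ t) = jM (ι₁ t) := by
    intro t
    have h1 := hc₃1 t
    rw [hc₃] at h1 ⊢
    rw [← h1, mul_inv_eq_iff_eq_mul₀ hq0]
    have h2 : q * (q * jM (ι₁ t) * q⁻¹) = (q * q) * jM (ι₁ t) * q⁻¹ := by
      simp only [mul_assoc]
    rw [h2, hqq, Algebra.commutes, mul_assoc, ← hqq, mul_assoc, mul_inv_cancel₀ hq0, mul_one]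
  -- the elements
  obtain ⟨t₁, ht₁⟩ : ∃ t₁, t₁ = ι₁ A + S * ι₁ A' := ⟨_, rfl⟩
  obtain ⟨t₂, ht₂⟩ : ∃ t₂, t₂ = ι₂ A + S * ι₂ A' := ⟨_, rfl⟩
  obtain ⟨t₃, ht₃⟩ : ∃ t₃, t₃ = ι₃ A + S * ι₃ A' := ⟨_, rfl⟩
  have hinv : ∀ (l : F →ₐ[k] M), (l A + S * l A') * (l A - S * l A') = 1 := by
    intro l
    have h1 := congrArg l hA
    rw [map_sub, map_mul, map_pow, map_pow, AlgHom.commutes, map_one, ← hSS] at h1
    linear_combination h1
  have hi1 : t₁ * (ι₁ A - S * ι₁ A') = 1 := by rw [ht₁]; exact hinv ι₁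
  have hi2 : t₂ * (ι₂ A - S * ι₂ A') = 1 := by rw [ht₂]; exact hinv ι₂
  have hi3 : t₃ * (ι₃ A - S * ι₃ A') = 1 := by rw [ht₃]; exact hinv ι₃
  have h10 : t₁ ≠ 0 := left_ne_zero_of_mul_eq_one hi1
  have h20' : t₂ ≠ 0 := left_ne_zero_of_mul_eq_one hi2
  have h30 : t₃ ≠ 0 := left_ne_zero_of_mul_eq_one hi3
  have hj1 : jM t₁ = θ := by
    rw [ht₁, hθ, map_add, map_mul, hι₁, hι₁, hjS]
  have a12 : c₁ t₂ = jM t₃ := by
    rw [ht₂, ht₃, map_add, map_mul, hc₁2, hc₁2, hc₁S, map_add, map_mul]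
  have a13 : c₁ t₃ = jM t₂ := by
    rw [ht₂, ht₃, map_add, map_mul, hc₁3, hc₁3, hc₁S, map_add, map_mul]
  have a22 : c₂ t₂ = jM t₂⁻¹ := by
    rw [← eq_inv_of_mul_eq_one_right hi2, ht₂, map_add, map_mul, hc₂2, hc₂2, hc₂S, map_sub,
      map_mul]
    noncomm_ring
  have a23 : c₂ t₃ = jM t₃⁻¹ := by
    rw [← eq_inv_of_mul_eq_one_right hi3, ht₃, map_add, map_mul, hc₂3, hc₂3, hc₂S, map_sub,
      map_mul]
    noncomm_ring
  have a32 : c₃ t₂ = jM t₂ := by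
    rw [ht₂, map_add, map_mul, hc₃2, hc₃2, hc₃S, map_add, map_mul]
  have a33 : c₃ t₃ = jM t₁ := by
    rw [ht₁, ht₃, map_add, map_mul, hc₃3, hc₃3, hc₃S, map_add, map_mul]
  -- the traces
  have hLam : ∀ x y : F, Lam hS (ι x + algebraMap K D s * ι y) =
      jM ((ι₁ x + S * ι₁ y) + (ι₂ x + S * ι₂ y) + (ι₃ x + S * ι₃ y)) := by
    intro x y
    have e1 : (ι₁ x + S * ι₁ y) + (ι₂ x + S * ι₂ y) + (ι₃ x + S * ι₃ y) =
        (ι₁ x + ι₂ x + ι₃ x) + S * (ι₁ y + ι₂ y + ι₃ y) := by ring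
    rw [Lam_EF hS hdeg hc.h3 H.sym, e1, hsum, hsum, map_add, map_mul, hjS, hjk, hjk]
  have hpow2 : ∀ l : F →ₐ[k] M, (l A + S * l A') ^ 2 =
      l (A ^ 2 + algebraMap k F d * A' ^ 2) + S * l (2 * (A * A')) := by
    intro l
    simp only [map_add, map_mul, map_pow, AlgHom.commutes, ← hSS, map_ofNat]
    ring
  have hpow3 : ∀ l : F →ₐ[k] M, (l A + S * l A') ^ 3 =
      l (A ^ 3 + 3 * algebraMap k F d * A * A' ^ 2) +
        S * l (3 * A ^ 2 * A' + algebraMap k F d * A' ^ 3) := by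
    intro l
    simp only [map_add, map_mul, map_pow, AlgHom.commutes, ← hSS, map_ofNat]
    ring
  have hL1 : Lam hS θ = jM (t₁ + t₂ + t₃) := by rw [hθ, hLam, ht₁, ht₂, ht₃]
  have hL2 : Lam hS (θ ^ 2) = jM (t₁ ^ 2 + t₂ ^ 2 + t₃ ^ 2) := by
    have e1 : θ ^ 2 = ι (A ^ 2 + algebraMap k F d * A' ^ 2) +
        algebraMap K D s * ι (2 * (A * A')) := by
      rw [← hj1, ← map_pow, ht₁, hpow2, map_add, map_mul, hι₁, hι₁, hjS]
    rw [e1, hLam, ht₁, ht₂, ht₃, hpow2, hpow2, hpow2]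
  have hL3 : Lam hS (θ ^ 3) = jM (t₁ ^ 3 + t₂ ^ 3 + t₃ ^ 3) := by
    have e1 : θ ^ 3 = ι (A ^ 3 + 3 * algebraMap k F d * A * A' ^ 2) +
        algebraMap K D s * ι (3 * A ^ 2 * A' + algebraMap k F d * A' ^ 3) := by
      rw [← hj1, ← map_pow, ht₁, hpow3, map_add, map_mul, hι₁, hι₁, hjS]
    rw [e1, hLam, ht₁, ht₂, ht₃, hpow3, hpow3, hpow3]
  have hnuM : nu hS θ = jM (t₁ * t₂ * t₃) := by
    have h1 := prod_newton t₁ t₂ t₃
    have h2 : t₁ * t₂ * t₃ = 6⁻¹ * ((t₁ + t₂ + t₃) ^ 3 -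
      3 * ((t₁ + t₂ + t₃) * (t₁ ^ 2 + t₂ ^ 2 + t₃ ^ 2)) + 2 * (t₁ ^ 3 + t₂ ^ 3 + t₃ ^ 3)) := by
      rw [← h1, ← mul_assoc, inv_mul_cancel₀ (by norm_num : (6 : M) ≠ 0), one_mul]
    rw [h2, nu, hL1, hL2, hL3]
    simp only [map_mul, map_add, map_sub, map_pow, map_ofNat, map_inv₀]
  have hLK : ∀ x y : F, Lam hS (ι x + algebraMap K D s * ι y) ∈ Set.range (algebraMap K D) := by
    intro x y
    rw [Lam_EF hS hdeg hc.h3 H.sym]
    refine ⟨algebraMap k K (Algebra.trace k F x) + s * algebraMap k K (Algebra.trace k F y), ?_⟩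
    rw [map_add, map_mul, ← IsScalarTower.algebraMap_apply, ← IsScalarTower.algebraMap_apply]
  obtain ⟨ν, hν⟩ : ∃ ν : K, algebraMap K D ν = nu hS θ := by
    obtain ⟨l1, hl1⟩ := hLK A A'
    obtain ⟨l2, hl2⟩ := hLK (A ^ 2 + algebraMap k F d * A' ^ 2) (2 * (A * A'))
    obtain ⟨l3, hl3⟩ := hLK (A ^ 3 + 3 * algebraMap k F d * A * A' ^ 2)
      (3 * A ^ 2 * A' + algebraMap k F d * A' ^ 3)
    have e2 : θ ^ 2 = ι (A ^ 2 + algebraMap k F d * A' ^ 2) +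
        algebraMap K D s * ι (2 * (A * A')) := by
      rw [← hj1, ← map_pow, ht₁, hpow2, map_add, map_mul, hι₁, hι₁, hjS]
    have e3 : θ ^ 3 = ι (A ^ 3 + 3 * algebraMap k F d * A * A' ^ 2) +
        algebraMap K D s * ι (3 * A ^ 2 * A' + algebraMap k F d * A' ^ 3) := by
      rw [← hj1, ← map_pow, ht₁, hpow3, map_add, map_mul, hι₁, hι₁, hjS]
    refine ⟨6⁻¹ * (l1 ^ 3 - 3 * (l1 * l2) + 2 * l3), ?_⟩
    have e0 : Lam hS θ = Lam hS (ι A + algebraMap K D s * ι A') := by rw [← hθ]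
    rw [nu, e2, e3, ← hl2, ← hl3, e0, ← hl1]
    simp only [map_mul, map_add, map_sub, map_pow, map_ofNat, map_inv₀]
  have hdet : ∀ x y : D, y ≠ 0 → (f (y * x * y⁻¹)).det = (f x).det := by
    intro x y hy
    have h1 : (f y).det * (f y⁻¹).det = 1 := by
      rw [← Matrix.det_mul, ← map_mul, mul_inv_cancel₀ hy, map_one, Matrix.det_one]
    rw [map_mul, map_mul, Matrix.det_mul, Matrix.det_mul]
    linear_combination (f x).det * h1
  have hd3 : (f (jM t₃)).det = 1 := by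
    have h1 : q * jM t₃ * q⁻¹ = θ := by rw [← hc₃, a33, hj1]
    rw [← hdet _ q hq0, h1, hf]
  have hd2 : (f (jM t₂)).det = 1 := by
    have h1 : h * jM t₂ * h⁻¹ = jM t₃ := by rw [← hc₁, a12]
    rw [← hdet _ h H.h0, h1, hd3]
  have hν6 : ν ^ 6 = 1 := by
    have h1 : (f (algebraMap K D ν)).det = 1 := by
      rw [hν, hnuM, map_mul, map_mul, map_mul, map_mul, Matrix.det_mul, Matrix.det_mul, hj1, hf,
        hd2, hd3, one_mul, one_mul]
    rw [AlgHom.commutes, Matrix.algebraMap_eq_diagonal, Matrix.det_diagonal] at h1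
    simp only [Pi.algebraMap_apply, Finset.prod_const, Finset.card_univ, Fintype.card_fin] at h1
    have h2 : algebraMap K Ω (ν ^ 6) = algebraMap K Ω 1 := by rw [map_pow, h1, map_one]
    exact (algebraMap K Ω).injective h2
  have hprod : t₁ * t₂ * t₃ = 1 := by
    have h1 : (nu hS θ - 1) * (1 + nu hS θ + nu hS θ ^ 2 + nu hS θ ^ 3 + nu hS θ ^ 4 +
        nu hS θ ^ 5) = 0 := by
      have h2 : nu hS θ ^ 6 = 1 := by rw [← hν, ← map_pow, hν6, map_one]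
      have h3 : (nu hS θ - 1) * (1 + nu hS θ + nu hS θ ^ 2 + nu hS θ ^ 3 + nu hS θ ^ 4 +
        nu hS θ ^ 5) = nu hS θ ^ 6 - 1 := by noncomm_ring
      rw [h3, h2, sub_self]
    have h2 := (mul_eq_zero.mp h1).resolve_right hnu
    apply hinj
    rw [map_one, ← hnuM, sub_eq_zero.mp h2]
  have hti : t₁⁻¹ = t₂ * t₃ := by
    rw [inv_eq_of_mul_eq_one_right]
    linear_combination hprod
  have hjθi : jM (t₂ * t₃) = θ⁻¹ := by rw [← hti, map_inv₀, hj1]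
  have hLθ : Lam hS θ - θ = jM (t₂ + t₃) := by
    rw [hL1, ← hj1, ← map_sub]
    congr 1
    ring
  have hdenM : jM ((1 + t₂ * t₃) ^ 2 + (1 + t₂ * t₃) * (t₂ + t₃) + t₂ * t₃) =
      (1 + θ⁻¹) ^ 2 + (1 + θ⁻¹) * (Lam hS θ - θ) + θ⁻¹ := by
    rw [hLθ, ← hjθi]
    simp only [map_mul, map_add, map_pow, map_one]
  have hden0 : (1 + t₂ + t₂ * t₃) * (1 + t₃ + t₂ * t₃) ≠ 0 := by
    intro h0
    rw [den_eq] at h0
    rw [← hdenM, h0, map_zero] at hden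
    exact hden rfl
  have hn1 := left_ne_zero_of_mul hden0
  have hn2 := right_ne_zero_of_mul hden0
  have hone' : 1 + t₂ * t₃ ≠ 0 := by
    intro h0
    apply hone
    rw [← hjθi, ← map_one jM, ← map_add, h0, map_zero]
  have hmem : ∀ y : M, jM y ∈ MF hS H := by
    intro y
    refine mem_MF_of_comm hS hdeg hc.h3 H (fun t => ?_) ?_
    · rw [← hι₁, ← map_mul, mul_comm, map_mul]
    · rw [← hP, ← map_mul, mul_comm, map_mul]
  -- the first element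
  have hr1 : h * jM (rr t₂ t₃) * h⁻¹ = jM (rr t₃ t₂) := by
    rw [← hc₁]
    exact map_rr (c₁ : M →+* D) (jM : M →+* D) a12 a13
  obtain ⟨a₀, a₁, ha1, ha2, ha3⟩ := exists_pair hS H sp (hmem (rr t₂ t₃)) (by
    rw [hr1, ← hc₂, ← rr_star h20' h30]
    exact map_rr (c₂ : M →+* D) (jM : M →+* D) a22 a23)
  rw [hr1] at ha2 ha3
  have hρ1 : h * jM (rho t₂ t₃) * h⁻¹ = jM (rho t₃ t₂) := by
    rw [← hc₁]
    exact map_rho (c₁ : M →+* D) (jM : M →+* D) a12 a13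
  obtain ⟨b₀, b₁, hb1, hb2, hb3⟩ := exists_pair hS H sp (hmem (rho t₂ t₃)) (by
    rw [hρ1, ← hc₂, ← rho_star h20' h30 hn1 hn2]
    exact map_rho (c₂ : M →+* D) (jM : M →+* D) a22 a23)
  rw [hρ1] at hb2 hb3
  have hιinj : Function.Injective ι := ι.toRingHom.injective
  refine ⟨a₀, a₁, b₀, b₁, ?_, ?_, ?_, ?_, ?_⟩
  · apply hιinj
    rw [← ha3, ← map_mul, rr_swap hn1 hn2, map_one, map_one]
  · apply hιinj
    have e1 : ι b = jM (2 + t₁ + t₁⁻¹) := by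
      have e2 : t₁⁻¹ = ι₁ A - S * ι₁ A' := inv_eq_of_mul_eq_one_right hi1
      rw [e2, ht₁, hb, ← hι₁]
      congr 1
      rw [map_add, map_mul, map_ofNat]
      ring
    rw [map_mul, ← hb3, e1, ← map_mul, ← map_mul, rho_norm hn1 hn2 hone' hprod, map_one, map_one]
  · rw [← ha1, ← hb1]
    have e1 : q * jM (rr t₂ t₃) * q⁻¹ = jM (rr t₂ t₁) := by
      rw [← hc₃]
      exact map_rr (c₃ : M →+* D) (jM : M →+* D) a32 a33
    have e2 : jM (rr t₂ t₁) = (1 + θ⁻¹) * jM (rho t₂ t₃) := by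
      rw [rr_conj hprod, ← hjθi, ← map_one jM, ← map_add, ← map_mul]
      congr 1
      rw [rho, mul_div_cancel₀ _ hone']
    rw [← e2, ← e1, mul_assoc, inv_mul_cancel₀ hq0, mul_one]
  · rw [map_sub, ← ha2, ← hdenM, hLθ, ← hjθi]
    have e1 : ι 2 = jM 2 := by rw [map_ofNat, map_ofNat]
    rw [e1]
    have e2 := congrArg jM (rr_trace hn1 hn2)
    rw [map_mul, map_sub, map_add] at e2
    rw [e2]
    simp only [map_neg, map_sub, map_pow, map_mul, map_ofNat]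
  · rw [← hb2, ← hdenM, hLθ, ← hjθi]
    have e2 := congrArg jM (rho_trace hn1 hn2 hone')
    rw [map_mul, map_add, map_mul jM (1 + t₂ * t₃) _, map_add jM 1, map_one] at e2
    rw [e2]
    simp only [map_add, map_pow, map_mul, map_ofNat, map_one]

end Vale.Agent.P011.Six
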