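import Vale.Agent.P011.Six.NonComm

/-!
The conjugates of a symmetric cubic subfield inside the field generated by a pure quaternion.
-/

open Module Polynomial NumberField IsDedekindDomain

set_option linter.unusedSectionVars false

namespace Vale.Agent.P011.Six

open Vale.Agent.P011.Arith Vale.Agent.P011.Even Vale.Agent.P011.Two Vale.Agent.P011.One

variable {k K D : Type} [Field k] [NumberField k] [Field K] [NumberField K] [StarRing K]
  [DivisionRing D] [StarRing D] [Algebra k K] [Algebra k D] [Algebra K D] [IsScalarTower k K D]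
  {d : kˣ} {s : K} {F : Type} [Field F] [NumberField F] [Algebra k F]

/-- The coefficients of a cubic generator and of its cofactor. -/
structure CubD (k : Type) {F : Type} [Field k] [Field F] [Algebra k F] (g a b : F)
    (e₁ e₂ e₃ : k) : Prop where
  h3 : finrank k F = 3
  hg : ∀ c : k, algebraMap k F c ≠ g
  t1 : Algebra.trace k F g = e₁
  t2 : Algebra.trace k F (g ^ 2) = e₁ ^ 2 - 2 * e₂
  ha : a = algebraMap k F e₁ - g
  hb : b = algebraMap k F e₂ - g * a
  h3b : g * b = algebraMap k F e₃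

theorem exists_cubD (h3 : finrank k F = 3) {g : F} (hg : ∀ c : k, algebraMap k F c ≠ g) :
    ∃ (a b : F) (e₁ e₂ e₃ : k), CubD k g a b e₁ e₂ e₃ := by
  obtain ⟨e₁, e₂, e₃, h1, h2, h4, -⟩ := exists_cub h3 hg
  refine ⟨_, _, e₁, e₂, e₃, h3, hg, h2, h4, rfl, rfl, ?_⟩
  linear_combination h1

theorem CubD.eq {g a b : F} {e₁ e₂ e₃ : k} (h : CubD k g a b e₁ e₂ e₃) :
    g ^ 3 = algebraMap k F e₁ * g ^ 2 - algebraMap k F e₂ * g + algebraMap k F e₃ := by
  rw [← h.h3b, h.hb, h.ha]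
  ring

theorem CubD.t3 {g a b : F} {e₁ e₂ e₃ : k} (h : CubD k g a b e₁ e₂ e₃) :
    Algebra.trace k F (g ^ 3) = e₁ * (e₁ ^ 2 - 2 * e₂) - e₂ * e₁ + 3 * e₃ := by
  rw [(trace_pow h.h3 h.eq).1, h.t1, h.t2]

theorem CubD.t4 {g a b : F} {e₁ e₂ e₃ : k} (h : CubD k g a b e₁ e₂ e₃) :
    Algebra.trace k F (g ^ 4) = e₁ * (e₁ * (e₁ ^ 2 - 2 * e₂) - e₂ * e₁ + 3 * e₃) -
      e₂ * (e₁ ^ 2 - 2 * e₂) + e₃ * e₁ := by
  rw [(trace_pow h.h3 h.eq).2, h.t1, h.t2, h.t3]

/-- The discriminant of the generator. -/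
noncomputable def dsc (k : Type) {F : Type} [Field k] [Field F] [Algebra k F] (g : F) : k :=
  3 * (Algebra.trace k F (g ^ 2) * Algebra.trace k F (g ^ 4) - Algebra.trace k F (g ^ 3) ^ 2) -
    Algebra.trace k F g * (Algebra.trace k F g * Algebra.trace k F (g ^ 4) -
      Algebra.trace k F (g ^ 2) * Algebra.trace k F (g ^ 3)) +
    Algebra.trace k F (g ^ 2) * (Algebra.trace k F g * Algebra.trace k F (g ^ 3) -
      Algebra.trace k F (g ^ 2) ^ 2)

theorem CubD.dsc {g a b : F} {e₁ e₂ e₃ : k} (h : CubD k g a b e₁ e₂ e₃) :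
    algebraMap k F (dsc k g) = (a ^ 2 - 4 * b) * (g ^ 2 - a * g + b) ^ 2 := by
  rw [Six.dsc, h.t1, h.t2, h.t3, h.t4]
  simp only [map_add, map_sub, map_mul, map_pow, map_ofNat]
  have h1 : algebraMap k F e₁ = g + a := by rw [h.ha]; ring
  have h2 : algebraMap k F e₂ = g * a + b := by rw [h.hb]; ring
  rw [h1, h2, ← h.h3b]
  ring

/-- A field containing `F`, `K` and `p`, with the three embeddings of `F`. -/
theorem exists_tower (hS : Setting k K D d s) {ι : F →ₐ[k] D} {g a b : F} {e₁ e₂ e₃ : k}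
    (hc : CubD k g a b e₁ e₂ e₃) {p h : D} {e : F} (H : WF ι p h e)
    (he : algebraMap k F d * e = a ^ 2 - 4 * b) :
    ∃ (M : Type) (_ : Field M) (_ : NumberField M) (_ : Algebra k M) (_ : Algebra K M)
      (_ : IsScalarTower k K M) (jM : M →ₐ[K] D) (ι₁ ι₂ ι₃ : F →ₐ[k] M) (P : M),
      (∀ t, jM (ι₁ t) = ι t) ∧ jM P = p ∧ P * P = ι₁ e ∧ P ≠ 0 ∧
      2 * ι₂ g = ι₁ a + algebraMap K M s * P ∧ 2 * ι₃ g = ι₁ a - algebraMap K M s * P ∧
      (∀ t, ι₁ t + ι₂ t + ι₃ t = algebraMap k M (Algebra.trace k F t)) := by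
  obtain ⟨M, _, _, _, jM, hM, -⟩ := exists_MF hS H
  have hinj : Function.Injective jM := jM.toRingHom.injective
  let _ : Algebra k M := ((algebraMap K M).comp (algebraMap k K)).toAlgebra
  have _ : IsScalarTower k K M := IsScalarTower.of_algebraMap_eq fun _ => rfl
  have hjk : ∀ c : k, jM (algebraMap k M c) = algebraMap k D c := fun c => by
    rw [IsScalarTower.algebraMap_apply k K M, jM.commutes, ← IsScalarTower.algebraMap_apply]
  have hι : ∀ t : F, ∃ m : M, jM m = ι t := fun t =>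
    (hM _).mpr ⟨ι t, mem_EF_ι t, 0, zero_mem _, by rw [mul_zero, add_zero]⟩
  choose c hc' using hι
  let ι₁ : F →ₐ[k] M :=
    { toFun := c
      map_one' := hinj (by rw [hc', map_one, map_one])
      map_mul' := fun x y => hinj (by rw [hc', map_mul, map_mul, hc', hc'])
      map_zero' := hinj (by rw [hc', map_zero, map_zero])
      map_add' := fun x y => hinj (by rw [hc', map_add, map_add, hc', hc'])
      commutes' := fun z => hinj (by rw [hc', hjk, ι.commutes]) }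
  have hι₁ : ∀ t, jM (ι₁ t) = ι t := hc'
  obtain ⟨P, hP⟩ : ∃ P : M, jM P = p :=
    (hM _).mpr ⟨0, zero_mem _, 1, one_mem _, by rw [zero_add, mul_one]⟩
  have hPP : P * P = ι₁ e := hinj (by rw [map_mul, hP, H.ww, hι₁])
  have hSS : algebraMap K M s * algebraMap K M s = algebraMap k M d := by
    rw [← map_mul, ← pow_two, hS.sq, ← IsScalarTower.algebraMap_apply]
  obtain ⟨S, hSd⟩ : ∃ S, S = algebraMap K M s := ⟨_, rfl⟩
  rw [← hSd] at hSS
  have hsp : (S * P) * (S * P) = ι₁ a ^ 2 - 4 * ι₁ b := by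
    have h1 := congrArg ι₁ he
    rw [map_mul, AlgHom.commutes, map_sub, map_mul, map_pow, map_ofNat] at h1
    rw [← h1, ← hSS, ← hPP]
    ring
  have c1 : algebraMap k M e₁ = ι₁ g + ι₁ a := by
    rw [hc.ha, map_sub, AlgHom.commutes]; ring
  have c2 : algebraMap k M e₂ = ι₁ g * ι₁ a + ι₁ b := by
    rw [hc.hb, map_sub, AlgHom.commutes, map_mul]; ring
  have c3 : algebraMap k M e₃ = ι₁ g * ι₁ b := by
    rw [← map_mul, hc.h3b, AlgHom.commutes]
  have hcM : CharZero M := charZero_of_injective_algebraMap (algebraMap k M).injective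
  have hq : ∀ S' : M, S' * S' = ι₁ a ^ 2 - 4 * ι₁ b →
      ((ι₁ a + S') / 2) ^ 3 = algebraMap k M e₁ * ((ι₁ a + S') / 2) ^ 2 -
        algebraMap k M e₂ * ((ι₁ a + S') / 2) + algebraMap k M e₃ := by
    intro S' h'
    rw [c1, c2, c3]
    have h1 : ((ι₁ a + S') / 2) ^ 2 = ι₁ a * ((ι₁ a + S') / 2) - ι₁ b := by
      field_simp
      linear_combination h'
    linear_combination (((ι₁ a + S') / 2) - ι₁ g) * h1
  obtain ⟨ι₂, h2⟩ := exists_lift hc.h3 hc.hg hc.eq (hq (S * P) hsp)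
  obtain ⟨ι₃, h3⟩ := exists_lift hc.h3 hc.hg hc.eq (hq (-(S * P)) (by rw [neg_mul_neg, hsp]))
  refine ⟨M, inferInstance, inferInstance, inferInstance, inferInstance, inferInstance, jM, ι₁,
    ι₂, ι₃, P, hι₁, hP, hPP, ?_, ?_, ?_, ?_⟩
  · rintro rfl
    rw [map_zero] at hP
    exact H.w0 hP.symm
  · rw [h2, ← hSd]; field_simp
  · rw [h3, ← hSd]; field_simp; ring
  · refine sum_conj hc.h3 hc.hg hc.t1 hc.t2 ι₁ ι₂ ι₃ ?_ ?_
    · rw [h2, h3, c1]; ring
    · rw [h2, h3, map_sub, map_pow, map_mul, map_ofNat, c1, c2]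
      field_simp
      linear_combination 2 * hsp

end Vale.Agent.P011.Six
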