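import Vale.Agent.P011.Six.Main

/-!
Continuity of the discriminant and of the elements of norm one.
-/

open Module NumberField IsDedekindDomain Filter Topology

set_option linter.unusedSectionVars false

namespace Vale.Agent.P011.Six

open Vale.Agent.P011.Arith Vale.Agent.P011.Even Vale.Agent.P011.Two Vale.Agent.P011.One

section cont

variable {k D : Type} [Field k] [NumberField k] [DivisionRing D] [Algebra k D] {M : ℕ}
  (B : Basis (Fin M) k D)

theorem tnpw {p : Pl k} {X : Type} {l : Filter X} {B : Basis (Fin M) k D} {f : X → D} {a : D}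
    (hf : Tn B p l f a) (n : ℕ) : Tn B p l (fun y => f y ^ n) (a ^ n) := by
  induction n with
  | zero => simp only [pow_zero]; exact Tn.const 1
  | succ n ih =>
    have := ih.mul hf
    simp only [← pow_succ] at this
    exact this

theorem tndsc {p : Pl k} {X : Type} {l : Filter X} {B : Basis (Fin M) k D} {f : X → D} {a : D}
    (hf : Tn B p l f a) : Tn B p l (fun y => algebraMap k D (dscD k (f y)))
      (algebraMap k D (dscD k a)) := by
  obtain ⟨L, hL⟩ : ∃ L : D →ₗ[k] D, ∀ y, L y = algebraMap k D (24⁻¹ * Two.tr k y) :=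
    ⟨(Algebra.linearMap k D).comp ((24 : k)⁻¹ • Two.tr k), fun y => rfl⟩
  have ht : ∀ n : ℕ, Tn B p l (fun y => algebraMap k D (24⁻¹ * Two.tr k (f y ^ n)))
      (algebraMap k D (24⁻¹ * Two.tr k (a ^ n))) := by
    intro n
    have := (tnpw hf n).linear L
    simp only [hL] at this
    exact this
  have h1 := ht 1
  simp only [pow_one] at h1
  have h2 := ht 2
  have h3 := ht 3
  have h4 := ht 4
  have h := (((Tn.const (3 : D)).mul ((h2.mul h4).sub (tnpw h3 2))).sub
    (h1.mul ((h1.mul h4).sub (h2.mul h3)))).add (h2.mul ((h1.mul h3).sub (tnpw h2 2)))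
  simp only [dscD, map_add, map_sub, map_mul, map_pow, map_ofNat] at h ⊢
  exact h

/-- Small scalars. -/
theorem val_of_alg (v : HeightOneSpectrum (𝓞 k)) {c : k} (hc : c ≠ 0) :
    ∃ ε : ℝ, 0 < ε ∧ ∀ x : k, nm B (.inl v) (algebraMap k D x) < ε →
      v.valuation k x < v.valuation k c := by
  have h1 : 0 < nm B (.inl v : Pl k) (1 : D) := nm_pos' B _ one_ne_zero
  refine ⟨plAbv (.inl v) c * nm B (.inl v) (1 : D), mul_pos ((plAbv _).pos hc) h1,
    fun x hx => ?_⟩
  rw [Algebra.algebraMap_eq_smul_one, nm_smul] at hx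
  exact (plAbv_lt v _ _).mp (lt_of_mul_lt_mul_right hx h1.le)

theorem dscD_near (v : HeightOneSpectrum (𝓞 k)) (Z : D) {c : k} (hc : c ≠ 0) :
    ∃ ε : ℝ, 0 < ε ∧ ∀ y : D, nm B (.inl v) (y - Z) < ε →
      v.valuation k (dscD k y - dscD k Z) < v.valuation k c := by
  obtain ⟨ε₁, hε₁, h1⟩ := val_of_alg B v hc
  have h2 : Tn B (.inl v : Pl k) (Filter.comap (fun z : D => nm B (.inl v : Pl k) (z - Z))
      (nhds 0)) (fun z => z) Z := Filter.tendsto_comap
  have h3 := (tndsc h2).ev_lt hε₁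
  rw [Filter.eventually_comap, Metric.eventually_nhds_iff] at h3
  obtain ⟨δ, hδ, h⟩ := h3
  refine ⟨δ, hδ, fun z hz => h1 _ ?_⟩
  rw [map_sub]
  refine h ?_ z rfl
  rw [Real.dist_0_eq_abs, abs_of_nonneg (nm_nonneg B _ _)]
  exact hz

/-- The class of the discriminant is locally constant. -/
theorem dscD_class (v : HeightOneSpectrum (𝓞 k)) (Z : D) (d : kˣ) (hZ : dscD k Z ≠ 0) :
    ∃ ε : ℝ, 0 < ε ∧ ∀ y : D, nm B (.inl v) (y - Z) < ε → dscD k y ≠ 0 ∧
      ∀ δ δ' : kˣ, (δ : k) = d * dscD k y → (δ' : k) = d * dscD k Z →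
        δ ∈ LS (v.valuation k) → δ' ∈ LS (v.valuation k) := by
  have h40 : (4 : k) ≠ 0 := by norm_num
  obtain ⟨ε, hε, h⟩ := dscD_near B v Z (c := 4 * dscD k Z) (mul_ne_zero h40 hZ)
  refine ⟨ε, hε, fun y hy => ?_⟩
  have h1 := h y hy
  have h4 : v.valuation k (4 : k) ≤ 1 := val_four_le _
  have hy0 : dscD k y ≠ 0 := by
    intro h0
    rw [h0, zero_sub, Valuation.map_neg, map_mul] at h1
    exact absurd h1 (not_lt.mpr ((mul_le_mul' h4 le_rfl).trans (one_mul _).le))
  refine ⟨hy0, fun δ δ' hδ hδ' hL => ?_⟩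
  -- compare
  have hd0 : (d : k) ≠ 0 := d.ne_zero
  have hval : v.valuation k (dscD k y) = v.valuation k (dscD k Z) := by
    have h2 : v.valuation k (dscD k y - dscD k Z) < v.valuation k (dscD k Z) := by
      refine h1.trans_le ?_
      rw [map_mul]
      exact (mul_le_mul' h4 le_rfl).trans (one_mul _).le
    have e : dscD k y = dscD k Z + (dscD k y - dscD k Z) := by ring
    rw [e]
    exact Valuation.map_add_eq_of_lt_left _ h2
  refine Sch.LS_of_near hL ?_
  rw [hδ, hδ', ← mul_sub, map_mul, map_mul, mul_left_comm]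
  refine (mul_lt_mul_iff_right₀ (zero_lt_iff.mpr ((Valuation.ne_zero_iff _).mpr hd0))).mpr ?_
  rw [hval, ← map_mul, Valuation.map_sub_swap]
  exact h1

/-- The explicit element. -/
noncomputable def kap (s' G : D) (a b c τ : k) : D :=
  ((1 + τ • (s' * G)) * (1 - τ • (s' * G))⁻¹) ^ 3 *
    ((1 + (τ ^ 2 * a * b) • (1 : D) - (τ ^ 3 * a * c) • s') *
      (1 + (τ ^ 2 * a * b) • (1 : D) + (τ ^ 3 * a * c) • s')⁻¹)

theorem kap_near (v : HeightOneSpectrum (𝓞 k)) (s' G : D) (a b c : k) {m : ℕ} (hm : 0 < m)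
    {ε : ℝ} (hε : 0 < ε) : ∃ ρ : ℝ, 0 < ρ ∧ ∀ τ : k, plAbv (.inl v : Pl k) τ < ρ →
      nm B (.inl v) (kap s' G a b c τ ^ m - 1) < ε ∧
        ∑ l ∈ Finset.range (12 * m), kap s' G a b c τ ^ l ≠ 0 := by
  have hcharD : CharZero D := charZero_of_injective_algebraMap (algebraMap k D).injective
  obtain ⟨l, hl⟩ : ∃ l, l = Filter.comap (fun τ : k => plAbv (.inl v : Pl k) τ) (nhds 0) :=
    ⟨_, rfl⟩
  have h0 : Tendsto (fun τ : k => plAbv (.inl v : Pl k) (τ - 0)) l (𝓝 0) := by
    rw [hl]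
    simp only [sub_zero]
    exact Filter.tendsto_comap
  have hsm : ∀ z : D, Tn B (.inl v : Pl k) l (fun τ => τ • z) 0 := by
    intro z
    have := Tn.smul (B := B) h0 z
    rwa [zero_smul] at this
  have hsm2 : ∀ z : D, Tn B (.inl v : Pl k) l (fun τ => (τ ^ 2 * a * b) • z) 0 := by
    intro z
    have h1 := (hsm 1).mul ((hsm (1 : D)).mul (Tn.const ((a * b) • z)))
    rw [zero_mul] at h1
    refine h1.congr fun τ => ?_
    congr 1
    simp only [smul_mul_assoc, one_mul, smul_smul]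
    congr 2
    ring
  have hsm3 : ∀ z : D, Tn B (.inl v : Pl k) l (fun τ => (τ ^ 3 * a * c) • z) 0 := by
    intro z
    have h1 := (hsm 1).mul ((hsm (1 : D)).mul ((hsm (1 : D)).mul (Tn.const ((a * c) • z))))
    rw [zero_mul] at h1
    refine h1.congr fun τ => ?_
    congr 1
    simp only [smul_mul_assoc, one_mul, smul_smul]
    congr 2
    ring
  have h1 : Tn B (.inl v : Pl k) l (fun _ => (1 : D)) 1 := Tn.const 1
  have hA := h1.add (hsm (s' * G))
  have hB := (h1.sub (hsm (s' * G))).inv (by rw [sub_zero]; exact one_ne_zero)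
  have hC := (h1.add (hsm2 1)).sub (hsm3 s')
  have hD := ((h1.add (hsm2 1)).add (hsm3 s')).inv (by rw [add_zero, add_zero]; exact one_ne_zero)
  have hk := (tnpw (hA.mul hB) 3).mul (hC.mul hD)
  have e : ((1 + 0 : D) * (1 - 0)⁻¹) ^ 3 * ((1 + 0 - 0) * (1 + 0 + 0)⁻¹) = 1 := by
    norm_num
  rw [e] at hk
  have hkm := tnpw hk m
  rw [one_pow] at hkm
  have hsum : Tn B (.inl v : Pl k) l (fun τ => ∑ l ∈ Finset.range (12 * m),
      kap s' G a b c τ ^ l) ((12 * m : ℕ) : D) := by
    have : ∀ n : ℕ, Tn B (.inl v : Pl k) l (fun τ => ∑ l ∈ Finset.range n,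
        kap s' G a b c τ ^ l) (n : D) := by
      intro n
      induction n with
      | zero => simp only [Finset.range_zero, Finset.sum_empty, Nat.cast_zero]; exact Tn.const 0
      | succ n ih =>
        simp only [Finset.sum_range_succ, Nat.cast_add, Nat.cast_one]
        have h5 := tnpw hk n
        rw [one_pow] at h5
        exact ih.add h5
    exact this _
  have hne : ((12 * m : ℕ) : D) ≠ 0 := Nat.cast_ne_zero.mpr (by omega)
  have key := (hkm.ev_lt hε).and (hsum.ev_ne hne)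
  rw [hl, Filter.eventually_comap, Metric.eventually_nhds_iff] at key
  obtain ⟨ρ, hρ, h⟩ := key
  refine ⟨ρ, hρ, fun τ hτ => h ?_ τ rfl⟩
  rw [Real.dist_0_eq_abs, abs_of_nonneg (AbsoluteValue.nonneg _ _)]
  exact hτ

end cont

end Vale.Agent.P011.Six
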