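import Vale.Agent.P011.Six.Conj
import Mathlib.RingTheory.Discriminant

/-!
The discriminant of a cubic generator.
-/

open Module Polynomial NumberField IsDedekindDomain

set_option linter.unusedSectionVars false

namespace Vale.Agent.P011.Six

variable {k F : Type} [Field k] [CharZero k] [Field F] [Algebra k F]

theorem dsc_discr (h3 : finrank k F = 3) (g : F) : dsc k g = Algebra.discr k ![1, g, g ^ 2] := by
  have h0 := trace_one_cub (R := k) h3
  rw [Algebra.discr_def, Matrix.det_fin_three]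
  simp only [Algebra.traceMatrix_apply, Algebra.traceForm_apply, Matrix.cons_val_zero,
    Matrix.cons_val_one, Matrix.cons_val, one_mul, mul_one]
  have e2 : g * g = g ^ 2 := by ring
  have e3 : g * g ^ 2 = g ^ 3 := by ring
  have e3' : g ^ 2 * g = g ^ 3 := by ring
  have e4 : g ^ 2 * g ^ 2 = g ^ 4 := by ring
  rw [e2, e3, e3', e4, h0, dsc]
  ring

theorem dsc_ne_zero (h3 : finrank k F = 3) {g : F} (hg : ∀ c : k, algebraMap k F c ≠ g) :
    dsc k g ≠ 0 := by
  have hfd := cub_fd h3
  obtain ⟨b, h0, h1, h2⟩ := exists_cub_basis h3 hg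
  have h := Algebra.discr_not_zero_of_basis k b
  rw [dsc_discr h3]
  have e : (b : Fin 3 → F) = ![1, g, g ^ 2] := by
    ext i
    fin_cases i
    · exact h0
    · exact h1
    · exact h2
  rwa [e] at h

/-- The discriminants of two generators differ by a square. -/
theorem dsc_gen (h3 : finrank k F = 3) {g c : F} (hg : ∀ x : k, algebraMap k F x ≠ g)
    (hc : ∀ x : k, algebraMap k F x ≠ c) : ∃ m : k, m ≠ 0 ∧ dsc k c = m ^ 2 * dsc k g := by
  obtain ⟨a₀, a₁, a₂, ha⟩ := exists_coef h3 hg c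
  obtain ⟨b₀, b₁, b₂, hb⟩ := exists_coef h3 hg (c ^ 2)
  obtain ⟨P, hP⟩ : ∃ P : Matrix (Fin 3) (Fin 3) k, P = !![1, a₀, b₀; 0, a₁, b₁; 0, a₂, b₂] :=
    ⟨_, rfl⟩
  have e : Matrix.vecMul ![1, g, g ^ 2] (P.map (algebraMap k F)) = ![1, c, c ^ 2] := by
    rw [hP]
    ext i
    fin_cases i
    · simp [Matrix.vecMul, dotProduct, Fin.sum_univ_three]
    · simp [Matrix.vecMul, dotProduct, Fin.sum_univ_three]
      rw [ha]
      ring
    · simp [Matrix.vecMul, dotProduct, Fin.sum_univ_three]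
      rw [hb]
      ring
  have h := Algebra.discr_of_matrix_vecMul (A := k) (![1, g, g ^ 2] : Fin 3 → F) P
  rw [e, ← dsc_discr h3, ← dsc_discr h3] at h
  refine ⟨P.det, ?_, h⟩
  intro h0
  rw [h0] at h
  apply dsc_ne_zero h3 hc
  rw [h]
  ring

/-- Translation. -/
theorem dsc_sub (h3 : finrank k F = 3) {g : F} (c : k) :
    dsc k (g - algebraMap k F c) = dsc k g := by
  have e : Matrix.vecMul ![1, g, g ^ 2] ((!![1, -c, c ^ 2; 0, 1, -(c + c); 0, 0, 1] :
      Matrix (Fin 3) (Fin 3) k).map (algebraMap k F)) =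
      ![1, g - algebraMap k F c, (g - algebraMap k F c) ^ 2] := by
    ext i
    fin_cases i
    · simp [Matrix.vecMul, dotProduct, Fin.sum_univ_three]
    · simp [Matrix.vecMul, dotProduct, Fin.sum_univ_three]
      ring
    · simp [Matrix.vecMul, dotProduct, Fin.sum_univ_three]
      ring
  have h := Algebra.discr_of_matrix_vecMul (A := k) (![1, g, g ^ 2] : Fin 3 → F)
    (!![1, -c, c ^ 2; 0, 1, -(c + c); 0, 0, 1])
  rw [e, ← dsc_discr h3, ← dsc_discr h3, Matrix.det_fin_three] at h
  simpa using h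

end Vale.Agent.P011.Six
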