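import Vale.Agent.P011.Pow.NS
import Vale.Agent.P011.Pow.NearH
import Vale.Agent.P011.Six.Cub

/-!
Discriminants of the uniformizers of a division algebra of degree three.
-/

open Module NumberField IsDedekindDomain Polynomial

set_option linter.unusedSectionVars false

namespace Vale.Agent.P011.Six

open Vale.Agent.P011.Arith (Z0 Pl plAbv plAbv_lt plAbv_inr approx)
open Vale.Agent.P011.W Vale.Agent.P011.Even Vale.Agent.P011.Pow

theorem exp3_ne {a b : Z0} (ha : a ≠ 0) (hb : b ≠ 0) :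
    a ^ 3 * WithZero.exp (-2) ≠ b ^ 3 * WithZero.exp (-1) := by
  obtain ⟨t, rfl⟩ := Arith.Sch.exp_of_ne_zero ha
  obtain ⟨u, rfl⟩ := Arith.Sch.exp_of_ne_zero hb
  rw [← WithZero.exp_nsmul, ← WithZero.exp_nsmul, ← WithZero.exp_add, ← WithZero.exp_add]
  intro h
  have h1 := WithZero.exp_injective h
  simp only [nsmul_eq_mul] at h1
  push_cast at h1
  omega

section uni

variable {K C : Type} [Field K] [NumberField K] [DivisionRing C] [Algebra K C]
  [FiniteDimensional K C] [Algebra.IsCentral K C] {w : HeightOneSpectrum (𝓞 K)}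

/-- The coefficients of the minimal polynomial of a uniformizer. -/
theorem coeff_lt (hC : finrank K C = 3 ^ 2) (hU : Ult K C 3 w) {x : C} {N T S : K}
    (hx : HasNrd K 3 x N) (hN : w.valuation K N = WithZero.exp (-1))
    (hr : x ^ 3 = algebraMap K C T * x ^ 2 + algebraMap K C S * x + algebraMap K C N) :
    w.valuation K T < 1 ∧ w.valuation K S < 1 := by
  have hx0 : x ≠ 0 := hx.ne_zero hC (by
    rintro rfl
    rw [map_zero] at hN
    exact WithZero.exp_ne_zero hN.symm)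
  have hT : HasNrd K 3 (algebraMap K C T * x ^ 2) (T ^ 3 * N ^ 2) := by
    have h1 := (HasNrd.algMap (D := C) (d := 3) T).mul (hx.mul hx)
    rwa [← pow_two, ← pow_two] at h1
  have hS : HasNrd K 3 (algebraMap K C S * x) (S ^ 3 * N) :=
    (HasNrd.algMap (D := C) (d := 3) S).mul hx
  have hx3 : HasNrd K 3 (x ^ 3) (N ^ 3) := by
    have h1 := (hx.mul hx).mul hx
    have e1 : x * x * x = x ^ 3 := by noncomm_ring
    have e2 : N * N * N = N ^ 3 := by ring
    rwa [e1, e2] at h1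
  have hNN : HasNrd K 3 (algebraMap K C N) (N ^ 3) := HasNrd.algMap (D := C) (d := 3) N
  obtain ⟨r, hR⟩ := exists_nrd hC (x ^ 3 + -algebraMap K C N)
  have hval : ∀ y : K, w.valuation K ((-1) ^ 3 * y) = w.valuation K y := fun y => by
    rw [map_mul, map_pow, Valuation.map_neg, map_one, one_pow, one_mul]
  have hr1 : w.valuation K r ≤ WithZero.exp (-3) := by
    have h1 := hU _ _ _ _ _ hx3 (Pow.HasNrd.neg hNN) hR
    rw [hval, max_self, map_pow, hN, ← WithZero.exp_nsmul] at h1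
    exact h1
  have e1 : x ^ 3 + -algebraMap K C N = algebraMap K C T * x ^ 2 + algebraMap K C S * x := by
    rw [hr]; abel
  rw [e1] at hR
  have h1 : w.valuation K (T ^ 3 * N ^ 2) ≤ max (w.valuation K r) (w.valuation K (S ^ 3 * N)) := by
    have h2 := hU _ _ _ _ _ hR (Pow.HasNrd.neg hS) (by
      rw [add_neg_cancel_right]
      exact hT)
    rwa [hval] at h2
  have h2 : w.valuation K (S ^ 3 * N) ≤ max (w.valuation K r) (w.valuation K (T ^ 3 * N ^ 2)) := by
    have h2 := hU _ _ _ _ _ hR (Pow.HasNrd.neg hT) (by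
      have e2 : algebraMap K C T * x ^ 2 + algebraMap K C S * x + -(algebraMap K C T * x ^ 2) =
          algebraMap K C S * x := by abel
      rw [e2]
      exact hS)
    rwa [hval] at h2
  have hTv : w.valuation K (T ^ 3 * N ^ 2) = w.valuation K T ^ 3 * WithZero.exp (-2) := by
    rw [map_mul, map_pow, map_pow, hN, ← WithZero.exp_nsmul]
    rfl
  have hSv : w.valuation K (S ^ 3 * N) = w.valuation K S ^ 3 * WithZero.exp (-1) := by
    rw [map_mul, map_pow, hN]
  rw [hTv, hSv] at h1 h2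
  have key : w.valuation K T ^ 3 * WithZero.exp (-2) ≤ WithZero.exp (-3) ∧
      w.valuation K S ^ 3 * WithZero.exp (-1) ≤ WithZero.exp (-3) := by
    by_cases hc : w.valuation K T ^ 3 * WithZero.exp (-2) ≤ WithZero.exp (-3)
    · exact ⟨hc, h2.trans (max_le hr1 hc)⟩
    · by_cases hc' : w.valuation K S ^ 3 * WithZero.exp (-1) ≤ WithZero.exp (-3)
      · exact absurd (h1.trans (max_le hr1 hc')) hc
      · exfalso
        rw [not_le] at hc hc'
        have h3 := (le_max_iff.mp h1).resolve_left (not_le.mpr (hr1.trans_lt hc))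
        have h4 := (le_max_iff.mp h2).resolve_left (not_le.mpr (hr1.trans_lt hc'))
        have h5 := le_antisymm h3 h4
        refine exp3_ne ?_ ?_ h5
        · intro h0
          rw [h0] at hc
          simp at hc
        · intro h0
          rw [h0] at hc'
          simp at hc'
  have hlt : ∀ (a : Z0) (m : ℤ), m < 3 → a ^ 3 * WithZero.exp (-m) ≤ WithZero.exp (-3) → a < 1 := by
    intro a m hm h
    by_contra hcon
    rw [not_lt] at hcon
    have h3 : (1 : Z0) ≤ a ^ 3 := one_le_pow₀ hcon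
    have h4 : (WithZero.exp (-m) : Z0) ≤ a ^ 3 * WithZero.exp (-m) := by
      calc (WithZero.exp (-m) : Z0) = 1 * WithZero.exp (-m) := (one_mul _).symm
        _ ≤ _ := mul_le_mul_left h3 _
    have h5 := h4.trans h
    rw [WithZero.exp_le_exp] at h5
    omega
  exact ⟨hlt _ 2 (by norm_num) key.1, hlt _ 1 (by norm_num) key.2⟩

end uni

/-- In a field whose number of elements is `2` modulo `3` all cubes are different. -/
theorem cube_inj {κ : Type} [Field κ] [Finite κ] (hq : Nat.card κ % 3 = 2) {a b : κ}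
    (h : a ^ 3 = b ^ 3) : a = b := by
  have _ := Fintype.ofFinite κ
  obtain ⟨m, hm⟩ : ∃ m, Nat.card κ = 3 * m + 2 := ⟨Nat.card κ / 3, by omega⟩
  have key : ∀ c : κ, c = (c ^ 3) ^ (2 * m + 1) := by
    intro c
    by_cases hc : c = 0
    · rw [hc, zero_pow (by norm_num), zero_pow (by omega)]
    have h1 : c ^ (3 * m + 1) = 1 := by
      have h2 := FiniteField.pow_card_sub_one_eq_one c hc
      rw [← Nat.card_eq_fintype_card, hm] at h2
      exact h2
    have e1 : 3 * (2 * m + 1) = (3 * m + 1) + (3 * m + 1) + 1 := by ring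
    rw [← pow_mul, e1, pow_add, pow_add, h1, one_mul, one_mul, pow_one]
  rw [key a, h, ← key b]

section disc

variable {k K : Type} [Field k] [NumberField k] [Field K] [NumberField K] [Algebra k K]

theorem val_nat_one {v : HeightOneSpectrum (𝓞 k)} (hq : Nat.card (𝓞 k ⧸ v.asIdeal) % 3 = 2) :
    v.valuation k (3 : k) = 1 := by
  have : v.asIdeal.IsMaximal := v.isMaximal
  let _ : Field (𝓞 k ⧸ v.asIdeal) := Ideal.Quotient.field v.asIdeal
  have : Finite (𝓞 k ⧸ v.asIdeal) := Arith.finite_residue v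
  have e3 : algebraMap (𝓞 k) k (3 : 𝓞 k) = 3 := map_ofNat _ 3
  refine le_antisymm ?_ ?_
  · rw [← e3]
    exact v.valuation_le_one (K := k) (3 : 𝓞 k)
  · by_contra hcon
    rw [not_le] at hcon
    have h1 : Ideal.Quotient.mk v.asIdeal (3 : 𝓞 k) = 0 := by
      rw [Arith.mk_eq_zero_iff, e3]
      exact hcon
    have h2 : (3 : 𝓞 k ⧸ v.asIdeal) = 0 := by rw [← h1, map_ofNat]
    have _ := Fintype.ofFinite (𝓞 k ⧸ v.asIdeal)
    have h3 : ((Fintype.card (𝓞 k ⧸ v.asIdeal) : ℕ) : 𝓞 k ⧸ v.asIdeal) = 0 :=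
      Nat.cast_card_eq_zero _
    rw [← Nat.card_eq_fintype_card] at h3
    obtain ⟨m, hm⟩ : ∃ m, Nat.card (𝓞 k ⧸ v.asIdeal) = 3 * m + 2 :=
      ⟨Nat.card (𝓞 k ⧸ v.asIdeal) / 3, by omega⟩
    rw [hm] at h3
    push_cast at h3
    rw [h2, zero_mul, zero_add] at h3
    exact one_ne_zero (α := 𝓞 k ⧸ v.asIdeal) (by linear_combination h2 - h3)

theorem le_of_lt_one {a : Z0} (h : a < 1) : a ≤ WithZero.exp (-1) := by
  by_cases h0 : a = 0
  · rw [h0]
    exact zero_le
  obtain ⟨n, rfl⟩ := Arith.Sch.exp_of_ne_zero h0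
  rw [← WithZero.exp_zero, WithZero.exp_lt_exp] at h
  rw [WithZero.exp_le_exp]
  omega

/-- The discriminant of an Eisenstein polynomial of degree three is not a local square. -/
theorem disc_not_square {v : HeightOneSpectrum (𝓞 k)} {w : HeightOneSpectrum (𝓞 K)}
    (hwv : Ab w v) (hq : Nat.card (𝓞 k ⧸ v.asIdeal) % 3 = 2) {a0 a1 a2 : K}
    (h0 : w.valuation K a0 = WithZero.exp (-1)) (h1 : w.valuation K a1 < 1)
    (h2 : w.valuation K a2 < 1)
    (hdense : ∀ x : K, ∃ y : k, w.valuation K (x - algebraMap k K y) < 1)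
    (happ : ∀ γ : Z0, γ ≠ 0 → ∃ z : K, w.valuation K (z ^ 2 -
      (a2 ^ 2 * a1 ^ 2 - 4 * a1 ^ 3 - 4 * a2 ^ 3 * a0 - 27 * a0 ^ 2 + 18 * a2 * a1 * a0)) < γ) :
    False := by
  have hval : ∀ x : k, w.valuation K (algebraMap k K x) < 1 ↔ v.valuation k x < 1 := fun x =>
    Arith.val_lt_one_iff hwv x
  obtain ⟨e, he, -, hve⟩ := val_above_le hwv
  have h3 : w.valuation K 3 = 1 := by
    have h4 := hve 3
    rwa [val_nat_one hq, one_pow, map_ofNat] at h4
  have hnat : ∀ n : ℕ, w.valuation K (n : K) ≤ 1 := fun n => e_val_nat_le _ n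
  obtain ⟨p, hp⟩ : ∃ p : Z0, p = WithZero.exp (-1) := ⟨_, rfl⟩
  have hp1 : p < 1 := by
    rw [hp, ← WithZero.exp_zero, WithZero.exp_lt_exp]; norm_num
  have hp0 : p ≠ 0 := by rw [hp]; exact WithZero.exp_ne_zero
  rw [← hp] at h0
  have h1' : w.valuation K a1 ≤ p := by rw [hp]; exact le_of_lt_one h1
  have h2' : w.valuation K a2 ≤ p := by rw [hp]; exact le_of_lt_one h2
  have hpm : ∀ m n : ℕ, m ≤ n → p ^ n ≤ p ^ m := fun m n h => pow_le_pow_right_of_le_one' hp1.le h
  have hplt : ∀ m n : ℕ, m < n → p ^ n < p ^ m := by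
    intro m n h
    rw [hp, ← WithZero.exp_nsmul, ← WithZero.exp_nsmul, WithZero.exp_lt_exp]
    simp only [nsmul_eq_mul]
    have : (m : ℤ) < n := by exact_mod_cast h
    linarith
  -- `A` and `B`
  obtain ⟨A, hA⟩ : ∃ A, A = a2 * a1 + 9 * a0 := ⟨_, rfl⟩
  obtain ⟨Bq, hB⟩ : ∃ Bq, Bq = a1 ^ 3 + a2 ^ 3 * a0 + 27 * a0 ^ 2 := ⟨_, rfl⟩
  have h9 : w.valuation K (9 * a0) = p := by
    have e9 : (9 : K) = 3 ^ 2 := by norm_num
    rw [map_mul, e9, map_pow, h3, one_pow, one_mul, h0]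
  have h21 : w.valuation K (a2 * a1) ≤ p ^ 2 := by
    rw [map_mul, pow_two]
    exact mul_le_mul' h2' h1'
  have hAv : w.valuation K A = p := by
    rw [hA, Valuation.map_add_eq_of_lt_right, h9]
    rw [h9]
    exact h21.trans_lt (by have := hplt 1 2 (by norm_num); rwa [pow_one] at this)
  have hA0 : A ≠ 0 := by
    intro h
    rw [h, map_zero] at hAv
    exact hp0 hAv.symm
  have hA2 : w.valuation K (A ^ 2) = p ^ 2 := by rw [map_pow, hAv]
  have ha13 : w.valuation K (a1 ^ 3) ≤ p ^ 3 := by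
    rw [map_pow]
    exact pow_le_pow_left' h1' 3
  have ha23 : w.valuation K (a2 ^ 3 * a0) ≤ p ^ 4 := by
    rw [map_mul, map_pow, h0, pow_succ p 3]
    exact mul_le_mul' (pow_le_pow_left' h2' 3) le_rfl
  have hBv : w.valuation K Bq ≤ p ^ 2 := by
    rw [hB]
    refine (w.valuation K).map_add_le ((w.valuation K).map_add_le
      (ha13.trans (hpm 2 3 (by norm_num))) (ha23.trans (hpm 2 4 (by norm_num)))) ?_
    rw [map_mul, map_pow, h0]
    calc w.valuation K 27 * p ^ 2 ≤ 1 * p ^ 2 := mul_le_mul_left (by exact_mod_cast hnat 27) _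
      _ = _ := one_mul _
  have hAB : w.valuation K (A ^ 2 - 3 * Bq) < p ^ 2 := by
    have e1 : A ^ 2 - 3 * Bq = (a2 * a1) ^ 2 + 18 * (a2 * a1 * a0) - 3 * a1 ^ 3 -
        3 * (a2 ^ 3 * a0) := by rw [hA, hB]; ring
    rw [e1]
    have l1 : w.valuation K ((a2 * a1) ^ 2) ≤ p ^ 3 := by
      rw [map_pow]
      calc w.valuation K (a2 * a1) ^ 2 ≤ (p ^ 2) ^ 2 := pow_le_pow_left' h21 2
        _ = p ^ 4 := by rw [← pow_mul]
        _ ≤ p ^ 3 := hpm 3 4 (by norm_num)
    have l2 : w.valuation K (18 * (a2 * a1 * a0)) ≤ p ^ 3 := by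
      rw [map_mul, map_mul (w.valuation K) (a2 * a1), h0]
      calc w.valuation K 18 * (w.valuation K (a2 * a1) * p) ≤ 1 * (p ^ 2 * p) :=
            mul_le_mul' (by exact_mod_cast hnat 18) (mul_le_mul' h21 le_rfl)
        _ = p ^ 3 := by rw [one_mul, ← pow_succ]
    have l3 : w.valuation K (3 * a1 ^ 3) ≤ p ^ 3 := by
      rw [map_mul, h3, one_mul]
      exact ha13
    have l4 : w.valuation K (3 * (a2 ^ 3 * a0)) ≤ p ^ 3 := by
      rw [map_mul, h3, one_mul]
      exact ha23.trans (hpm 3 4 (by norm_num))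
    exact ((w.valuation K).map_sub_le ((w.valuation K).map_sub_le
      ((w.valuation K).map_add_le l1 l2) l3) l4).trans_lt (hplt 2 3 (by norm_num))
  -- the root
  have h4A : w.valuation K (4 * A ^ 2) ≠ 0 :=
    (Valuation.ne_zero_iff _).mpr (mul_ne_zero (by norm_num) (pow_ne_zero 2 hA0))
  obtain ⟨z, hz⟩ := happ _ h4A
  obtain ⟨Y, hY⟩ : ∃ Y, Y = (1 + z / A) / 2 := ⟨_, rfl⟩
  obtain ⟨E, hE⟩ : ∃ E, E = Y ^ 2 - Y + Bq / A ^ 2 := ⟨_, rfl⟩
  have hEv : w.valuation K E < 1 := by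
    have e1 : E = (z ^ 2 - (a2 ^ 2 * a1 ^ 2 - 4 * a1 ^ 3 - 4 * a2 ^ 3 * a0 - 27 * a0 ^ 2 +
        18 * a2 * a1 * a0)) / (4 * A ^ 2) := by
      rw [hE, hY, hB]
      field_simp
      rw [hA]
      ring
    rw [e1, map_div₀]
    exact (div_lt_one₀ (zero_lt_iff.mpr h4A)).mpr hz
  have hBA : w.valuation K (Bq / A ^ 2) ≤ 1 := by
    rw [map_div₀, hA2]
    exact div_le_one_of_le₀ hBv zero_le
  have hYY : w.valuation K (Y ^ 2 - Y) ≤ 1 := by
    have e1 : Y ^ 2 - Y = E - Bq / A ^ 2 := by rw [hE]; ring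
    rw [e1]
    exact (w.valuation K).map_sub_le hEv.le hBA
  have hY1 : w.valuation K Y ≤ 1 := by
    by_contra hcon
    rw [not_le] at hcon
    have e1 : w.valuation K (Y - 1) = w.valuation K Y := by
      rw [sub_eq_add_neg, Valuation.map_add_eq_of_lt_left]
      rw [Valuation.map_neg, map_one]
      exact hcon
    have e2 : Y ^ 2 - Y = Y * (Y - 1) := by ring
    rw [e2, map_mul, e1] at hYY
    have h5 : 1 < w.valuation K Y * w.valuation K Y := one_lt_mul'' hcon hcon
    exact absurd hYY (not_le.mpr h5)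
  obtain ⟨y, hy⟩ := hdense Y
  have hy1 : w.valuation K (algebraMap k K y) ≤ 1 := by
    have e1 : algebraMap k K y = Y - (Y - algebraMap k K y) := by ring
    rw [e1]
    exact (w.valuation K).map_sub_le hY1 hy.le
  have hvy : v.valuation k y ≤ 1 := by
    rw [hve] at hy1
    by_contra hcon
    rw [not_le] at hcon
    exact absurd hy1 (not_le.mpr (one_lt_pow₀ hcon he))
  have hfin : v.valuation k (3 * y ^ 2 - 3 * y + 1) < 1 := by
    rw [← hval]
    have e1 : algebraMap k K (3 * y ^ 2 - 3 * y + 1) = 3 * E + (A ^ 2 - 3 * Bq) / A ^ 2 +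
        3 * ((algebraMap k K y - Y) * (algebraMap k K y + Y - 1)) := by
      rw [map_add, map_sub, map_mul, map_mul, map_pow, map_one, map_ofNat, hE]
      field_simp
      ring
    rw [e1]
    refine (w.valuation K).map_add_lt ((w.valuation K).map_add_lt ?_ ?_) ?_
    · rw [map_mul, h3, one_mul]
      exact hEv
    · rw [map_div₀, hA2]
      exact (div_lt_one₀ (zero_lt_iff.mpr (pow_ne_zero 2 hp0))).mpr hAB
    · rw [map_mul, h3, one_mul, map_mul, Valuation.map_sub_swap]
      have l1 : w.valuation K (algebraMap k K y + Y - 1) ≤ 1 :=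
        (w.valuation K).map_sub_le ((w.valuation K).map_add_le hy1 hY1) (by rw [map_one])
      calc _ ≤ w.valuation K (Y - algebraMap k K y) * 1 := mul_le_mul_right l1 _
        _ < 1 := by rwa [mul_one]
  -- the residue field
  obtain ⟨y0, hy0⟩ := Arith.exists_residue v hvy
  have : v.asIdeal.IsMaximal := v.isMaximal
  let _ : Field (𝓞 k ⧸ v.asIdeal) := Ideal.Quotient.field v.asIdeal
  have : Finite (𝓞 k ⧸ v.asIdeal) := Arith.finite_residue v
  have hvn : ∀ n : ℕ, v.valuation k (n : k) ≤ 1 := fun n => e_val_nat_le _ n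
  have hr : Ideal.Quotient.mk v.asIdeal (3 * y0 ^ 2 - 3 * y0 + 1) = 0 := by
    rw [Arith.mk_eq_zero_iff]
    have e1 : algebraMap (𝓞 k) k (3 * y0 ^ 2 - 3 * y0 + 1) = (3 * y ^ 2 - 3 * y + 1) +
        3 * ((algebraMap (𝓞 k) k y0 - y) * (algebraMap (𝓞 k) k y0 + y - 1)) := by
      rw [map_add, map_sub, map_mul, map_mul, map_pow, map_one, map_ofNat]
      ring
    rw [e1]
    refine (v.valuation k).map_add_lt hfin ?_
    rw [map_mul, map_mul]
    have l1 : v.valuation k (algebraMap (𝓞 k) k y0 + y - 1) ≤ 1 :=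
      (v.valuation k).map_sub_le ((v.valuation k).map_add_le (v.valuation_le_one y0) hvy)
        (by rw [map_one])
    calc v.valuation k 3 * (v.valuation k (algebraMap (𝓞 k) k y0 - y) *
          v.valuation k (algebraMap (𝓞 k) k y0 + y - 1)) ≤
          1 * (v.valuation k (algebraMap (𝓞 k) k y0 - y) * 1) :=
            mul_le_mul' (by exact_mod_cast hvn 3) (mul_le_mul_right l1 _)
      _ < 1 := by rwa [one_mul, mul_one]
  obtain ⟨r, hrd⟩ : ∃ r, r = Ideal.Quotient.mk v.asIdeal y0 := ⟨_, rfl⟩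
  rw [map_add, map_sub, map_mul, map_mul, map_pow, map_one, map_ofNat, ← hrd] at hr
  have h6 := cube_inj hq (a := 1 - r) (b := -r) (by linear_combination hr)
  exact one_ne_zero (α := 𝓞 k ⧸ v.asIdeal) (by linear_combination h6)

end disc

end Vale.Agent.P011.Six
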