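import Vale.Agent.P011.Six.DivA
import Vale.Agent.P011.Six.H586.Loc
import Vale.Agent.P011.One.WAb

/-!
Elements of degree three with nonsquare discriminant at the places where the algebra remains a
division algebra.
-/

open Module NumberField IsDedekindDomain Polynomial TensorProduct

set_option linter.unusedSectionVars false

namespace Vale.Agent.P011.Six

open Vale.Agent.P011.Arith (Z0 Pl plAbv plAbv_lt plAbv_inr approx)
open Vale.Agent.P011.W Vale.Agent.P011.Even Vale.Agent.P011.Pow Vale.Agent.P011.One
open Vale.Agent.P011.Six.H586 (cd GoodY good_of open_inl)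

section uni

variable {K C : Type} [Field K] [NumberField K] [DivisionRing C] [Algebra K C]
  [FiniteDimensional K C] [Algebra.IsCentral K C] {w : HeightOneSpectrum (𝓞 K)}

theorem norm_coeff {L : Type} [Field L] [Algebra K L] [FiniteDimensional K L] {u : L}
    (hd : (minpoly K u).natDegree = finrank K L) :
    Algebra.norm K u = (-1) ^ finrank K L * (minpoly K u).coeff 0 := by
  have hint : IsIntegral K u := IsIntegral.of_finite K u
  have hint' : IsIntegral K (u + algebraMap K L 1) := IsIntegral.of_finite K _
  have hm : minpoly K (u + algebraMap K L 1) = (minpoly K u).comp (X - C 1) :=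
    minpoly.add_algebraMap u 1
  have hn : (minpoly K (u + algebraMap K L 1)).natDegree = finrank K L := by
    rw [hm, natDegree_comp, natDegree_X_sub_C, mul_one, hd]
  have h := norm_sub_one (minpoly.monic hint') (minpoly.irreducible hint') hn.symm
    (minpoly.aeval K _)
  rw [hn, map_one, add_sub_cancel_right] at h
  rw [h, ← map_one (algebraMap K L), hm, eval_comp, eval_sub, eval_X, eval_C, sub_self,
    coeff_zero_eq_eval_zero]

/-- Uniformizers. -/
theorem exists_uni (hC : finrank K C = 3 ^ 2) (hU : Ult K C 3 w) :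
    ∃ x : C, (minpoly K x).natDegree = 3 ∧
      w.valuation K ((minpoly K x).coeff 0) = WithZero.exp (-1) ∧
      w.valuation K ((minpoly K x).coeff 1) < 1 ∧ w.valuation K ((minpoly K x).coeff 2) < 1 := by
  obtain ⟨y, hy⟩ := w.valuation_exists_uniformizer K
  have hy0 : y ≠ 0 := by
    rintro rfl
    rw [map_zero] at hy
    exact WithZero.exp_ne_zero hy.symm
  obtain ⟨x, hx⟩ := eichler (D := C) Nat.prime_three (e := 1) (by rw [hC, pow_one]) y hy0
    (fun h => absurd h (by norm_num))
  rw [pow_one] at hx
  obtain ⟨L, _, _, _, j, u, hL, hju⟩ := exists_maxfield hC x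
  have hLf : FiniteDimensional K L := Module.finite_of_finrank_pos (by rw [hL]; norm_num)
  have hmin : minpoly K x = minpoly K u := by rw [← hju, minpoly.algHom_eq j j.injective]
  have hN : Algebra.norm K u = y := by
    have h1 := hasNrd_norm hC hL j u
    rw [hju] at h1
    exact h1.unique hC hx
  have hdeg : (minpoly K u).natDegree = 3 := by
    have h1 : (minpoly K u).natDegree ∣ 3 := by
      rw [← hL, ← IntermediateField.adjoin.finrank (IsIntegral.of_finite K u)]
      exact ⟨finrank (IntermediateField.adjoin K {u}) L,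
        (Module.finrank_mul_finrank K _ L).symm⟩
    rcases (Nat.dvd_prime Nat.prime_three).mp h1 with h2 | h2
    · exfalso
      obtain ⟨c, hc⟩ := minpoly.natDegree_eq_one_iff.mp h2
      rw [← hc, Algebra.norm_algebraMap, hL] at hN
      rw [← hN, map_pow] at hy
      have hc0 : w.valuation K c ≠ 0 := by
        intro h0
        rw [h0, zero_pow (by norm_num)] at hy
        exact WithZero.exp_ne_zero hy.symm
      obtain ⟨m, hm⟩ := Arith.Sch.exp_of_ne_zero hc0
      rw [hm, ← WithZero.exp_nsmul] at hy
      have h3 := WithZero.exp_injective hy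
      simp only [nsmul_eq_mul] at h3
      push_cast at h3
      omega
    · exact h2
  have hc0 : (minpoly K u).coeff 0 = -y := by
    have h1 := norm_coeff (hdeg.trans hL.symm)
    rw [hN, hL] at h1
    rw [h1]; ring
  have hroot : x ^ 3 = algebraMap K C (-(minpoly K u).coeff 2) * x ^ 2 +
      algebraMap K C (-(minpoly K u).coeff 1) * x + algebraMap K C y := by
    have h1 := minpoly.aeval K x
    rw [hmin, aeval_eq_sum_range, hdeg] at h1
    simp only [Finset.sum_range_succ, Finset.sum_range_zero, zero_add, pow_zero, pow_one,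
      Algebra.smul_def] at h1
    have h2 : (minpoly K u).coeff 3 = 1 := by
      rw [← hdeg]
      exact minpoly.monic (IsIntegral.of_finite K u)
    rw [h2, hc0, map_one, one_mul, mul_one, map_neg] at h1
    rw [map_neg, map_neg]
    have h3 : x ^ 3 = -(-algebraMap K C y + algebraMap K C ((minpoly K u).coeff 1) * x +
        algebraMap K C ((minpoly K u).coeff 2) * x ^ 2) := by
      rw [eq_neg_iff_add_eq_zero, add_comm]
      exact h1
    rw [h3]
    noncomm_ring
  obtain ⟨h1, h2⟩ := coeff_lt hC hU hx hy hroot
  rw [Valuation.map_neg] at h1 h2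
  refine ⟨x, by rw [hmin, hdeg], ?_, by rw [hmin]; exact h2, by rw [hmin]; exact h1⟩
  rw [hmin, hc0, Valuation.map_neg, hy]

end uni

section place

variable {k K C : Type} [Field k] [NumberField k] [Field K] [NumberField K] [Algebra k K]
  [DivisionRing C] [Algebra K C] [FiniteDimensional K C] [Algebra.IsCentral K C]

/-- An element of degree three whose discriminant is not a square at the given place. -/
theorem exists_ns (hC : finrank K C = 3 ^ 2) {v : HeightOneSpectrum (𝓞 k)}
    (hU : ∀ w : HeightOneSpectrum (𝓞 K), Ab w v → Ult K C 3 w)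
    (hq : Nat.card (𝓞 k ⧸ v.asIdeal) % 3 = 2) (φ : K →+* v.adicCompletion k)
    (hφ : ∀ c : k, φ (algebraMap k K c) = algebraMap k (v.adicCompletion k) c) :
    ∃ x : C, (minpoly K x).natDegree = 3 ∧ ¬ IsSquare (φ (cd (minpoly K x))) := by
  obtain ⟨w, hwv, hle, -⟩ := exists_place_of_hom φ hφ
  obtain ⟨x, hx, h0, h1, h2⟩ := exists_uni hC (hU w hwv)
  refine ⟨x, hx, ?_⟩
  rintro ⟨z, hz⟩
  have hd : ∀ (y : v.adicCompletion k) (ε : ℝ), 0 < ε →
      ∃ c : k, ‖y - algebraMap k (v.adicCompletion k) c‖ < ε := fun y ε hε => by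
    obtain ⟨c, hc⟩ := Even.dense v y ε hε
    exact ⟨c, hc⟩
  refine disc_not_square hwv hq h0 h1 h2 (fun y => ?_) (fun γ hγ => ?_)
  · obtain ⟨c, hc⟩ := hd (φ y) 1 one_pos
    refine ⟨c, val_lt_of_norm hle ?_⟩
    rw [map_sub, hφ]
    exact hc
  · obtain ⟨g, hg⟩ := w.valuation_surjective K γ
    have hg0 : g ≠ 0 := by
      rintro rfl
      rw [map_zero] at hg
      exact hγ hg.symm
    have hgφ : φ g ≠ 0 := (map_ne_zero φ).mpr hg0
    have hcont : Filter.Tendsto (fun y : v.adicCompletion k => ‖(y ^ 2 - z ^ 2) / φ g‖)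
        (nhds z) (nhds 0) := by
      have h3 : ContinuousAt (fun y : v.adicCompletion k => ‖(y ^ 2 - z ^ 2) / φ g‖) z :=
        (((continuousAt_id.pow 2).sub continuousAt_const).div_const _).norm
      have h4 := h3.tendsto
      simpa using h4
    have hev := hcont.eventually (Iio_mem_nhds one_pos)
    obtain ⟨ε, hε, H⟩ := Metric.eventually_nhds_iff.mp hev
    obtain ⟨c, hc⟩ := hd z ε hε
    have h5 := H (y := algebraMap k _ c) (by rw [dist_comm, dist_eq_norm]; exact hc)
    refine ⟨algebraMap k K c, ?_⟩
    have h6 : ‖φ (((algebraMap k K c) ^ 2 - cd (minpoly K x)) / g)‖ < 1 := by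
      rw [map_div₀, map_sub, map_pow, hφ, hz, ← pow_two]
      exact h5
    have h7 := val_lt_of_norm hle h6
    rw [map_div₀, hg, div_lt_one₀ (zero_lt_iff.mpr hγ)] at h7
    exact h7

end place

end Vale.Agent.P011.Six
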