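import Vale.Agent.P011.Six.DivB

/-!
The local condition at the places which split in `K`, from one element of degree three.
-/

open Module NumberField IsDedekindDomain Polynomial TensorProduct MulOpposite

set_option linter.unusedSectionVars false

namespace Vale.Agent.P011.Six

open Vale.Agent.P011.Arith (Z0 Pl plAbv plAbv_lt plAbv_inr approx LSp)
open Vale.Agent.P011.W Vale.Agent.P011.Even Vale.Agent.P011.Pow Vale.Agent.P011.One
open Vale.Agent.P011.Six.H586 (cd GoodY good_of open_inl cd_map)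

variable {k K D : Type} [Field k] [NumberField k] [Field K] [StarRing K]
    [DivisionRing D] [StarRing D] [Algebra k K] [Algebra k D] [Algebra K D] [IsScalarTower k K D]
    {d : kˣ} {s : K} {N : ℕ}

/-- Evaluation in the opposite algebra. -/
theorem aeval_op {R A : Type} [CommRing R] [Ring A] [Algebra R A] (q : R[X]) (z : A) :
    aeval (op z) q = op (aeval z q) := by
  induction q using Polynomial.induction_on' with
  | add p q hp hq => rw [map_add, map_add, hp, hq, op_add]
  | monomial n a =>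
    rw [aeval_monomial, aeval_monomial, ← op_pow, MulOpposite.algebraMap_apply, ← op_mul,
      Algebra.commutes]

theorem goodY_div (hS : Setting k K D d s) (B : Basis (Fin N) k D)
    (v : HeightOneSpectrum (𝓞 k)) (φ : K →+* v.adicCompletion k)
    (hφ : ∀ c : k, φ (algebraMap k K c) = algebraMap k (v.adicCompletion k) c) {x₀ : D}
    (hx₀ : (minpoly K x₀).natDegree = 3) (hns : ¬ IsSquare (φ (cd (minpoly K x₀)))) :
    ∃ (x : Fin N → k) (δ : ℝ), 0 < δ ∧ ∀ β : D, (∀ j, plAbv (.inl v) (B.repr β j - x j) < δ) →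
      GoodY (d : k) (.inl v) (β * star β) := by
  classical
  have := hS.fin
  have := hS.cen
  let R := v.adicCompletion k
  let _ : Algebra K R := φ.toAlgebra
  have hKR : ∀ c : K, algebraMap K R c = φ c := fun _ => rfl
  let A := R ⊗[K] D
  let A' := A × Aᵐᵒᵖ
  let ι : D →ₐ[K] A := Algebra.TensorProduct.includeRight
  have hι : ∀ x : D, ι x = (1 : R) ⊗ₜ[K] x := fun _ => rfl
  have hιK : ∀ (c : K) (x : D), ι (algebraMap K D c * x) = φ c • ι x := by
    intro c x
    rw [← Algebra.smul_def, map_smul, ← algebraMap_smul R c (ι x)]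
    rfl
  have hιk : ∀ (a : k) (x : D), ι (a • x) = algebraMap k R a • ι x := by
    intro a x
    rw [Algebra.smul_def, IsScalarTower.algebraMap_apply k K D, hιK, hφ]
  have hsk : ∀ (a : k) (x : D), star (a • x) = a • star x := fun a x => by
    rw [← algebraMap_smul K a x, hS.star_smul, (hS.fix _).mpr ⟨_, rfl⟩, algebraMap_smul]
  let g : D →+* A' :=
    { toFun := fun x => (ι x, op (ι (star x)))
      map_one' := by rw [star_one, map_one, op_one]; rfl
      map_mul' := fun x y => by
        rw [star_mul, map_mul, map_mul, op_mul]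
        rfl
      map_zero' := by rw [star_zero, map_zero, op_zero]; rfl
      map_add' := fun x y => by
        rw [star_add, map_add, map_add, op_add]
        rfl }
  have hgx : ∀ x, g x = (ι x, op (ι (star x))) := fun _ => rfl
  let τ : A' →ₗ[R] A' :=
    { toFun := fun z => (unop z.2, op z.1)
      map_add' := fun z w => by
        rw [Prod.fst_add, Prod.snd_add, unop_add, op_add]
        rfl
      map_smul' := fun c z => by
        rw [Prod.smul_fst, Prod.smul_snd, unop_smul, op_smul]
        rfl }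
  have hτx : ∀ z : A', τ z = (unop z.2, op z.1) := fun _ => rfl
  -- coordinates
  let Φ : (Fin N → R) →ₗ[R] A' :=
    { toFun := fun b => ∑ j, b j • g (B j)
      map_add' := fun b c => by
        simp only [Pi.add_apply, add_smul, Finset.sum_add_distrib]
      map_smul' := fun r b => by
        simp only [Pi.smul_apply, smul_eq_mul, mul_smul, Finset.smul_sum, RingHom.id_apply] }
  have h1 : ∀ y : D, g y ∈ LinearMap.range Φ := by
    intro y
    refine ⟨fun j => algebraMap k R (B.repr y j), ?_⟩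
    change ∑ j, algebraMap k R (B.repr y j) • g (B j) = g y
    conv_rhs => rw [← B.sum_repr y]
    rw [map_sum]
    refine Finset.sum_congr rfl fun j _ => ?_
    rw [hgx, hgx, hsk, hιk, hιk, op_smul]
    rfl
  have hs0 : s ≠ 0 := by
    intro h0
    have h2 := hS.sq
    rw [h0, zero_pow two_ne_zero] at h2
    exact (d.ne_zero) ((algebraMap k K).injective (by rw [← h2, map_zero]))
  obtain ⟨δ, hδ⟩ : ∃ δ, δ = φ s := ⟨_, rfl⟩
  have hδ0 : δ ≠ 0 := by rw [hδ]; exact (map_ne_zero φ).mpr hs0
  have : CharZero R := charZero_of_injective_algebraMap (algebraMap k R).injective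
  have h2δ : 2 * δ ≠ 0 := mul_ne_zero two_ne_zero hδ0
  have hst : ∀ y : D, star (algebraMap K D s * y) = -(algebraMap K D s * star y) := by
    intro y
    rw [← Algebra.smul_def, hS.star_smul, hS.star_s, neg_smul, Algebra.smul_def]
  have h3 : ∀ y : D, ((ι y, 0) : A') ∈ LinearMap.range Φ := by
    intro y
    have h4 := add_mem (Submodule.smul_mem _ δ (h1 y)) (h1 (algebraMap K D s * y))
    have h5 := Submodule.smul_mem _ (2 * δ)⁻¹ h4
    rw [hgx, hgx, hst, map_neg, hιK, hιK, ← hδ, op_neg, op_smul] at h5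
    have e : (2 * δ)⁻¹ • (δ • ((ι y, op (ι (star y))) : A') +
        (δ • ι y, -(δ • op (ι (star y))))) = ((ι y, 0) : A') := by
      refine Prod.ext ?_ ?_
      · change (2 * δ)⁻¹ • (δ • ι y + δ • ι y) = ι y
        rw [← add_smul, ← two_mul, smul_smul, inv_mul_cancel₀ h2δ, one_smul]
      · change (2 * δ)⁻¹ • (δ • op (ι (star y)) + -(δ • op (ι (star y)))) = 0
        rw [add_neg_cancel, smul_zero]
    rw [e] at h5
    exact h5
  have h4 : ∀ y : D, (((0 : A), op (ι y)) : A') ∈ LinearMap.range Φ := by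
    intro y
    have h5 := sub_mem (h1 (star y)) (h3 (star y))
    rw [hgx, star_star, Prod.mk_sub_mk, sub_self, sub_zero] at h5
    exact h5
  obtain ⟨b, hb⟩ : ∃ b : Fin N → R, ∑ j, b j • g (B j) = ((ι x₀, 1) : A') := by
    obtain ⟨b, hb⟩ := add_mem (h3 x₀) (h4 1)
    refine ⟨b, hb.trans ?_⟩
    rw [Prod.mk_add_mk, add_zero, zero_add, map_one, op_one]
  have hz : (∑ j, b j • g (B j)) * τ (∑ j, b j • g (B j)) = ((ι x₀, op (ι x₀)) : A') := by
    rw [hb, hτx, unop_one, Prod.mk_mul_mk, mul_one, one_mul]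
  have hint : IsIntegral K x₀ := IsIntegral.of_finite K x₀
  refine good_of B (d : k) (.inl v) (R := R) (norm_algebraMap_eq v) (fun x ε hε => by
    obtain ⟨y, hy⟩ := Even.dense v x ε hε
    exact ⟨y, by rwa [norm_sub_rev]⟩) (open_inl v)
    (fun u hu => (isSquare_iff v u).mpr hu) (finBasis R A') g (fun a x => ?_) τ
    (fun x => ?_) b ?_ (q := (minpoly K x₀).map φ) ((minpoly.monic hint).map φ)
    (by rw [natDegree_map, hx₀]) ?_ ?_
  · rw [hgx, hgx, hsk, hιk, hιk, op_smul]
    rfl
  · rw [hgx, hτx, hgx, star_star, unop_op]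
  · rw [hz]
    have h5 : (LinearMap.fst R A Aᵐᵒᵖ : A' → A) ∘ (fun i : Fin 3 =>
        ((ι x₀, op (ι x₀)) : A') ^ (i : ℕ)) = fun i : Fin 3 => (1 : R) ⊗ₜ[K] (x₀ ^ (i : ℕ)) := by
      funext i
      change (ι x₀) ^ (i : ℕ) = _
      rw [← map_pow, hι]
    refine LinearIndependent.of_comp (LinearMap.fst R A Aᵐᵒᵖ) ?_
    rw [h5]
    refine Module.Flat.linearIndependent_one_tmul ?_
    have h6 := linearIndependent_pow (K := K) x₀
    rw [hx₀] at h6
    exact h6
  · rw [hz]
    have h5 : aeval (ι x₀) ((minpoly K x₀).map φ) = 0 := by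
      have h6 : aeval (ι x₀) (minpoly K x₀) = 0 := by
        rw [aeval_algHom_apply, minpoly.aeval, map_zero]
      rw [← h6]
      exact aeval_map_algebraMap R (ι x₀) (minpoly K x₀)
    have h6 : aeval ((ι x₀, op (ι x₀)) : A') ((minpoly K x₀).map φ) =
        (aeval (ι x₀) ((minpoly K x₀).map φ), aeval (op (ι x₀)) ((minpoly K x₀).map φ)) := by
      refine Prod.ext ?_ ?_
      · exact (aeval_algHom_apply (AlgHom.fst R A Aᵐᵒᵖ) _ _).symm
      · exact (aeval_algHom_apply (AlgHom.snd R A Aᵐᵒᵖ) _ _).symm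
    rw [h6, aeval_op, h5, op_zero]
    rfl
  · rw [cd_map, ← hφ, ← hS.sq]
    rintro ⟨z, hz'⟩
    apply hns
    refine ⟨z / δ, ?_⟩
    rw [div_mul_div_comm, ← hz', map_pow, ← hδ, pow_two, mul_div_cancel_left₀ _
      (mul_ne_zero hδ0 hδ0)]

end Vale.Agent.P011.Six
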