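import Vale.Agent.P011.Six.DivC
import Vale.Agent.P011.Six.H586.Final

/-!
The element which repairs the class of the discriminant, with places where the algebra remains a
division algebra.
-/

open Module NumberField IsDedekindDomain Polynomial

set_option linter.unusedSectionVars false

namespace Vale.Agent.P011.Six

open Vale.Agent.P011.Arith Vale.Agent.P011.Even Vale.Agent.P011.Two Vale.Agent.P011.One
open Vale.Agent.P011.Six.H359 (Fr th)
open Vale.Agent.P011.Six.H586

section gen

variable {k K D : Type} [Field k] [NumberField k] [Field K] [NumberField K] [StarRing K]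
    [DivisionRing D] [StarRing D] [Algebra k K] [Algebra k D] [Algebra K D] [IsScalarTower k K D]
    {d : kˣ} {s : K} {N : ℕ}

/-- The global element. -/
theorem exists_beta_gen (B : Basis (Fin N) k D) {T : Set (Pl k)}
    (hT : T.Finite) (hp : ∀ p ∈ T, ∃ (x : Fin N → k) (δ : ℝ), 0 < δ ∧ ∀ β : D,
      (∀ j, plAbv p (B.repr β j - x j) < δ) → GoodY (d : k) p (β * star β)) :
    ∃ β : D, ∀ p ∈ T, GoodY (d : k) p (β * star β) := by
  classical
  have h1 : ∀ p : Pl k, ∃ (x : Fin N → k) (δ : ℝ), 0 < δ ∧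
      (p ∈ T → ∀ β : D, (∀ j, plAbv p (B.repr β j - x j) < δ) →
        GoodY (d : k) p (β * star β)) := by
    intro p
    by_cases hpT : p ∈ T
    · obtain ⟨x, δ, hδ, h⟩ := hp p hpT
      exact ⟨x, δ, hδ, fun _ => h⟩
    · exact ⟨0, 1, one_pos, fun h => absurd h hpT⟩
  choose x δ hδ hx using h1
  have happ : ∀ j, ∃ f : k, ∀ p ∈ T, plAbv p (f - x p j) < δ p := fun j =>
    approx T hT (fun p => x p j) δ hδ
  choose f hf using happ
  refine ⟨∑ j, f j • B j, fun p hpT => hx p hpT _ fun j => ?_⟩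
  rw [B.repr_sum_self]
  exact hf j p hpT

end gen

variable {k K D : Type} [Field k] [NumberField k] [Field K] [NumberField K] [StarRing K]
    [DivisionRing D] [StarRing D] [Algebra k K] [Algebra k D] [Algebra K D] [IsScalarTower k K D]
    {d : kˣ} {s : K} {al be : kˣ} {i j : D}

/-- The symmetric element of degree three. -/
theorem exists_Y_gen (hS : Setting k K D d s) (hdeg : finrank K D = 6 ^ 2) (hF : Fr k al be i j)
    (hbad : (bad al be).Nonempty)
    (hT : ∀ v : HeightOneSpectrum (𝓞 k), be ∉ NF al ⊔ LS (v.valuation k) →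
      (Sum.inl v : Pl k) ∈ One.Tdiv k K D → Nat.card (𝓞 k ⧸ v.asIdeal) % 3 = 2) :
    ∃ y : D, YEl (k := k) d al be i j y := by
  let _ := starCC K hF.si hF.sj
  have hSC := setting_CC hS hF
  have hdC := finrank_CC9 hS hF hdeg
  have := hSC.fin
  have := hSC.cen
  have := hSC.fin_k
  have := hS.fin_k
  obtain ⟨β, hβ⟩ := exists_beta_gen (finBasis k (CC K i j)) (bad_finite al be) fun p hp => by
    rcases p with v | τ
    · by_cases hv : (Sum.inl v : Pl k) ∈ Tdiv k K (CC K i j)
      · have hvD : (Sum.inl v : Pl k) ∈ Tdiv k K D := by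
          by_contra hcon
          exact tdiv_cc hS hdeg hF v hp hcon hv
        obtain ⟨v', hv', φ, -⟩ := id hv
        obtain rfl : v = v' := Sum.inl_injective hv'
        obtain ⟨x₀, hx₀, hns⟩ := exists_ns hdC (v := v)
          (fun w hw => Pow.ult_of_tdiv hSC hdC hv hw) (hT v hp hvD) (φ : K →+* v.adicCompletion k)
          (fun c => φ.commutes c)
        exact goodY_div hSC _ v (φ : K →+* v.adicCompletion k) (fun c => φ.commutes c) hx₀ hns
      · exact goodY_all hSC hdC _ (.inl v) (fun hd => H359.exists_splAt3 hSC hdC v hd hv) al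
          (notMem_LSp_of_bad hp)
    · exact goodY_all hSC hdC _ (.inr τ) (fun hd => H359.exists_spl_real3 hSC hdC τ hd) al
        (notMem_LSp_of_bad hp)
  obtain ⟨z, hz⟩ : ∃ z, z = β * star β := ⟨_, rfl⟩
  have hzs : star z = z := by rw [hz, star_mul, star_star]
  simp only [← hz] at hβ
  have hmin : minpoly k (vk k z : D) = minpoly k z := minpoly.algHom_eq (vk k) (vv_inj K) z
  have hint : IsIntegral k z := IsIntegral.of_finite k z
  have hdeg3 : (minpoly k z).natDegree = 3 := by
    have h1 : (minpoly K z).natDegree = (minpoly k z).natDegree := by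
      rw [H422.minpoly_sym hSC hzs, natDegree_map]
    have h2 : (minpoly K z).natDegree ∣ 3 := by
      obtain ⟨L, _, _, _, jL, u', hL, hju⟩ := W.exists_maxfield hdC z
      have h3 : minpoly K z = minpoly K u' := by
        rw [← hju, minpoly.algHom_eq jL jL.toRingHom.injective u']
      have h4 : FiniteDimensional K L := Module.finite_of_finrank_pos (by rw [hL]; norm_num)
      rw [h3, ← hL, ← IntermediateField.adjoin.finrank (IsIntegral.of_finite K u')]
      exact ⟨finrank (IntermediateField.adjoin K {u'}) L,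
        (Module.finrank_mul_finrank K _ L).symm⟩
    rw [h1] at h2
    rcases (Nat.dvd_prime Nat.prime_three).mp h2 with h3 | h3
    · exfalso
      obtain ⟨p, hp⟩ := hbad
      have h4 := (hβ p hp).1
      have h5 := minpoly.aeval k z
      rw [aeval_eq_sum_range, h3, Finset.sum_range_succ, Finset.sum_range_one] at h5
      have h6 := Fintype.linearIndependent_iff.mp h4
        ![(minpoly k z).coeff 0, (minpoly k z).coeff 1, 0] (by
          rw [Fin.sum_univ_three]
          simpa using h5) 1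
      have h7 : (minpoly k z).coeff 1 = 1 := by
        rw [← h3]
        exact minpoly.monic hint
      simp [h7] at h6
    · exact h3
  refine ⟨vk k z, ?_, vv_i K z, vv_j K z, by rw [hmin, hdeg3], ?_, fun p hp => ?_⟩
  · exact congrArg (vv K) hzs
  · obtain ⟨p, hp⟩ := hbad
    rw [hmin]
    exact ((hβ p hp).2 _ (minpoly.monic hint) hdeg3 (minpoly.aeval k z)).1
  · rw [hmin]
    exact ((hβ p hp).2 _ (minpoly.monic hint) hdeg3 (minpoly.aeval k z)).2

/-- **The element which repairs the class of the discriminant.** -/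
theorem exNu_gen {M : ℕ} {Ω : Type} [Field Ω] [Algebra K Ω] (hS : Setting k K D d s)
    (hdeg : finrank K D = 6 ^ 2) (hF : Fr k al be i j)
    (hT : ∀ v : HeightOneSpectrum (𝓞 k), be ∉ NF al ⊔ LS (v.valuation k) →
      (Sum.inl v : Pl k) ∈ One.Tdiv k K D → Nat.card (𝓞 k ⧸ v.asIdeal) % 3 = 2)
    (f : D →ₐ[K] Matrix (Fin 6) (Fin 6) Ω) (B : Basis (Fin M) k D)
    {S : Set (HeightOneSpectrum (𝓞 k))} (hSf : S.Finite)
    (η : HeightOneSpectrum (𝓞 k) → ℝ) (hη : ∀ v, 0 < η v) {e : ℕ} (he : e ≠ 0) :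
    ∃ κ : D, κ * star κ = 1 ∧ (f κ).det = 1 ∧ κ * i = i * κ ∧ κ * j = j * κ ∧
      (∀ v ∈ S, nm B (.inl v) (κ ^ e - 1) < η v) ∧
      ∃ η' : Pl k → ℝ, (∀ p, 0 < η' p) ∧ ∀ x : D,
        (∀ p ∈ bad al be, nm B p (x - 1) < η' p) →
        ∀ (L : Type) [Field L] [Algebra k L] (ι : L →ₐ[k] D) (c : L), finrank k L = 3 →
          ι c = 2 + th j (x * κ ^ e) + (th j (x * κ ^ e))⁻¹ →
          ∃ e1 e2 e3 : k, al * e1 ^ 2 + be * e2 ^ 2 - al * be * e3 ^ 2 =
            d * Algebra.discr k (fun a : Fin 3 => c ^ (a : ℕ)) := by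
  obtain ⟨y, hy⟩ := exists_Y_gen hS hdeg hF (bad_nonempty hF hS) hT
  obtain ⟨κ, h1, h2, hi, hj, hn, h0, hcl⟩ := H586.exists_kappa B f hS hdeg hy hSf η hη he
  have hκ0 : κ ≠ 0 := left_ne_zero_of_mul_eq_one h1
  have hνj : κ ^ e * j = j * κ ^ e := (show Commute κ j from hj).pow_left e
  obtain ⟨η', hη', H⟩ := exists_rads (d := d) B hF (pow_ne_zero e hκ0) hνj h0 hcl
  exact ⟨κ, h1, h2, hi, hj, hn, η', hη', fun x hx L _ _ ι c h3 hc =>
    tern_disc hS hdeg hF (fun p hp => H p hp x (hx p hp)) L ι c h3 hc⟩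

end Vale.Agent.P011.Six
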