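import Vale.Agent.P011.W.LocC

/-!
Elements of degree three with nonsquare discriminant in a local division algebra of degree three
and residue characteristic three.
-/

open Module Polynomial

set_option linter.unusedSectionVars false

namespace Vale.Agent.P011.Six

open Vale.Agent.P011.Even.LocDiv Vale.Agent.P011.W

section alg

variable {W E : Type} [Field W] [DivisionRing E]

/-- The cubic polynomial of the sum of an element of the maximal subfield and of an element which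
normalises it. -/
theorem cubic_sum (ι : W →+* E) (s : W →+* W) {p : E} (hp : ∀ w, p * ι w = ι (s w) * p) (w : W) :
    (ι w + p) ^ 3 = ι (w + s w + s (s w)) * (ι w + p) ^ 2 -
      ι (w * s w + w * s (s w) + s w * s (s w)) * (ι w + p) + ι (w * s w * s (s w)) + p ^ 3 := by
  have h2 : (ι w + p) ^ 2 = ι (w ^ 2) + ι (w + s w) * p + p ^ 2 := by
    have e : (ι w + p) ^ 2 = ι w * ι w + ι w * p + p * ι w + p * p := by noncomm_ring
    rw [e, hp, pow_two, pow_two, map_mul, map_add]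
    noncomm_ring
  have h3 : (ι w + p) ^ 3 = ι (w ^ 3) + ι (w ^ 2 + w * s w + s w ^ 2) * p +
      ι (w + s w + s (s w)) * p ^ 2 + p ^ 3 := by
    have e : (ι w + p) ^ 3 = (ι w + p) * (ι w + p) ^ 2 := by rw [pow_succ']
    have e1 : (ι w + p) * (ι (w ^ 2) + ι (w + s w) * p + p ^ 2) =
        ι w * ι (w ^ 2) + ι w * ι (w + s w) * p + ι w * p ^ 2 + p * ι (w ^ 2) +
          p * ι (w + s w) * p + p ^ 3 := by noncomm_ring
    rw [e, h2, e1, hp, hp, ← map_mul ι, ← map_mul ι]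
    have e2 : ι (w * w ^ 2) + ι (w * (w + s w)) * p + ι w * p ^ 2 + ι (s (w ^ 2)) * p +
          ι (s (w + s w)) * p * p + p ^ 3 =
        ι (w * w ^ 2) + (ι (w * (w + s w)) + ι (s (w ^ 2))) * p +
          (ι w + ι (s (w + s w))) * p ^ 2 + p ^ 3 := by noncomm_ring
    rw [e2, ← map_add ι, ← map_add ι]
    congr 3
    · congr 1
      ring
    · congr 2
      rw [map_pow]
      ring
    · congr 1
      rw [map_add]
      ring
  rw [h2, h3]
  have e4 : ι (w + s w + s (s w)) * (ι (w ^ 2) + ι (w + s w) * p + p ^ 2) -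
      ι (w * s w + w * s (s w) + s w * s (s w)) * (ι w + p) + ι (w * s w * s (s w)) + p ^ 3 =
      (ι (w + s w + s (s w)) * ι (w ^ 2) - ι (w * s w + w * s (s w) + s w * s (s w)) * ι w +
        ι (w * s w * s (s w))) +
      (ι (w + s w + s (s w)) * ι (w + s w) - ι (w * s w + w * s (s w) + s w * s (s w))) * p +
      ι (w + s w + s (s w)) * p ^ 2 + p ^ 3 := by noncomm_ring
  rw [e4, ← map_mul ι, ← map_mul ι, ← map_mul ι, ← map_sub ι, ← map_sub ι, ← map_add ι]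
  congr 3
  · congr 1
    ring
  · congr 2
    ring

end alg

section ultra

variable {E : Type} [NormedDivisionRing E] [IsUltrametricDist E]

/-- Elements whose norms belong to different classes of the value group modulo the third powers. -/
def Pe (r : ℝ) (i : ℤ) (x : E) : Prop := x = 0 ∨ ∃ e : ℤ, ‖x‖ = r ^ (3 * e + i)

theorem Pe.ne {r : ℝ} (hr0 : 0 < r) (hr1 : r < 1) {i j : ℤ} (hij : ¬ (3 : ℤ) ∣ i - j) {x y : E}
    (hx : Pe r i x) (hy : Pe r j y) (h : ‖x‖ = ‖y‖) : x = 0 ∧ y = 0 := by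
  rcases hx with rfl | ⟨e, he⟩
  · rw [norm_zero] at h
    exact ⟨rfl, norm_eq_zero.mp h.symm⟩
  rcases hy with rfl | ⟨e', he'⟩
  · rw [norm_zero] at h
    exact ⟨norm_eq_zero.mp h, rfl⟩
  exfalso
  rw [he, he'] at h
  have h1 := zpow_right_injective₀ hr0 hr1.ne h
  exact hij ⟨e' - e, by linarith [h1]⟩

theorem Pe.sum {r : ℝ} (hr0 : 0 < r) (hr1 : r < 1) {x y z : E} (hx : Pe r 0 x) (hy : Pe r (-1) y)
    (hz : Pe r (-2) z) (h : x + y + z = 0) : x = 0 ∧ y = 0 ∧ z = 0 := by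
  have hxy : x + y = -z := by rw [← add_eq_zero_iff_eq_neg]; exact h
  by_cases hn : ‖x‖ = ‖y‖
  · obtain ⟨rfl, rfl⟩ := Pe.ne hr0 hr1 (by norm_num) hx hy hn
    rw [add_zero, eq_comm, neg_eq_zero] at hxy
    exact ⟨rfl, rfl, hxy⟩
  · exfalso
    have h1 := IsUltrametricDist.norm_add_eq_max_of_norm_ne_norm hn
    rw [hxy, norm_neg] at h1
    rcases max_choice ‖x‖ ‖y‖ with h2 | h2
    · rw [h2] at h1
      obtain ⟨rfl, rfl⟩ := Pe.ne hr0 hr1 (by norm_num) hz hx h1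
      rw [neg_zero, zero_add] at hxy
      exact hn (by rw [hxy])
    · rw [h2] at h1
      obtain ⟨rfl, rfl⟩ := Pe.ne hr0 hr1 (by norm_num) hz hy h1
      rw [neg_zero, add_zero] at hxy
      exact hn (by rw [hxy])

end ultra

section loc

variable {k E : Type} [NontriviallyNormedField k] [CompleteSpace k] [NormedDivisionRing E]
  [NormedAlgebra k E] [IsUltrametricDist E] [FiniteDimensional k E] [CharZero k]
  [Algebra.IsCentral k E]

/-- The dimension of a local division algebra. -/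
theorem cyc_m {R : Frame E} {q : ℕ} (hq : finrank k E = q ^ 2) {W : Type} [Field W] [Algebra k W]
    [FiniteDimensional k W] (C : Cyc k E W R) : q = C.m := by
  classical
  obtain ⟨X, hX, hdim⟩ := C.exists_X
  let Xa : E →ₐ[k] Matrix (Fin C.m) (Fin C.m) W :=
    { X with
      commutes' := fun c => by
        change X (algebraMap k E c) = _
        rw [← C.ι.commutes, hX]
        ext i j
        rw [Matrix.algebraMap_matrix_apply, Matrix.diagonal_apply, C.σ_alg] }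
  rw [Module.finrank_fin_fun] at hdim
  have h1 : C.m ≤ finrank k W := by
    let s : Fin C.m → (W →ₐ[k] W) := fun i => C.σ ^ (i : ℕ)
    have hs : ∀ i : Fin C.m, s i C.ω = C.ω ^ (R.j ^ (i : ℕ)) := by
      intro i
      have h2 : ∀ n : ℕ, (C.σ ^ n) C.ω = C.σ^[n] C.ω := by
        intro n
        rw [AlgHom.coe_pow]
      rw [← C.σ_ω]
      exact h2 i
    have hinj : Function.Injective s := by
      intro a b hab
      by_contra hne
      have hne' : (a : ℕ) ≠ b := fun h => hne (Fin.ext h)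
      have h2 := congrArg (fun g : W →ₐ[k] W => C.ι (g C.ω)) hab
      simp only [hs, map_pow, C.hω] at h2
      have h3 := C.norm_ζ_sub hne' a.2 b.2
      rw [h2, sub_self, norm_zero] at h3
      exact zero_ne_one h3
    have h2 := Nat.card_le_card_of_injective s hinj
    rw [Nat.card_eq_fintype_card, Fintype.card_fin] at h2
    exact h2.trans (card_algHom_le_finrank k W W)
  have h2 : finrank k E ≤ C.m * C.m := by
    have h3 := Vale.Agent.P011S.SF.split_indep C.m0 Xa (finBasis k E)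
      (finBasis k E).linearIndependent
    have h4 := h3.fintype_card_le_finrank
    rw [Fintype.card_fin, Module.finrank_matrix, Fintype.card_fin, Module.finrank_self,
      mul_one] at h4
    exact h4
  have h3 : finrank k E = C.m ^ 2 := by
    apply le_antisymm (by rw [pow_two]; exact h2)
    rw [← hdim, pow_two]
    exact Nat.mul_le_mul_left _ h1
  exact Nat.pow_left_injective (n := 2) (by norm_num) (hq.symm.trans h3)

/-- An element of degree three with nonsquare discriminant. -/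
theorem local_cubic (R : Frame E) (hq : finrank k E = 3 ^ 2) (h3 : ‖(3 : k)‖ < 1) :
    ∃ (z : E) (T S N : k),
      z ^ 3 = algebraMap k E T * z ^ 2 - algebraMap k E S * z + algebraMap k E N ∧
      (∀ a b c : k, algebraMap k E a + algebraMap k E b * z + algebraMap k E c * z ^ 2 = 0 →
        a = 0 ∧ b = 0 ∧ c = 0) ∧
      ¬ IsSquare (T ^ 2 * S ^ 2 - 4 * S ^ 3 - 4 * T ^ 3 * N - 27 * N ^ 2 + 18 * T * S * N) := by
  classical
  obtain ⟨W, _, _, _, ⟨C⟩⟩ := exists_cyc (k := k) R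
  have hm : C.m = 3 := (cyc_m hq C).symm
  obtain ⟨l, τ, hτ, hτ1⟩ := C.exists_trace
  obtain ⟨ϖ, hϖ⟩ := C.exists_ϖ
  rw [hm] at hϖ
  have hr0 : 0 < ‖R.π‖ := norm_pos_iff.mpr R.π0
  have hr1 := R.π1
  obtain ⟨s, hs⟩ : ∃ s : W →+* W, ∀ w, s w = C.σ (C.σ w) := ⟨(C.σ.comp C.σ : W →ₐ[k] W), fun _ => rfl⟩
  have hσ3 : ∀ w, C.σ (C.σ (C.σ w)) = w := by
    intro w
    have h := C.σ_m w
    rw [hm] at h
    exact h
  obtain ⟨p, hp⟩ : ∃ p, p = R.π⁻¹ := ⟨_, rfl⟩
  have hconj : ∀ w, p * C.ι w = C.ι (s w) * p := by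
    intro w
    rw [hp, hs, ← mul_left_inj' R.π0, mul_assoc, mul_assoc, inv_mul_cancel₀ R.π0, mul_one,
      ← mul_right_inj' R.π0]
    rw [← mul_assoc, ← mul_assoc, mul_inv_cancel₀ R.π0, one_mul, C.hσ, hσ3]
  obtain ⟨w, hw⟩ : ∃ w, w = C.ω ^ l := ⟨_, rfl⟩
  have hss : s (s w) = C.σ w := by rw [hs, hs, hσ3]
  have hT : C.T w = w + s w + s (s w) := by
    rw [Cyc.T, hm, Finset.sum_range_succ, Finset.sum_range_succ, Finset.sum_range_one, hss, hs]
    change w + C.σ w + C.σ (C.σ w) = _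
    ring
  -- the coefficients
  obtain ⟨S, hS⟩ := C.exists_base (w := w * s w + w * s (s w) + s w * s (s w)) (by
    rw [hss, hs, map_add, map_add, map_mul, map_mul, map_mul, hσ3]
    ring)
  obtain ⟨M, hM⟩ := C.exists_base (w := w * s w * s (s w)) (by
    rw [hss, hs, map_mul, map_mul, hσ3]
    ring)
  rw [← hw, hT] at hτ
  have hιa : ∀ c : k, C.ι (algebraMap k W c) = algebraMap k E c := C.ι.commutes
  have hϖ0 : ϖ ≠ 0 := by
    rintro rfl
    rw [map_zero] at hϖ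
    exact pow_ne_zero 3 R.π0 hϖ.symm
  have hp3 : p ^ 3 = algebraMap k E ϖ⁻¹ := by rw [hp, inv_pow, map_inv₀, hϖ]
  have hcub := cubic_sum (C.ι : W →+* E) s hconj w
  change (C.ι w + p) ^ 3 = C.ι _ * (C.ι w + p) ^ 2 - C.ι _ * (C.ι w + p) + C.ι _ + p ^ 3 at hcub
  rw [← hτ, ← hS, ← hM, hιa, hιa, hιa, hp3, add_assoc, ← map_add] at hcub
  obtain ⟨z, hz⟩ : ∃ z, z = C.ι w + p := ⟨_, rfl⟩
  rw [← hz] at hcub
  -- norms
  have hw1 : ‖C.ι w‖ = 1 := by rw [hw, C.norm_ω]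
  have hsw : ∀ w, ‖C.ι (s w)‖ = ‖C.ι w‖ := fun w => by
    rw [hs]
    exact C.norm_σ 2 w
  have hS1 : ‖S‖ ≤ 1 := by
    rw [← C.norm_alg, hS, map_add, map_add, map_mul, map_mul, map_mul]
    refine (IsUltrametricDist.norm_add_le_max _ _).trans (max_le
      ((IsUltrametricDist.norm_add_le_max _ _).trans (max_le ?_ ?_)) ?_) <;>
    rw [norm_mul] <;> simp only [hsw, hw1, mul_one, le_refl]
  have hM1 : ‖M‖ ≤ 1 := by
    rw [← C.norm_alg, hM, map_mul, map_mul, norm_mul, norm_mul]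
    simp only [hsw, hw1, mul_one, le_refl]
  have hUk : ∀ x y : k, ‖x + y‖ ≤ max ‖x‖ ‖y‖ := fun x y => by
    rw [← norm_algebraMap' E (x + y), ← norm_algebraMap' E x, ← norm_algebraMap' E y, map_add]
    exact IsUltrametricDist.norm_add_le_max _ _
  have hUk' : ∀ x y : k, ‖x‖ < ‖y‖ → ‖x + y‖ = ‖y‖ := fun x y hxy => by
    rw [← norm_algebraMap' E (x + y), map_add, IsUltrametricDist.norm_add_eq_max_of_norm_ne_norm
      (by rw [norm_algebraMap', norm_algebraMap']; exact hxy.ne), norm_algebraMap',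
      norm_algebraMap', max_eq_right hxy.le]
  have hϖn : ‖ϖ⁻¹‖ = ‖R.π‖ ^ (-3 : ℤ) := by
    rw [norm_inv, ← norm_algebraMap' E ϖ, hϖ, norm_pow, zpow_neg]
    rfl
  have hgt : (1 : ℝ) < ‖R.π‖ ^ (-3 : ℤ) := one_lt_zpow_of_neg₀ hr0 hr1 (by norm_num)
  obtain ⟨N, hN⟩ : ∃ N, N = M + ϖ⁻¹ := ⟨_, rfl⟩
  have hNn : ‖N‖ = ‖R.π‖ ^ (-3 : ℤ) := by
    rw [hN, hUk' _ _ (by rw [hϖn]; exact hM1.trans_lt hgt), hϖn]
  rw [← hN] at hcub
  have hk : ∀ y : k, y ≠ 0 → ∃ e : ℤ, ‖y‖ = ‖R.π‖ ^ (3 * e) := by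
    intro y hy
    obtain ⟨i, hi⟩ := norm_eq_zpow R.π0 R.π1 R.πm (x := algebraMap k E y)
      ((_root_.map_ne_zero _).mpr hy)
    rw [norm_algebraMap'] at hi
    obtain ⟨t, ht⟩ := C.dvd_of_norm' hi
    rw [hm] at ht
    refine ⟨t, ?_⟩
    rw [hi, ht]
    rfl
  have hpn : ‖p‖ = ‖R.π‖ ^ (-1 : ℤ) := by rw [hp, norm_inv, zpow_neg_one]
  have hgt1 : (1 : ℝ) < ‖R.π‖ ^ (-1 : ℤ) := one_lt_zpow_of_neg₀ hr0 hr1 (by norm_num)
  have hzn : ‖z‖ = ‖R.π‖ ^ (-1 : ℤ) := by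
    rw [hz, IsUltrametricDist.norm_add_eq_max_of_norm_ne_norm (by rw [hw1, hpn]; exact hgt1.ne),
      hw1, hpn, max_eq_right hgt1.le]
  have h3n : ‖(3 : k)‖ ≤ ‖R.π‖ ^ (3 : ℤ) := by
    obtain ⟨e, he⟩ := hk 3 (by norm_num)
    rw [he] at h3 ⊢
    have h4 : 0 < 3 * e := by
      by_contra hcon
      rw [not_lt] at hcon
      exact absurd h3 (not_lt.mpr (one_le_zpow_of_nonpos₀ hr0 hr1.le hcon))
    exact zpow_le_zpow_right_of_le_one₀ hr0 hr1.le (by omega)
  refine ⟨z, τ, S, N, hcub, ?_, ?_⟩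
  · intro a b c habc
    have hz0 : z ≠ 0 := by
      rw [← norm_ne_zero_iff, hzn]
      exact (zpow_pos hr0 _).ne'
    have h1 : Pe ‖R.π‖ 0 (algebraMap k E a) := by
      by_cases ha : a = 0
      · left; rw [ha, map_zero]
      · right
        obtain ⟨e, he⟩ := hk a ha
        exact ⟨e, by rw [norm_algebraMap', he, add_zero]⟩
    have h2 : Pe ‖R.π‖ (-1) (algebraMap k E b * z) := by
      by_cases hb : b = 0
      · left; rw [hb, map_zero, zero_mul]
      · right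
        obtain ⟨e, he⟩ := hk b hb
        exact ⟨e, by rw [norm_mul, norm_algebraMap', he, hzn, zpow_add₀ hr0.ne']⟩
    have h3 : Pe ‖R.π‖ (-2) (algebraMap k E c * z ^ 2) := by
      by_cases hc : c = 0
      · left; rw [hc, map_zero, zero_mul]
      · right
        obtain ⟨e, he⟩ := hk c hc
        refine ⟨e, ?_⟩
        rw [norm_mul, norm_algebraMap', he, norm_pow, hzn, zpow_add₀ hr0.ne', ← zpow_natCast,
          ← zpow_mul]
        norm_num
    obtain ⟨e1, e2, e3⟩ := Pe.sum hr0 hr1 h1 h2 h3 habc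
    refine ⟨(map_eq_zero _).mp e1, ?_, ?_⟩
    · exact (map_eq_zero _).mp ((mul_eq_zero.mp e2).resolve_right hz0)
    · exact (map_eq_zero _).mp ((mul_eq_zero.mp e3).resolve_right (pow_ne_zero 2 hz0))
  · have hnat : ∀ n : ℕ, ‖(n : k)‖ ≤ 1 := fun n => by
      rw [← norm_algebraMap' E (n : k), map_natCast]
      exact IsUltrametricDist.norm_natCast_le_one E n
    have h4n : ‖(4 : k)‖ = 1 := by
      have h5 := hUk' 3 1 (by rw [norm_one]; exact h3)
      rw [norm_one] at h5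
      rw [← h5]
      norm_num
    have hNpos : 0 < ‖N‖ := by rw [hNn]; exact zpow_pos hr0 _
    have hN1 : 1 < ‖N‖ := by rw [hNn]; exact hgt
    have hlt : ∀ x y : k, ‖x‖ < ‖N‖ → ‖y‖ < ‖N‖ → ‖x + y‖ < ‖N‖ := fun x y hx hy =>
      (hUk x y).trans_lt (max_lt hx hy)
    have h30 : (0 : ℝ) ≤ ‖(3 : k)‖ := norm_nonneg _
    have a1 : ‖τ ^ 2 * S ^ 2‖ < ‖N‖ := by
      rw [norm_mul, norm_pow, norm_pow, hτ1, one_pow, one_mul]
      exact (pow_le_one₀ (norm_nonneg _) hS1).trans_lt hN1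
    have a2 : ‖-(4 * S ^ 3)‖ < ‖N‖ := by
      rw [norm_neg, norm_mul, norm_pow, h4n, one_mul]
      exact (pow_le_one₀ (norm_nonneg _) hS1).trans_lt hN1
    have a3 : ‖-(27 * N ^ 2)‖ < ‖N‖ := by
      have e27 : (27 : k) = 3 ^ 3 := by norm_num
      rw [norm_neg, e27, norm_mul, norm_pow, norm_pow]
      have h5 : ‖(3 : k)‖ ^ 3 * ‖N‖ < 1 := by
        calc ‖(3 : k)‖ ^ 3 * ‖N‖ ≤ (‖R.π‖ ^ (3 : ℤ)) ^ 3 * ‖N‖ := by gcongr
          _ = ‖R.π‖ ^ (6 : ℤ) := by
            rw [hNn, ← zpow_natCast, ← zpow_mul, ← zpow_add₀ hr0.ne']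
            norm_num
          _ < 1 := zpow_lt_one₀ hr0 hr1 (by norm_num)
      calc ‖(3 : k)‖ ^ 3 * ‖N‖ ^ 2 = (‖(3 : k)‖ ^ 3 * ‖N‖) * ‖N‖ := by ring
        _ < 1 * ‖N‖ := by gcongr
        _ = ‖N‖ := one_mul _
    have a4 : ‖18 * τ * S * N‖ < ‖N‖ := by
      have e18 : (18 : k) = 2 * 3 ^ 2 := by norm_num
      rw [e18, norm_mul, norm_mul, norm_mul, norm_mul, norm_pow, hτ1, mul_one]
      have h2n : ‖(2 : k)‖ ≤ 1 := by exact_mod_cast hnat 2
      have h5 : ‖(2 : k)‖ * ‖(3 : k)‖ ^ 2 * ‖S‖ < 1 := by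
        have h6 : ‖(3 : k)‖ ^ 2 < 1 := pow_lt_one₀ h30 h3 two_ne_zero
        calc ‖(2 : k)‖ * ‖(3 : k)‖ ^ 2 * ‖S‖ ≤ 1 * ‖(3 : k)‖ ^ 2 * 1 := by gcongr
          _ = ‖(3 : k)‖ ^ 2 := by ring
          _ < 1 := h6
      calc ‖(2 : k)‖ * ‖(3 : k)‖ ^ 2 * ‖S‖ * ‖N‖ < 1 * ‖N‖ := by gcongr
        _ = ‖N‖ := one_mul _
    have a5 : ‖-(4 * τ ^ 3 * N)‖ = ‖N‖ := by
      rw [norm_neg, norm_mul, norm_mul, norm_pow, h4n, hτ1, one_pow, one_mul, one_mul]
    have a6 := hlt _ _ (hlt _ _ (hlt _ _ a1 a2) a3) a4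
    have a7 : ‖τ ^ 2 * S ^ 2 - 4 * S ^ 3 - 4 * τ ^ 3 * N - 27 * N ^ 2 + 18 * τ * S * N‖ =
        ‖R.π‖ ^ (-3 : ℤ) := by
      rw [← hNn, ← a5]
      rw [← a5] at a6
      rw [← hUk' _ _ a6]
      congr 1
      ring
    rintro ⟨y, hy⟩
    rw [hy, norm_mul] at a7
    have hy0 : y ≠ 0 := by
      rintro rfl
      rw [norm_zero, mul_zero] at a7
      exact (zpow_pos hr0 (-3 : ℤ)).ne a7
    obtain ⟨e, he⟩ := hk y hy0
    rw [he, ← zpow_add₀ hr0.ne'] at a7
    have h8 := zpow_right_injective₀ hr0 hr1.ne a7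
    omega

end loc

end Vale.Agent.P011.Six
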