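import Vale.Agent.P011.Six.DivC
import Vale.Agent.P011.Six.DivE

/-!
The local condition at the places over three which split in `K` and where the algebra remains a
division algebra.
-/

open Module NumberField IsDedekindDomain Polynomial TensorProduct MulOpposite

set_option linter.unusedSectionVars false

namespace Vale.Agent.P011.Six

open Vale.Agent.P011.Arith (Z0 Pl plAbv plAbv_lt plAbv_inr approx LSp)
open Vale.Agent.P011.W Vale.Agent.P011.Even Vale.Agent.P011.Pow Vale.Agent.P011.One
open Vale.Agent.P011.Six.H586 (cd GoodY good_of open_inl cd_map cd_cubic)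

section loc

open Vale.Agent.P011.Even.LocDiv

/-- An element of degree three with nonsquare discriminant. -/
theorem local_cubic' {k E : Type} [NontriviallyNormedField k] [IsUltrametricDist k] [ProperSpace k]
    [CharZero k] [DivisionRing E] [Algebra k E] [FiniteDimensional k E] [Algebra.IsCentral k E]
    (hq : finrank k E = 3 ^ 2) (h3 : ‖(3 : k)‖ < 1) :
    ∃ (z : E) (q : k[X]), q.Monic ∧ q.natDegree = 3 ∧ aeval z q = 0 ∧
      LinearIndependent k (fun i : Fin 3 => z ^ (i : ℕ)) ∧ ¬ IsSquare (cd q) := by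
  let _ : NormedDivisionRing E := ndr k
  let _ : NormedAlgebra k E :=
    { (inferInstance : Algebra k E) with
      norm_smul_le := fun c x => by
        change nm k (c • x) ≤ ‖c‖ * nm k x
        rw [Algebra.smul_def, nm_mul, nm_algebraMap] }
  have hU : IsUltrametricDist E := IsUltrametricDist.isUltrametricDist_of_forall_norm_add_le_max_norm
    (fun x y => nm_add_le_max k x y)
  have : ProperSpace E := FiniteDimensional.proper k E
  obtain ⟨c, hc0, hc1⟩ := NormedField.exists_norm_lt_one k
  have hc : ‖algebraMap k E c‖ = ‖c‖ := nm_algebraMap k c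
  have hcne : algebraMap k E c ≠ 0 := by
    rw [← norm_ne_zero_iff, hc]
    exact hc0.ne'
  obtain ⟨R⟩ := exists_frame (algebraMap k E c) hcne (by rw [hc]; exact hc1)
  obtain ⟨z, T, S, N, h1, h2, h4⟩ := local_cubic R hq h3
  refine ⟨z, X ^ 3 + C (-T) * X ^ 2 + C S * X + C (-N), ?_, ?_, ?_, ?_, ?_⟩
  · monicity!
  · compute_degree!
  · simp only [map_add, map_mul, map_pow, aeval_X, aeval_C, map_neg]
    rw [h1]
    noncomm_ring
  · rw [Fintype.linearIndependent_iff]
    intro g hg
    rw [Fin.sum_univ_three] at hg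
    obtain ⟨e0, e1, e2⟩ := h2 (g 0) (g 1) (g 2) (by
      rw [← hg]
      simp only [Algebra.smul_def]
      simp)
    intro i
    fin_cases i
    · exact e0
    · exact e1
    · exact e2
  · rw [cd_cubic]
    intro h5
    apply h4
    convert h5 using 1
    ring

end loc

theorem norm_three {k : Type} [Field k] [NumberField k] {v : HeightOneSpectrum (𝓞 k)}
    (hq : Nat.card (𝓞 k ⧸ v.asIdeal) % 3 = 0) : v.valuation k (3 : k) < 1 := by
  have : v.asIdeal.IsMaximal := v.isMaximal
  let _ : Field (𝓞 k ⧸ v.asIdeal) := Ideal.Quotient.field v.asIdeal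
  have : Finite (𝓞 k ⧸ v.asIdeal) := Arith.finite_residue v
  have e3 : algebraMap (𝓞 k) k (3 : 𝓞 k) = 3 := map_ofNat _ 3
  rw [← e3, ← Arith.mk_eq_zero_iff, map_ofNat]
  have _ := Fintype.ofFinite (𝓞 k ⧸ v.asIdeal)
  have : Fact (Nat.Prime 3) := ⟨Nat.prime_three⟩
  obtain ⟨x, hx⟩ := exists_prime_addOrderOf_dvd_card' (G := 𝓞 k ⧸ v.asIdeal) 3
    (Nat.dvd_of_mod_eq_zero hq)
  have hx0 : x ≠ 0 := by
    rintro rfl
    rw [addOrderOf_zero] at hx
    norm_num at hx
  have h1 : (3 : 𝓞 k ⧸ v.asIdeal) * x = 0 := by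
    have h2 := addOrderOf_nsmul_eq_zero x
    rw [hx, nsmul_eq_mul] at h2
    exact_mod_cast h2
  exact (mul_eq_zero.mp h1).resolve_right hx0


section place

variable {k K C : Type} [Field k] [NumberField k] [Field K] [Algebra k K]
  [DivisionRing C] [Algebra K C] [FiniteDimensional K C] [Algebra.IsCentral K C]

/-- At the places over three. -/
theorem exists_loc3 (hC : finrank K C = 3 ^ 2) {v : HeightOneSpectrum (𝓞 k)}
    (hq : Nat.card (𝓞 k ⧸ v.asIdeal) % 3 = 0) (φ : K →+* v.adicCompletion k)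
    (hdiv : letI := φ.toAlgebra
      ∀ x : v.adicCompletion k ⊗[K] C, x ≠ 0 → IsUnit x) :
    letI := φ.toAlgebra
    ∃ (z : v.adicCompletion k ⊗[K] C) (q : (v.adicCompletion k)[X]), q.Monic ∧
        q.natDegree = 3 ∧ aeval z q = 0 ∧
        LinearIndependent (v.adicCompletion k) (fun i : Fin 3 => z ^ (i : ℕ)) ∧
        ¬ IsSquare (cd q) := by
  let _ := φ.toAlgebra
  let _ := nnf v
  have := isUltra v
  let _ : DivisionRing (v.adicCompletion k ⊗[K] C) := locDR hdiv
  have : Algebra.IsCentral (v.adicCompletion k) (v.adicCompletion k ⊗[K] C) := ⟨fun x hx => by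
    obtain ⟨e, he⟩ := P011S.center_tensor (K := K) (E := v.adicCompletion k) (D := C) (x := x)
      (fun c => Subalgebra.mem_center_iff.mp hx (1 ⊗ₜ[K] c))
    rw [Algebra.mem_bot]
    exact ⟨e, he.symm⟩⟩
  refine local_cubic' (k := v.adicCompletion k) (E := v.adicCompletion k ⊗[K] C) ?_ ?_
  · rw [Module.finrank_baseChange, hC]
  · have h1 := norm_three hq
    rw [Vale.Agent.P011.Even.norm_lt_one_iff]
    have e3 : (3 : v.adicCompletion k) = algebraMap k (v.adicCompletion k) 3 := by
      rw [map_ofNat]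
    rw [e3, valued_alg]
    exact h1

end place

variable {k K D : Type} [Field k] [NumberField k] [Field K] [StarRing K]
    [DivisionRing D] [StarRing D] [Algebra k K] [Algebra k D] [Algebra K D] [IsScalarTower k K D]
    {d : kˣ} {s : K} {N : ℕ}

/-- The local condition, from one element of degree three over the completion. -/
theorem goodY_loc (hS : Setting k K D d s) (B : Basis (Fin N) k D)
    (v : HeightOneSpectrum (𝓞 k)) (φ : K →+* v.adicCompletion k)
    (hφ : ∀ c : k, φ (algebraMap k K c) = algebraMap k (v.adicCompletion k) c)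
    (hex : letI := φ.toAlgebra
      ∃ (z : v.adicCompletion k ⊗[K] D) (q : (v.adicCompletion k)[X]), q.Monic ∧
        q.natDegree = 3 ∧ aeval z q = 0 ∧
        LinearIndependent (v.adicCompletion k) (fun i : Fin 3 => z ^ (i : ℕ)) ∧
        ¬ IsSquare (cd q)) :
    ∃ (x : Fin N → k) (δ : ℝ), 0 < δ ∧ ∀ β : D, (∀ j, plAbv (.inl v) (B.repr β j - x j) < δ) →
      GoodY (d : k) (.inl v) (β * star β) := by
  classical
  have := hS.fin
  have := hS.cen
  let R := v.adicCompletion k
  let _ : Algebra K R := φ.toAlgebra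
  obtain ⟨z₀, q, hq, hqn, hq0, hli, hns⟩ := hex
  have hKR : ∀ c : K, algebraMap K R c = φ c := fun _ => rfl
  let A := R ⊗[K] D
  let A' := A × Aᵐᵒᵖ
  let ι : D →ₐ[K] A := Algebra.TensorProduct.includeRight
  have hι : ∀ x : D, ι x = (1 : R) ⊗ₜ[K] x := fun _ => rfl
  have hιK : ∀ (c : K) (x : D), ι (algebraMap K D c * x) = φ c • ι x := by
    intro c x
    rw [← Algebra.smul_def, map_smul, ← algebraMap_smul R c (ι x)]
    rfl
  have hιk : ∀ (a : k) (x : D), ι (a • x) = algebraMap k R a • ι x := by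
    intro a x
    rw [Algebra.smul_def, IsScalarTower.algebraMap_apply k K D, hιK, hφ]
  have hsk : ∀ (a : k) (x : D), star (a • x) = a • star x := fun a x => by
    rw [← algebraMap_smul K a x, hS.star_smul, (hS.fix _).mpr ⟨_, rfl⟩, algebraMap_smul]
  let g : D →+* A' :=
    { toFun := fun x => (ι x, op (ι (star x)))
      map_one' := by rw [star_one, map_one, op_one]; rfl
      map_mul' := fun x y => by
        rw [star_mul, map_mul, map_mul, op_mul]
        rfl
      map_zero' := by rw [star_zero, map_zero, op_zero]; rfl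
      map_add' := fun x y => by
        rw [star_add, map_add, map_add, op_add]
        rfl }
  have hgx : ∀ x, g x = (ι x, op (ι (star x))) := fun _ => rfl
  let τ : A' →ₗ[R] A' :=
    { toFun := fun z => (unop z.2, op z.1)
      map_add' := fun z w => by
        rw [Prod.fst_add, Prod.snd_add, unop_add, op_add]
        rfl
      map_smul' := fun c z => by
        rw [Prod.smul_fst, Prod.smul_snd, unop_smul, op_smul]
        rfl }
  have hτx : ∀ z : A', τ z = (unop z.2, op z.1) := fun _ => rfl
  -- coordinates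
  let Φ : (Fin N → R) →ₗ[R] A' :=
    { toFun := fun b => ∑ j, b j • g (B j)
      map_add' := fun b c => by
        simp only [Pi.add_apply, add_smul, Finset.sum_add_distrib]
      map_smul' := fun r b => by
        simp only [Pi.smul_apply, smul_eq_mul, mul_smul, Finset.smul_sum, RingHom.id_apply] }
  have h1 : ∀ y : D, g y ∈ LinearMap.range Φ := by
    intro y
    refine ⟨fun j => algebraMap k R (B.repr y j), ?_⟩
    change ∑ j, algebraMap k R (B.repr y j) • g (B j) = g y
    conv_rhs => rw [← B.sum_repr y]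
    rw [map_sum]
    refine Finset.sum_congr rfl fun j _ => ?_
    rw [hgx, hgx, hsk, hιk, hιk, op_smul]
    rfl
  have hs0 : s ≠ 0 := by
    intro h0
    have h2 := hS.sq
    rw [h0, zero_pow two_ne_zero] at h2
    exact (d.ne_zero) ((algebraMap k K).injective (by rw [← h2, map_zero]))
  obtain ⟨δ, hδ⟩ : ∃ δ, δ = φ s := ⟨_, rfl⟩
  have hδ0 : δ ≠ 0 := by rw [hδ]; exact (map_ne_zero φ).mpr hs0
  have : CharZero R := charZero_of_injective_algebraMap (algebraMap k R).injective
  have h2δ : 2 * δ ≠ 0 := mul_ne_zero two_ne_zero hδ0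
  have hst : ∀ y : D, star (algebraMap K D s * y) = -(algebraMap K D s * star y) := by
    intro y
    rw [← Algebra.smul_def, hS.star_smul, hS.star_s, neg_smul, Algebra.smul_def]
  have h3 : ∀ y : D, ((ι y, 0) : A') ∈ LinearMap.range Φ := by
    intro y
    have h4 := add_mem (Submodule.smul_mem _ δ (h1 y)) (h1 (algebraMap K D s * y))
    have h5 := Submodule.smul_mem _ (2 * δ)⁻¹ h4
    rw [hgx, hgx, hst, map_neg, hιK, hιK, ← hδ, op_neg, op_smul] at h5
    have e : (2 * δ)⁻¹ • (δ • ((ι y, op (ι (star y))) : A') +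
        (δ • ι y, -(δ • op (ι (star y))))) = ((ι y, 0) : A') := by
      refine Prod.ext ?_ ?_
      · change (2 * δ)⁻¹ • (δ • ι y + δ • ι y) = ι y
        rw [← add_smul, ← two_mul, smul_smul, inv_mul_cancel₀ h2δ, one_smul]
      · change (2 * δ)⁻¹ • (δ • op (ι (star y)) + -(δ • op (ι (star y)))) = 0
        rw [add_neg_cancel, smul_zero]
    rw [e] at h5
    exact h5
  have h4 : ∀ y : D, (((0 : A), op (ι y)) : A') ∈ LinearMap.range Φ := by
    intro y
    have h5 := sub_mem (h1 (star y)) (h3 (star y))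
    rw [hgx, star_star, Prod.mk_sub_mk, sub_self, sub_zero] at h5
    exact h5
  have h3' : ∀ z : A, ((z, 0) : A') ∈ LinearMap.range Φ := by
    intro z
    induction z using TensorProduct.induction_on with
    | zero => exact zero_mem _
    | tmul r x =>
      have h5 := Submodule.smul_mem _ r (h3 x)
      have e : r • ((ι x, 0) : A') = ((r ⊗ₜ[K] x, 0) : A') := by
        refine Prod.ext ?_ ?_
        · change r • ι x = r ⊗ₜ[K] x
          rw [hι, TensorProduct.smul_tmul', smul_eq_mul, mul_one]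
        · change r • (0 : Aᵐᵒᵖ) = 0
          rw [smul_zero]
      rw [e] at h5
      exact h5
    | add x y hx hy =>
      have h5 := add_mem hx hy
      rw [Prod.mk_add_mk, add_zero] at h5
      exact h5
  obtain ⟨b, hb⟩ : ∃ b : Fin N → R, ∑ j, b j • g (B j) = ((z₀, 1) : A') := by
    obtain ⟨b, hb⟩ := add_mem (h3' z₀) (h4 1)
    refine ⟨b, hb.trans ?_⟩
    rw [Prod.mk_add_mk, add_zero, zero_add, map_one, op_one]
  have hz : (∑ j, b j • g (B j)) * τ (∑ j, b j • g (B j)) = ((z₀, op z₀) : A') := by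
    rw [hb, hτx, unop_one, Prod.mk_mul_mk, mul_one, one_mul]
  refine good_of B (d : k) (.inl v) (R := R) (norm_algebraMap_eq v) (fun x ε hε => by
    obtain ⟨y, hy⟩ := Even.dense v x ε hε
    exact ⟨y, by rwa [norm_sub_rev]⟩) (open_inl v)
    (fun u hu => (isSquare_iff v u).mpr hu) (finBasis R A') g (fun a x => ?_) τ
    (fun x => ?_) b ?_ (q := q) hq hqn ?_ ?_
  · rw [hgx, hgx, hsk, hιk, hιk, op_smul]
    rfl
  · rw [hgx, hτx, hgx, star_star, unop_op]
  · rw [hz]
    have h5 : (LinearMap.fst R A Aᵐᵒᵖ : A' → A) ∘ (fun i : Fin 3 =>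
        ((z₀, op z₀) : A') ^ (i : ℕ)) = fun i : Fin 3 => z₀ ^ (i : ℕ) := by
      funext i
      rfl
    refine LinearIndependent.of_comp (LinearMap.fst R A Aᵐᵒᵖ) ?_
    rw [h5]
    exact hli
  · rw [hz]
    have h6 : aeval ((z₀, op z₀) : A') q = (aeval z₀ q, aeval (op z₀) q) := by
      refine Prod.ext ?_ ?_
      · exact (aeval_algHom_apply (AlgHom.fst R A Aᵐᵒᵖ) _ _).symm
      · exact (aeval_algHom_apply (AlgHom.snd R A Aᵐᵒᵖ) _ _).symm
    rw [h6, aeval_op, hq0, op_zero]
    rfl
  · rw [← hφ, ← hS.sq]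
    rintro ⟨z, hz'⟩
    apply hns
    refine ⟨z / δ, ?_⟩
    rw [div_mul_div_comm, ← hz', map_pow, ← hδ, pow_two, mul_div_cancel_left₀ _
      (mul_ne_zero hδ0 hδ0)]

end Vale.Agent.P011.Six
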