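import Vale.Agent.P011.Pow.NS
import Vale.Agent.P011.Pow.CentNrd
import Vale.Agent.P011.Pow.NearH

/-!
Eichler's norm theorem for powers, from the centralizers of subfields.
-/

open Module NumberField IsDedekindDomain Polynomial

set_option linter.unusedSectionVars false

namespace Vale.Agent.P011.Six

open Vale.Agent.P011.Arith (Z0 Pl plAbv plAbv_lt plAbv_inr approx)
open Vale.Agent.P011.W Vale.Agent.P011.Even Vale.Agent.P011.Pow

section norm

variable {F E : Type} [Field F] [NumberField F] [Field E] [NumberField E] [Algebra F E]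

/-- Norms of integral elements at a place. -/
theorem norm_le_one (v : HeightOneSpectrum (𝓞 F)) {x : E}
    (hx : ∀ w : HeightOneSpectrum (𝓞 E), Ab w v → w.valuation E x ≤ 1) :
    v.valuation F (Algebra.norm F x) ≤ 1 := by
  obtain ⟨s, hs, y, hy⟩ := exists_clear v x hx
  have h1 : IsIntegral ℤ (Algebra.norm F (y : E)) := Algebra.isIntegral_norm F y.2
  have h2 : v.valuation F (Algebra.norm F (y : E)) ≤ 1 :=
    v.valuation_le_one (K := F) (⟨_, h1⟩ : 𝓞 F)
  rw [hy, map_mul, Algebra.norm_algebraMap, map_mul, map_pow] at h2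
  have h3 : v.valuation F (s : F) = 1 := by
    refine le_antisymm (v.valuation_le_one s) ?_
    rw [← not_lt]
    intro h
    exact hs ((v.valuation_lt_one_iff_mem (K := F) s).mp h)
  rwa [h3, one_pow, one_mul] at h2

theorem norm_le_pow (v : HeightOneSpectrum (𝓞 F)) {x : E} (c : F) (hc : c ≠ 0)
    (hx : ∀ w : HeightOneSpectrum (𝓞 E), Ab w v →
      w.valuation E x ≤ w.valuation E (algebraMap F E c)) :
    v.valuation F (Algebra.norm F x) ≤ v.valuation F c ^ finrank F E := by
  have hc' : algebraMap F E c ≠ 0 := (_root_.map_ne_zero _).mpr hc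
  have h1 : v.valuation F (Algebra.norm F (x / algebraMap F E c)) ≤ 1 := by
    refine norm_le_one v fun w hw => ?_
    rw [map_div₀]
    exact div_le_one_of_le₀ (hx w hw) zero_le
  have h2 : Algebra.norm F x = Algebra.norm F (x / algebraMap F E c) * c ^ finrank F E := by
    rw [← Algebra.norm_algebraMap (S := E) c, ← map_mul, div_mul_cancel₀ _ hc']
  rw [h2, map_mul, map_pow]
  calc _ ≤ 1 * v.valuation F c ^ finrank F E := mul_le_mul_left h1 _
    _ = _ := one_mul _

end norm

variable {K D K' C : Type} [Field K] [NumberField K] [DivisionRing D] [Algebra K D]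
    [FiniteDimensional K D] [Algebra.IsCentral K D] [Field K'] [NumberField K'] [Algebra K K']
    [DivisionRing C] [Algebra K' C] [FiniteDimensional K' C] [Algebra.IsCentral K' C] {n : ℕ}

/-- Powers as reduced norms of elements close to one. -/
theorem part_near (hdeg : finrank K D = n ^ 2) {p : ℕ} (hp : p.Prime)
    (hC : finrank K' C = p ^ 2) (hKK : finrank K K' * p = n) (j : C →+* D)
    (hj : ∀ c : K, j (algebraMap K' C (algebraMap K K' c)) = algebraMap K D c)
    (hpos : p = 2 → ∀ φ : K' →+* ℝ, Spl C p φ ∨ ¬ Spl D n (φ.comp (algebraMap K K')))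
    (T : Set (HeightOneSpectrum (𝓞 K))) (hT : T.Finite) (γ : HeightOneSpectrum (𝓞 K) → Z0)
    (hγ : ∀ w, γ w ≠ 0) :
    ∃ δ : Z0, δ ≠ 0 ∧ δ ≤ 1 ∧ ∀ y : K, y ≠ 0 → (∀ φ : K →+* ℝ, Spl D n φ ∨ 0 < φ y) →
      (∀ w ∈ T, w.valuation K (y - 1) < δ) →
      ∃ (t : D) (z : K), HasNrd K n t (y ^ finrank K K') ∧ HasNrd K n (t - 1) z ∧
        ∀ w ∈ T, w.valuation K z < γ w := by
  classical
  have hr : finrank K K' ≠ 0 := by
    intro h
    rw [h, zero_mul] at hKK
    have h1 := W.deg_pos hdeg
    omega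
  have hinj : Function.Injective j := j.injective
  choose c hc0 hc using fun w : HeightOneSpectrum (𝓞 K) =>
    Pow.exists_small w (γ := min (γ w) 1) (by
      rcases min_choice (γ w) 1 with h | h <;> rw [h]
      · exact hγ w
      · exact one_ne_zero)
  choose b hb using fun w : HeightOneSpectrum (𝓞 K') => Arith.exists_below (F := K) w
  obtain ⟨T', hT'⟩ : ∃ T' : Set (HeightOneSpectrum (𝓞 K')), T' = ⋃ v ∈ T,
      {w : HeightOneSpectrum (𝓞 K') | Ab w v} := ⟨_, rfl⟩
  have hTf : T'.Finite := by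
    rw [hT']
    exact hT.biUnion fun v _ => Arith.above_finite v
  have hTm : ∀ w, w ∈ T' ↔ ∃ v ∈ T, Ab w v := by
    intro w
    rw [hT', Set.mem_iUnion₂]
    simp only [Set.mem_ofPred_eq, exists_prop]
  have hbe : ∀ w v, Ab w v → b w = v := by
    intro w v hwv
    apply HeightOneSpectrum.ext
    rw [← hb w, ← hwv]
  obtain ⟨δ₁, hδ₁0, hδ₁⟩ := eichler_near (D := C) hp (e := 1) (by rw [hC, pow_one]) T' hTf
    (fun w => w.valuation K' (algebraMap K K' (c (b w)))) (fun w => by
      rw [Valuation.ne_zero_iff]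
      exact (_root_.map_ne_zero _).mpr (hc0 _))
  obtain ⟨δ, hδ0, hδ1, hδ⟩ := exists_lower T' hTf δ₁ hδ₁0
  refine ⟨δ, hδ0, hδ1, fun y hy hyp hyT => ?_⟩
  obtain ⟨t, z, ht, hz, hzT⟩ := hδ₁ (algebraMap K K' y) ((_root_.map_ne_zero _).mpr hy)
    (fun h2 φ => by
      rw [pow_one]
      rcases hpos h2 φ with h | h
      · exact Or.inl h
      · exact Or.inr ((hyp (φ.comp (algebraMap K K'))).resolve_left h)) (fun w hw => by
      obtain ⟨v, hv, hwv⟩ := (hTm w).mp hw
      obtain ⟨e, he, -, h1⟩ := val_above_le hwv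
      have h2 : algebraMap K K' y - 1 = algebraMap K K' (y - 1) := by rw [map_sub, map_one]
      rw [h2, h1]
      have h3 := hyT v hv
      calc v.valuation K (y - 1) ^ e ≤ v.valuation K (y - 1) ^ 1 :=
            pow_le_pow_right_of_le_one' (h3.le.trans hδ1) (Nat.one_le_iff_ne_zero.mpr he)
        _ = v.valuation K (y - 1) := pow_one _
        _ < δ := h3
        _ ≤ _ := hδ w hw)
  rw [pow_one] at ht hz
  have h1 := hasNrd_cent hdeg hC hKK j hj ht
  have h2 := hasNrd_cent hdeg hC hKK j hj hz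
  rw [Algebra.norm_algebraMap] at h1
  rw [map_sub, map_one] at h2
  refine ⟨j t, _, h1, h2, fun w hw => ?_⟩
  have h3 := norm_le_pow w (c w) (hc0 w) (x := z) fun w' hw' => by
    have h4 := hzT w' ((hTm w').mpr ⟨w, hw, hw'⟩)
    rw [hbe w' w hw'] at h4
    exact h4.le
  have h4 := hc w
  rw [lt_min_iff] at h4
  calc w.valuation K (Algebra.norm K z) ≤ w.valuation K (c w) ^ finrank K K' := h3
    _ ≤ w.valuation K (c w) ^ 1 :=
        pow_le_pow_right_of_le_one' h4.2.le (Nat.one_le_iff_ne_zero.mpr hr)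
    _ = w.valuation K (c w) := pow_one _
    _ < γ w := h4.1

end Vale.Agent.P011.Six
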