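import Vale.Agent.P011.One.Quat
import Vale.Agent.P011.Two.Cont
import Vale.Agent.P011.W.Cent
import Vale.Agent.P011.Six.Cub

/-!
Subfields of a division algebra with involution, generated by symmetric subfields and an element.
-/

open Module Polynomial NumberField IsDedekindDomain

set_option linter.unusedSectionVars false

namespace Vale.Agent.P011.Six

open Vale.Agent.P011.Arith Vale.Agent.P011.Even Vale.Agent.P011.Two Vale.Agent.P011.One

open scoped IsMulCommutative in
/-- The field generated by commuting elements. -/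
theorem exists_field {R D : Type} [Field R] [NumberField R] [DivisionRing D] [Algebra R D]
    [FiniteDimensional R D] (T : Set D) (hT : ∀ a ∈ T, ∀ b ∈ T, a * b = b * a) :
    ∃ (E : Type) (_ : Field E) (_ : NumberField E) (_ : Algebra R E) (j : E →ₐ[R] D),
      ∀ y : D, y ∈ Set.range j ↔ y ∈ Algebra.adjoin R T := by
  have _ : IsMulCommutative (Algebra.adjoin R T) := Algebra.isMulCommutative_adjoin R hT
  let _ : Field (Algebra.adjoin R T) := fieldOfFiniteDimensional R _
  refine ⟨Algebra.adjoin R T, inferInstance, numberField_fin (k := R), inferInstance,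
    (Algebra.adjoin R T).val, fun y => ?_⟩
  constructor
  · rintro ⟨x, rfl⟩
    exact x.2
  · intro h
    exact ⟨⟨y, h⟩, rfl⟩

variable {k K D : Type} [Field k] [NumberField k] [Field K] [NumberField K] [StarRing K]
  [DivisionRing D] [StarRing D] [Algebra k K] [Algebra k D] [Algebra K D] [IsScalarTower k K D]
  {d : kˣ} {s : K}

theorem sS_comm (y : D) : algebraMap K D s * y = y * algebraMap K D s := Algebra.commutes _ _

theorem sS_sq (hS : Setting k K D d s) :
    algebraMap K D s * algebraMap K D s = algebraMap k D d := by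
  rw [← map_mul, ← pow_two, hS.sq, ← IsScalarTower.algebraMap_apply]

theorem sS_ne (hS : Setting k K D d s) : algebraMap K D s ≠ 0 := by
  intro h
  have h1 := sS_sq (D := D) hS
  rw [h, mul_zero, eq_comm, map_eq_zero] at h1
  exact d.ne_zero h1

/-- Elements of `K`. -/
theorem exists_K (hS : Setting k K D d s) (c : K) :
    ∃ a b : k, algebraMap K D c = algebraMap k D a + algebraMap K D s * algebraMap k D b := by
  have hns : ¬ IsSquare (d : k) := hS.ns
  obtain ⟨a, b, h⟩ := Arith.exists_coords hS.rank hns hS.sq c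
  refine ⟨a, b, ?_⟩
  rw [h, map_add, map_mul, ← IsScalarTower.algebraMap_apply, ← IsScalarTower.algebraMap_apply,
    Algebra.commutes]

variable {F : Type} [Field F] [NumberField F] [Algebra k F]

/-- The elements of `F K`. -/
def EF (hS : Setting k K D d s) (ι : F →ₐ[k] D) : Subalgebra K D where
  carrier := {y | ∃ a b : F, y = ι a + algebraMap K D s * ι b}
  mul_mem' := by
    rintro _ _ ⟨a, b, rfl⟩ ⟨a', b', rfl⟩
    refine ⟨a * a' + algebraMap k F d * (b * b'), a * b' + b * a', ?_⟩
    have e1 : ι (algebraMap k F d) = algebraMap K D s * algebraMap K D s := by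
      rw [sS_sq hS, AlgHom.commutes]
    rw [map_add, map_add, map_mul, map_mul, map_mul, map_mul, map_mul, e1]
    have hc : ∀ y : D, algebraMap K D s * y = y * algebraMap K D s := sS_comm
    have e2 : (ι a + algebraMap K D s * ι b) * (ι a' + algebraMap K D s * ι b') =
        ι a * ι a' + algebraMap K D s * (ι b * ι a') + (ι a * algebraMap K D s) * ι b' +
          algebraMap K D s * (ι b * algebraMap K D s) * ι b' := by noncomm_ring
    rw [e2, ← hc (ι a), ← hc (ι b)]
    noncomm_ring
  add_mem' := by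
    rintro _ _ ⟨a, b, rfl⟩ ⟨a', b', rfl⟩
    refine ⟨a + a', b + b', ?_⟩
    rw [map_add, map_add]
    noncomm_ring
  algebraMap_mem' := by
    intro c
    obtain ⟨a, b, h⟩ := exists_K (D := D) hS c
    exact ⟨algebraMap k F a, algebraMap k F b, by rw [h, AlgHom.commutes, AlgHom.commutes]⟩

theorem mem_EF {hS : Setting k K D d s} {ι : F →ₐ[k] D} {y : D} :
    y ∈ EF hS ι ↔ ∃ a b : F, y = ι a + algebraMap K D s * ι b := Iff.rfl

theorem mem_EF_ι {hS : Setting k K D d s} {ι : F →ₐ[k] D} (a : F) : ι a ∈ EF hS ι :=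
  ⟨a, 0, by rw [map_zero, mul_zero, add_zero]⟩

theorem mem_EF_s {hS : Setting k K D d s} {ι : F →ₐ[k] D} : algebraMap K D s ∈ EF hS ι :=
  (EF hS ι).algebraMap_mem s

theorem EF_comm_of {hS : Setting k K D d s} {ι : F →ₐ[k] D} {h : D}
    (ch : ∀ t, ι t * h = h * ι t) {x : D} (hx : x ∈ EF hS ι) : x * h = h * x := by
  obtain ⟨a, b, rfl⟩ := hx
  rw [add_mul, mul_add, ch, mul_assoc, ch, ← mul_assoc, sS_comm h, mul_assoc]

theorem EF_comm {hS : Setting k K D d s} {ι : F →ₐ[k] D} {x y : D}
    (hx : x ∈ EF hS ι) (hy : y ∈ EF hS ι) : x * y = y * x := by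
  refine EF_comm_of (fun t => ?_) hx
  refine (EF_comm_of (fun t' => ?_) hy).symm
  rw [← map_mul, mul_comm, map_mul]

theorem EF_star {hS : Setting k K D d s} {ι : F →ₐ[k] D} (sym : ∀ t, star (ι t) = ι t) (a b : F) :
    star (ι a + algebraMap K D s * ι b) = ι a - algebraMap K D s * ι b := by
  rw [star_add, star_mul, sym, sym, star_S hS, mul_neg, ← sS_comm, sub_eq_add_neg]

theorem EF_zero {hS : Setting k K D d s} {ι : F →ₐ[k] D} (sym : ∀ t, star (ι t) = ι t) {a b : F}
    (h : ι a + algebraMap K D s * ι b = 0) : a = 0 ∧ b = 0 := by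
  have hcharD : CharZero D := charZero_of_injective_algebraMap (algebraMap k D).injective
  have h1 := congrArg star h
  rw [EF_star (hS := hS) sym, star_zero] at h1
  have h2 : (2 : D) * ι a = 0 := by
    have : (2 : D) * ι a = (ι a + algebraMap K D s * ι b) + (ι a - algebraMap K D s * ι b) := by
      noncomm_ring
    rw [this, h, h1, add_zero]
  have h3 : ι a = 0 := (mul_eq_zero.mp h2).resolve_left two_ne_zero
  rw [h3, zero_add] at h
  have h4 : ι b = 0 := (mul_eq_zero.mp h).resolve_left (sS_ne hS)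
  exact ⟨(map_eq_zero ι).mp h3, (map_eq_zero ι).mp h4⟩

/-- Symmetric elements of `F K`. -/
theorem EF_sym {hS : Setting k K D d s} {ι : F →ₐ[k] D} (sym : ∀ t, star (ι t) = ι t) {y : D}
    (hy : y ∈ EF hS ι) (h : star y = y) : ∃ a : F, y = ι a := by
  obtain ⟨a, b, rfl⟩ := hy
  rw [EF_star (hS := hS) sym] at h
  have h1 : ι 0 + algebraMap K D s * ι (b + b) = 0 := by
    rw [map_zero, zero_add, map_add, mul_add]
    have := sub_eq_zero.mpr h.symm
    rw [← this]
    noncomm_ring
  have h2 := (EF_zero (hS := hS) sym h1).2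
  have h3 : b = 0 := by
    have : (2 : F) * b = 0 := by rw [two_mul]; exact h2
    exact (mul_eq_zero.mp this).resolve_left two_ne_zero
  exact ⟨a, by rw [h3, map_zero, mul_zero, add_zero]⟩

/-- A symmetric subfield `F` with two anticommuting elements in its centralizer. -/
structure WF (ι : F →ₐ[k] D) (w h : D) (e : F) : Prop where
  sym : ∀ t, star (ι t) = ι t
  cw : ∀ t, ι t * w = w * ι t
  ch : ∀ t, ι t * h = h * ι t
  ww : w * w = ι e
  wh : w * h = -(h * w)
  w0 : w ≠ 0
  h0 : h ≠ 0

/-- The elements of `F K (w)`. -/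
def MF (hS : Setting k K D d s) {ι : F →ₐ[k] D} {w h : D} {e : F} (H : WF ι w h e) :
    Subalgebra K D where
  carrier := {y | ∃ x ∈ EF hS ι, ∃ x' ∈ EF hS ι, y = x + w * x'}
  mul_mem' := by
    rintro _ _ ⟨x, hx, x', hx', rfl⟩ ⟨y, hy, y', hy', rfl⟩
    refine ⟨x * y + ι e * (x' * y'), add_mem (mul_mem hx hy) (mul_mem (mem_EF_ι e)
      (mul_mem hx' hy')), x * y' + x' * y, add_mem (mul_mem hx hy') (mul_mem hx' hy), ?_⟩
    have hxw := EF_comm_of (hS := hS) H.cw hx
    have hxw' := EF_comm_of (hS := hS) H.cw hx'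
    have e2 : (x + w * x') * (y + w * y') =
        x * y + (x * w) * y' + w * (x' * y) + w * (x' * w) * y' := by noncomm_ring
    rw [e2, hxw, hxw', ← H.ww]
    noncomm_ring
  add_mem' := by
    rintro _ _ ⟨x, hx, x', hx', rfl⟩ ⟨y, hy, y', hy', rfl⟩
    refine ⟨x + y, add_mem hx hy, x' + y', add_mem hx' hy', ?_⟩
    noncomm_ring
  algebraMap_mem' := fun c => ⟨_, (EF hS ι).algebraMap_mem c, 0, zero_mem _, by
    rw [mul_zero, add_zero]⟩

theorem MF_zero (hS : Setting k K D d s) {ι : F →ₐ[k] D} {w h : D} {e : F} (H : WF ι w h e)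
    {x y : D} (hx : x ∈ EF hS ι) (hy : y ∈ EF hS ι) (h0 : x + w * y = 0) : x = 0 ∧ y = 0 := by
  have hcharD : CharZero D := charZero_of_injective_algebraMap (algebraMap k D).injective
  have hxh := EF_comm_of (hS := hS) H.ch hx
  have hyh := EF_comm_of (hS := hS) H.ch hy
  have h1 : (x - w * y) * h = 0 := by
    have e1 : (x - w * y) * h = x * h - w * (y * h) := by noncomm_ring
    rw [e1, hxh, hyh, ← mul_assoc, H.wh]
    have e2 : h * x - -(h * w) * y = h * (x + w * y) := by noncomm_ring
    rw [e2, h0, mul_zero]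
  have h2 : x - w * y = 0 := (mul_eq_zero.mp h1).resolve_right H.h0
  have h3 : (2 : D) * x = 0 := by
    have : (2 : D) * x = (x + w * y) + (x - w * y) := by noncomm_ring
    rw [this, h0, h2, add_zero]
  have h4 : x = 0 := (mul_eq_zero.mp h3).resolve_left two_ne_zero
  rw [h4, zero_add] at h0
  exact ⟨h4, (mul_eq_zero.mp h0).resolve_left H.w0⟩

theorem MF_comm (hS : Setting k K D d s) {ι : F →ₐ[k] D} {w h : D} {e : F} (H : WF ι w h e)
    {y y' : D} (hy : y ∈ MF hS H) (hy' : y' ∈ MF hS H) : y * y' = y' * y := by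
  obtain ⟨a, ha, b, hb, rfl⟩ := hy
  obtain ⟨a', ha', b', hb', rfl⟩ := hy'
  have h1 := EF_comm_of (hS := hS) H.cw ha
  have h2 := EF_comm_of (hS := hS) H.cw hb
  have h1' := EF_comm_of (hS := hS) H.cw ha'
  have h2' := EF_comm_of (hS := hS) H.cw hb'
  have e1 : (a + w * b) * (a' + w * b') = a * a' + (a * w) * b' + w * (b * a') +
      w * (b * w) * b' := by noncomm_ring
  have e2 : (a' + w * b') * (a + w * b) = a' * a + (a' * w) * b + w * (b' * a) +
      w * (b' * w) * b := by noncomm_ring
  rw [e1, e2, h1, h2, h1', h2', EF_comm (hS := hS) ha ha', EF_comm (hS := hS) hb ha']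
  have e3 : w * a * b' = w * (b' * a) := by rw [mul_assoc, EF_comm (hS := hS) ha hb']
  have e4 : w * (w * b) * b' = w * (w * b') * b := by
    rw [mul_assoc w (w * b), mul_assoc w b, EF_comm (hS := hS) hb hb', mul_assoc w (w * b'),
      mul_assoc w b']
  rw [e3, e4]
  noncomm_ring

end Vale.Agent.P011.Six
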