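import Vale.Agent.P011.Even.GFinish
import Vale.Agent.P011.Even.Completion

/-!
The element `2 + c` is a norm.
-/

open Module Polynomial NumberField IsDedekindDomain

set_option linter.unusedSectionVars false

namespace Vale.Agent.P011.Six

open Vale.Agent.P011.Arith Vale.Agent.P011.Even

/-- The algebra at a split place. -/
theorem split_alg {L : Type} [Field L] {a δ A A' P₀ P₁ Q₀ Q₁ : L}
    (h1 : A ^ 2 - δ ^ 2 * A' ^ 2 = 1)
    (hA : A = P₀ ^ 2 + δ ^ 2 * P₁ ^ 2 - a * (Q₀ ^ 2 + δ ^ 2 * Q₁ ^ 2))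
    (hA' : A' = 2 * (P₀ * P₁) - a * (2 * (Q₀ * Q₁))) :
    A + δ * A' ≠ 0 ∧ A + δ * A' = (P₀ + δ * P₁) ^ 2 - a * (Q₀ + δ * Q₁) ^ 2 ∧
      2 + 2 * A = (A + δ * A') * ((1 + (A + δ * A')) / (A + δ * A')) ^ 2 := by
  have h2 : (A + δ * A') * (A - δ * A') = 1 := by rw [← h1]; ring
  have h0 : A + δ * A' ≠ 0 := left_ne_zero_of_mul_eq_one h2
  refine ⟨h0, ?_, ?_⟩
  · rw [hA, hA']; ring
  · field_simp
    linear_combination h2

variable {k F : Type} [Field k] [NumberField k] [Field F] [NumberField F] [Algebra k F]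

theorem two_add_mem (α d : kˣ) {A A' P₀ P₁ Q₀ Q₁ : F} (b : Fˣ) (hb : (b : F) = 2 + 2 * A)
    (h1 : A ^ 2 - algebraMap k F d * A' ^ 2 = 1)
    (hA : A = P₀ ^ 2 + algebraMap k F d * P₁ ^ 2 -
      algebraMap k F α * (Q₀ ^ 2 + algebraMap k F d * Q₁ ^ 2))
    (hA' : A' = 2 * (P₀ * P₁) - algebraMap k F α * (2 * (Q₀ * Q₁)))
    {S : Set (HeightOneSpectrum (𝓞 k))}
    (hout : ∀ v ∉ S, v.valuation k 2 = 1 ∧ v.valuation k (α : k) = 1 ∧ v.valuation k (d : k) = 1)
    (hin : ∀ v ∈ S, ∀ w : HeightOneSpectrum (𝓞 F), Ab w v → b ∈ LS (w.valuation F)) :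
    b ∈ NF (inc k F α) := by
  have hbd : b ∈ NF (inc k F d) := by
    refine ⟨1 + A, A', ?_⟩
    rw [hb, inc_val_g]
    linear_combination -h1
  refine hasse_norm _ _ ?_
  rintro (w | ψ)
  · obtain ⟨v, hv⟩ := Sch.exists_below (F := k) w
    by_cases hvS : v ∈ S
    · exact Subgroup.mem_sup_right (hin v hvS w hv)
    obtain ⟨h2, hα, hd⟩ := hout v hvS
    by_cases hαs : α ∈ LS (v.valuation k)
    · exact mem_of_split hv hαs b
    change b ∈ NF (inc k F α) ⊔ LS (w.valuation F)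
    by_cases hds : d ∈ LS (v.valuation k)
    · rw [← mem_LN_iff]
      obtain ⟨δ, hδ⟩ := (isSquare_iff w (inc k F d)).mpr (LS_map hv hds)
      obtain ⟨ι, hι⟩ : ∃ ι, ι = algebraMap F (w.adicCompletion F) := ⟨_, rfl⟩
      rw [← hι] at hδ
      have hδ' : ι (algebraMap k F d) = δ ^ 2 := by rw [pow_two]; exact hδ
      obtain ⟨h3, h4, h5⟩ := split_alg (a := ι (algebraMap k F α)) (δ := δ) (A := ι A)
        (A' := ι A') (P₀ := ι P₀) (P₁ := ι P₁) (Q₀ := ι Q₀) (Q₁ := ι Q₁)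
        (by rw [← hδ', ← map_pow, ← map_pow, ← map_mul, ← map_sub, h1, map_one])
        (by
          conv_lhs => rw [hA]
          rw [← hδ']
          simp only [map_sub, map_add, map_mul, map_pow])
        (by
          conv_lhs => rw [hA']
          simp only [map_sub, map_mul, map_ofNat])
      obtain ⟨T, hT⟩ : ∃ T, T = ι A + δ * ι A' := ⟨_, rfl⟩
      rw [← hT] at h3 h4 h5
      refine ⟨(ι P₀ + δ * ι P₁) * ((1 + T) / T), (ι Q₀ + δ * ι Q₁) * ((1 + T) / T), ?_⟩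
      rw [iu_val, iu_val, hb, ← hι, map_add, map_mul, map_ofNat, h5]
      conv_lhs => rw [h4]
      rw [inc_val_g]
      rw [← h4]
      have e1 : (ι P₀ + δ * ι P₁) ^ 2 = T + ι (algebraMap k F α) * (ι Q₀ + δ * ι Q₁) ^ 2 := by
        rw [h4]; ring
      rw [mul_pow, mul_pow, e1]
      ring
    · have h3 := unit_sq_mul v h2 α d hα hd hαs hds
      have h4 : inc k F d ∈ NF b ⊔ LS (w.valuation F) :=
        mem_symm _ _ (Subgroup.mem_sup_left hbd)
      have h5 : inc k F α ∈ NF b ⊔ LS (w.valuation F) := by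
        have h6 : inc k F α = inc k F (α * d) * (inc k F d)⁻¹ := by
          rw [map_mul, mul_inv_cancel_right]
        rw [h6]
        exact mul_mem (Subgroup.mem_sup_right (LS_map hv h3)) (inv_mem h4)
      exact mem_symm _ _ h5
  · by_cases hα : 0 < ψ (algebraMap k F α)
    · exact mem_of_split_real hα b
    refine Subgroup.mem_sup_right ?_
    change 0 < ψ b
    have hα' : ψ (algebraMap k F α) < 0 := lt_of_le_of_ne (not_lt.mp hα)
      ((_root_.map_ne_zero ψ).mpr ((_root_.map_ne_zero _).mpr α.ne_zero))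
    have hb0 : ψ b ≠ 0 := (_root_.map_ne_zero ψ).mpr b.ne_zero
    refine lt_of_le_of_ne ?_ hb0.symm
    by_cases hd : 0 < ψ (algebraMap k F d)
    · obtain ⟨δ, hδ⟩ : ∃ δ, δ = Real.sqrt (ψ (algebraMap k F d)) := ⟨_, rfl⟩
      have hδ' : ψ (algebraMap k F d) = δ ^ 2 := by rw [hδ, Real.sq_sqrt hd.le]
      obtain ⟨h3, h4, h5⟩ := split_alg (a := ψ (algebraMap k F α)) (δ := δ) (A := ψ A)
        (A' := ψ A') (P₀ := ψ P₀) (P₁ := ψ P₁) (Q₀ := ψ Q₀) (Q₁ := ψ Q₁)
        (by rw [← hδ', ← map_pow, ← map_pow, ← map_mul, ← map_sub, h1, map_one])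
        (by
          conv_lhs => rw [hA]
          rw [← hδ']
          simp only [map_sub, map_add, map_mul, map_pow])
        (by
          conv_lhs => rw [hA']
          simp only [map_sub, map_mul, map_ofNat])
      rw [hb, map_add, map_mul, map_ofNat, h5]
      refine mul_nonneg ?_ (sq_nonneg _)
      rw [h4]
      nlinarith [sq_nonneg (ψ P₀ + δ * ψ P₁), sq_nonneg (ψ Q₀ + δ * ψ Q₁)]
    · have h2 : ψ b = (1 + ψ A) ^ 2 - ψ (algebraMap k F d) * ψ A' ^ 2 := by
        rw [hb]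
        have h3 := congrArg ψ h1
        simp only [map_sub, map_pow, map_mul, map_one] at h3
        simp only [map_add, map_mul, map_ofNat]
        linear_combination -h3
      rw [h2]
      nlinarith [sq_nonneg (1 + ψ A), sq_nonneg (ψ A'), not_lt.mp hd]

end Vale.Agent.P011.Six
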