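import Vale.Agent.P011.Six.Semi
import Vale.Agent.P011.Six.NormC
import Vale.Agent.P011.Six.Conj

/-!
The symmetric subfield attached to an element of the unitary group commuting with `i`.
-/

open Module Polynomial NumberField IsDedekindDomain

set_option linter.unusedSectionVars false

namespace Vale.Agent.P011.Six

open Vale.Agent.P011.Arith Vale.Agent.P011.Even Vale.Agent.P011.Two Vale.Agent.P011.One

variable {k K D : Type} [Field k] [NumberField k] [Field K] [NumberField K] [StarRing K]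
  [DivisionRing D] [StarRing D] [Algebra k K] [Algebra k D] [Algebra K D] [IsScalarTower k K D]
  {d : kˣ} {s : K}

/-- The field generated by commuting symmetric elements. -/
theorem exists_symfield (hS : Setting k K D d s) (T : Set D)
    (hT : ∀ a ∈ T, ∀ b ∈ T, a * b = b * a) (hs : ∀ a ∈ T, star a = a) :
    ∃ (F : Type) (_ : Field F) (_ : NumberField F) (_ : Algebra k F) (ι : F →ₐ[k] D),
      (∀ t, star (ι t) = ι t) ∧ (∀ y : D, (∀ a ∈ T, a * y = y * a) → ∀ t, ι t * y = y * ι t) ∧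
      ∀ a ∈ T, ∃ t, ι t = a := by
  have hfD := hS.fin
  have hKf : FiniteDimensional k K := Module.finite_of_finrank_pos (by rw [hS.rank]; norm_num)
  have hDf : FiniteDimensional k D := Module.Finite.trans K D
  obtain ⟨F, _, _, _, ι, hι⟩ := exists_field (R := k) T hT
  have hc : ∀ (y : D), (∀ a ∈ T, a * y = y * a) → ∀ t, ι t * y = y * ι t := by
    intro y hy t
    have key : ∀ w ∈ Algebra.adjoin k T, w * y = y * w := by
      intro w h1
      induction h1 using Algebra.adjoin_induction with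
      | mem a ha => exact hy a ha
      | algebraMap r => exact Algebra.commutes _ _
      | add a b _ _ ha hb => rw [add_mul, mul_add, ha, hb]
      | mul a b _ _ ha hb => rw [mul_assoc, hb, ← mul_assoc, ha, mul_assoc]
    exact key _ ((hι _).mp ⟨t, rfl⟩)
  refine ⟨F, inferInstance, inferInstance, inferInstance, ι, ?_, hc, ?_⟩
  · intro t
    have key : ∀ y ∈ Algebra.adjoin k T, star y = y ∧ y ∈ Algebra.adjoin k T := by
      intro y hy
      refine ⟨?_, hy⟩
      induction hy using Algebra.adjoin_induction with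
      | mem a ha => exact hs a ha
      | algebraMap r => exact Even.star_alg hS r
      | add a b _ _ ha hb => rw [star_add, ha, hb]
      | mul a b hA hB ha hb =>
        obtain ⟨ta, hta⟩ := (hι a).mpr hA
        obtain ⟨tb, htb⟩ := (hι b).mpr hB
        rw [star_mul, ha, hb, ← hta, ← htb, ← map_mul, mul_comm, map_mul]
    exact (key _ ((hι _).mp ⟨t, rfl⟩)).1
  · intro a ha
    exact (hι a).mpr (Algebra.subset_adjoin ha)

/-- The frame of a unitary element commuting with `i`. -/
theorem exists_frameF (hS : Setting k K D d s) (hdeg : finrank K D = 6 ^ 2) {α β : kˣ}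
    {i j : D} (hb : Base k α β i j) {x : D} (hx : i * x = x * i) (hu : star x * x = 1) :
    ∃ (F : Type) (_ : Field F) (_ : NumberField F) (_ : Algebra k F) (ι : F →ₐ[k] D)
      (A A' : F), WF ι i (j⁻¹ * x) (algebraMap k F α) ∧
      j * x * j⁻¹ * x = ι A + algebraMap K D s * ι A' ∧
      star (j * x * j⁻¹ * x) = ι A - algebraMap K D s * ι A' ∧
      A ^ 2 - algebraMap k F d * A' ^ 2 = 1 ∧ (∀ t, ι t * x = x * ι t → ι t * j = j * ι t) ∧
      finrank k F ∣ 3 := by
  have hcharD : CharZero D := charZero_of_injective_algebraMap (algebraMap k D).injective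
  have hx0 : x ≠ 0 := right_ne_zero_of_mul_eq_one hu
  have hxs : star x = x⁻¹ := eq_inv_of_mul_eq_one_left hu
  have hi0 := hb.i0
  have hj0 := hb.j0
  have hS0 := sS_ne (D := D) hS
  have hSc : ∀ y : D, algebraMap K D s * y = y * algebraMap K D s := sS_comm
  obtain ⟨S, hSd⟩ : ∃ S : D, S = algebraMap K D s := ⟨_, rfl⟩
  have hSS : S * S = algebraMap k D d := by rw [hSd, sS_sq hS]
  have hSst : star S = -S := by rw [hSd, star_S hS]
  rw [← hSd] at hS0 hSc
  have hβc : ∀ y : D, algebraMap k D β * y = y * algebraMap k D β := fun y => Algebra.commutes _ _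
  have hβ0 : algebraMap k D β ≠ 0 := by
    rw [Ne, map_eq_zero]
    exact β.ne_zero
  have hji : j⁻¹ * algebraMap k D β = j := by
    rw [← hb.jj, ← mul_assoc, inv_mul_cancel₀ hj0, one_mul]
  obtain ⟨z, hz⟩ : ∃ z : D, z = j⁻¹ * x := ⟨_, rfl⟩
  obtain ⟨θ, hθ⟩ : ∃ θ : D, θ = j * x * j⁻¹ * x := ⟨_, rfl⟩
  have hz0 : z ≠ 0 := by rw [hz]; exact mul_ne_zero (inv_ne_zero hj0) hx0
  have hzz : z * z * algebraMap k D β = θ := by
    rw [← hβc, hz, hθ]
    calc algebraMap k D β * (j⁻¹ * x * (j⁻¹ * x))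
        = (j⁻¹ * algebraMap k D β) * x * (j⁻¹ * x) := by
          rw [← hβc j⁻¹]
          simp only [mul_assoc]
      _ = j * x * j⁻¹ * x := by
          rw [hji]
          simp only [mul_assoc]
  have hiji : i * j⁻¹ = -(j⁻¹ * i) := by
    have h1 : j * (i * j⁻¹) = -(i) := by
      rw [← mul_assoc]
      have : j * i = -(i * j) := by rw [hb.ij, neg_neg]
      rw [this, neg_mul, mul_assoc, mul_inv_cancel₀ hj0, mul_one]
    have h2 : j * -(j⁻¹ * i) = -i := by
      rw [mul_neg, ← mul_assoc, mul_inv_cancel₀ hj0, one_mul]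
    exact mul_left_cancel₀ hj0 (h1.trans h2.symm)
  have hiz : i * z = -(z * i) := by
    rw [hz, ← mul_assoc, hiji, neg_mul, mul_assoc, hx, mul_assoc]
  have hzs : star z = -(z⁻¹ * (algebraMap k D β)⁻¹) := by
    have h1 : star (j⁻¹) = -j⁻¹ := by rw [star_inv₀, hb.sj, inv_neg]
    rw [hz, star_mul, h1, hxs, mul_inv_rev, inv_inv, mul_neg, mul_assoc]
    congr 2
    rw [eq_mul_inv_iff_mul_eq₀ hβ0, hji]
  have hθz : θ * z = z * θ := by rw [← hzz, mul_assoc, hβc, ← mul_assoc, ← mul_assoc, ← mul_assoc]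
  have hθi : θ * i = i * θ := by
    have h1 : z * i = -(i * z) := by rw [hiz, neg_neg]
    rw [← hzz]
    calc z * z * algebraMap k D β * i = z * (z * i) * algebraMap k D β := by
          rw [mul_assoc _ _ i, hβc i]
          simp only [mul_assoc]
      _ = z * -(i * z) * algebraMap k D β := by rw [h1]
      _ = -((z * i) * z * algebraMap k D β) := by simp only [mul_neg, neg_mul, mul_assoc]
      _ = -(-(i * z) * z * algebraMap k D β) := by rw [h1]
      _ = i * (z * z * algebraMap k D β) := by simp only [neg_mul, neg_neg, mul_assoc]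
  have hβs : star (algebraMap k D β) = algebraMap k D β := Even.star_alg hS _
  have hθs : star θ = θ⁻¹ := by
    have h1 : star θ = algebraMap k D β * (star z * star z) := by
      rw [← hzz, star_mul, star_mul, hβs]
    rw [h1, ← hzz, hzs]
    have h2 : (algebraMap k D β)⁻¹ * z⁻¹ = z⁻¹ * (algebraMap k D β)⁻¹ := by
      rw [← mul_inv_rev, ← hβc, mul_inv_rev]
    rw [mul_inv_rev, mul_inv_rev, neg_mul_neg]
    calc algebraMap k D β * (z⁻¹ * (algebraMap k D β)⁻¹ * (z⁻¹ * (algebraMap k D β)⁻¹))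
        = algebraMap k D β * (((algebraMap k D β)⁻¹ * z⁻¹) * ((algebraMap k D β)⁻¹ * z⁻¹)) := by
          rw [h2]
      _ = z⁻¹ * ((algebraMap k D β)⁻¹ * z⁻¹) := by
          rw [mul_assoc (algebraMap k D β)⁻¹, mul_inv_cancel_left₀ hβ0]
      _ = (algebraMap k D β)⁻¹ * (z⁻¹ * z⁻¹) := by rw [← mul_assoc, ← h2, mul_assoc]
  have hθ0 : θ ≠ 0 := by
    rw [← hzz]
    exact mul_ne_zero (mul_ne_zero hz0 hz0) hβ0
  have hcθ : θ * star θ = star θ * θ := by
    rw [hθs, mul_inv_cancel₀ hθ0, inv_mul_cancel₀ hθ0]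
  -- the field
  obtain ⟨a, ha⟩ : ∃ a : D, a = θ + star θ := ⟨_, rfl⟩
  obtain ⟨b, hbd⟩ : ∃ b : D, b = S * (θ - star θ) := ⟨_, rfl⟩
  have hcomθ : ∀ y : D, θ * y = y * θ → star θ * y = y * star θ := by
    intro y hy
    rw [hθs]
    exact ((show Commute θ y from hy).inv_left₀).eq
  have hab : ∀ y : D, θ * y = y * θ → a * y = y * a ∧ b * y = y * b := by
    intro y hy
    have h2 := hcomθ y hy
    refine ⟨?_, ?_⟩
    · rw [ha, add_mul, mul_add, hy, h2]
    · rw [hbd, mul_assoc, sub_mul, hy, h2, ← mul_sub, ← mul_assoc, hSc, mul_assoc]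
  have hθa : θ * a = a * θ := ((hab θ rfl).1).symm
  have hθb : θ * b = b * θ := ((hab θ rfl).2).symm
  have hsa : star a = a := by rw [ha, star_add, star_star, add_comm]
  have hsb : star b = b := by
    rw [hbd, star_mul, star_sub, star_star, hSst, mul_neg, ← hSc, ← mul_neg, neg_sub]
  obtain ⟨F, _, _, _, ι, sym, cen, hmem⟩ := exists_symfield hS ({a, b} : Set D) (by
      rintro y (rfl | rfl) w (rfl | rfl)
      · rfl
      · exact (hab _ hθb).1
      · exact (hab _ hθa).2
      · rfl) (by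
      rintro y (rfl | rfl)
      · exact hsa
      · exact hsb)
  obtain ⟨a', ha'⟩ := hmem a (by simp)
  obtain ⟨b', hb'⟩ := hmem b (by simp)
  have hd0 : algebraMap k F d ≠ 0 := by
    rw [Ne, map_eq_zero]
    exact d.ne_zero
  have h20 : (2 : D) ≠ 0 := two_ne_zero
  have eA : (2 : D) * ι (a' / 2) = a := by
    rw [← map_ofNat ι 2, ← map_mul, mul_div_cancel₀ _ two_ne_zero, ha']
  have eB : (2 : D) * (S * ι (b' / (2 * algebraMap k F d))) = θ - star θ := by
    have e1 : S * (θ - star θ) = (2 : D) * ι (b' / (2 * algebraMap k F d)) *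
        algebraMap k D d := by
      rw [← hbd, ← hb', ← map_ofNat ι 2, ← AlgHom.commutes ι, ← map_mul, ← map_mul]
      congr 1
      field_simp
    have e2 : S * (θ - star θ) = S * ((2 : D) * (S * ι (b' / (2 * algebraMap k F d)))) := by
      rw [e1, ← hSS, ← mul_assoc]
      have e3 : ι (b' / (2 * algebraMap k F d)) * S = S * ι (b' / (2 * algebraMap k F d)) :=
        (hSc _).symm
      have e4 : (2 : D) * S = S * 2 := (hSc 2).symm
      calc (2 : D) * ι (b' / (2 * algebraMap k F d)) * S * S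
          = 2 * (ι (b' / (2 * algebraMap k F d)) * S) * S := by simp only [mul_assoc]
        _ = 2 * (S * ι (b' / (2 * algebraMap k F d))) * S := by rw [e3]
        _ = S * (2 * (S * ι (b' / (2 * algebraMap k F d)))) := (hSc _).symm
    exact (mul_left_cancel₀ hS0 e2).symm
  have e1 : θ = ι (a' / 2) + S * ι (b' / (2 * algebraMap k F d)) := by
    apply mul_left_cancel₀ h20
    rw [mul_add, eA, eB, ha]
    noncomm_ring
  have e2 : star θ = ι (a' / 2) - S * ι (b' / (2 * algebraMap k F d)) := by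
    apply mul_left_cancel₀ h20
    rw [mul_sub, eA, eB, ha]
    noncomm_ring
  have H : WF ι i z (algebraMap k F α) :=
    { sym := sym
      cw := cen i (by
        rintro y (rfl | rfl)
        · exact (hab i hθi).1
        · exact (hab i hθi).2)
      ch := cen z (by
        rintro y (rfl | rfl)
        · exact (hab z hθz).1
        · exact (hab z hθz).2)
      ww := by rw [hb.ii, AlgHom.commutes]
      wh := hiz
      w0 := hi0
      h0 := hz0 }
  rw [← hz, ← hθ, ← hSd]
  refine ⟨F, inferInstance, inferInstance, inferInstance, ι, a' / 2,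
    b' / (2 * algebraMap k F d), H, e1, e2, ?_, ?_, finrank_dvd_three hS hdeg H⟩
  · have h1 : θ * star θ = 1 := by rw [hθs, mul_inv_cancel₀ hθ0]
    apply ι.toRingHom.injective
    change ι _ = ι 1
    rw [map_one, ← h1]
    nth_rewrite 1 [e1]
    rw [e2, map_sub, map_pow, map_mul, map_pow, AlgHom.commutes, ← hSS]
    have e3 : ι (a' / 2) * S = S * ι (a' / 2) := (hSc _).symm
    have e4 : ι (b' / (2 * algebraMap k F d)) * S = S * ι (b' / (2 * algebraMap k F d)) :=
      (hSc _).symm
    have e5 : ι (a' / 2) * ι (b' / (2 * algebraMap k F d)) =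
      ι (b' / (2 * algebraMap k F d)) * ι (a' / 2) := by rw [← map_mul, mul_comm, map_mul]
    obtain ⟨X, hX⟩ : ∃ X, X = ι (a' / 2) := ⟨_, rfl⟩
    obtain ⟨Y, hY⟩ : ∃ Y, Y = ι (b' / (2 * algebraMap k F d)) := ⟨_, rfl⟩
    rw [← hX, ← hY] at e5 ⊢
    rw [← hX] at e3
    rw [← hY] at e4
    calc X ^ 2 - S * S * Y ^ 2 = X * X - S * S * (Y * Y) := by rw [pow_two, pow_two]
      _ = X * X - S * (Y * S) * Y + S * (Y * X - X * Y) := by rw [e4, e5]; noncomm_ring
      _ = X * X - (X * S) * Y + S * Y * X - S * Y * (S * Y) := by rw [e3]; noncomm_ring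
      _ = _ := by noncomm_ring
  · intro t ht
    have h1 := H.ch t
    rw [hz, ← mul_assoc, mul_assoc j⁻¹ x, ← ht, ← mul_assoc] at h1
    have h2 : ι t * j⁻¹ = j⁻¹ * ι t := mul_right_cancel₀ hx0 h1
    have h3 : j * ι t = ι t * j := by
      have h4 : j * (ι t * j⁻¹) * j = j * (j⁻¹ * ι t) * j := by rw [h2]
      rw [← mul_assoc j j⁻¹, mul_inv_cancel₀ hj0, one_mul, mul_assoc j, mul_assoc (ι t),
        inv_mul_cancel₀ hj0, mul_one] at h4
      exact h4
    exact h3.symm


theorem theta_star {α β : kˣ} {i j : D} (hb : Base k α β i j) {x : D} (hu : star x * x = 1) :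
    j * x * j⁻¹ * x * star (j * x * j⁻¹ * x) = 1 := by
  have hx0 : x ≠ 0 := right_ne_zero_of_mul_eq_one hu
  have hj0 := hb.j0
  have hβc : ∀ y : D, algebraMap k D β * y = y * algebraMap k D β := fun y => Algebra.commutes _ _
  have hβ0 : algebraMap k D β ≠ 0 := by
    rw [Ne, map_eq_zero]
    exact β.ne_zero
  have hxs : x * star x = 1 := by
    rw [eq_inv_of_mul_eq_one_left hu, mul_inv_cancel₀ hx0]
  have hsj : star j⁻¹ = -j⁻¹ := by rw [star_inv₀, hb.sj, inv_neg]
  rw [star_mul, star_mul, star_mul, hsj, hb.sj]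
  calc j * x * j⁻¹ * x * (star x * (-j⁻¹ * (star x * -j)))
      = j * x * j⁻¹ * (x * star x) * (j⁻¹ * (star x * j)) := by
        simp only [mul_assoc, mul_neg, neg_mul, neg_neg]
    _ = j * x * (j⁻¹ * j⁻¹) * star x * j := by
        rw [hxs, mul_one]
        simp only [mul_assoc]
    _ = j * x * (algebraMap k D β)⁻¹ * star x * j := by rw [← mul_inv_rev, hb.jj]
    _ = j * (x * star x) * (algebraMap k D β)⁻¹ * j := by
        have h1 : (algebraMap k D β)⁻¹ * star x = star x * (algebraMap k D β)⁻¹ :=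
          ((show Commute (algebraMap k D β) (star x) from hβc _).inv_left₀).eq
        rw [mul_assoc (j * x), h1]
        simp only [mul_assoc]
    _ = 1 := by
        have h1 : (algebraMap k D β)⁻¹ * j = j * (algebraMap k D β)⁻¹ :=
          ((show Commute (algebraMap k D β) j from hβc _).inv_left₀).eq
        rw [hxs, mul_one, mul_assoc, h1, ← mul_assoc, hb.jj, mul_inv_cancel₀ hβ0]

/-- The invariant is a norm. -/
theorem frame_norm (hS : Setting k K D d s) (hdeg : finrank K D = 6 ^ 2) {α β : kˣ}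
    {i j : D} (hb : Base k α β i j) {x : D} (hx : i * x = x * i) (hu : star x * x = 1)
    {F : Type} [Field F] [NumberField F] [Algebra k F] {ι : F →ₐ[k] D} {A A' : F}
    (H : WF ι i (j⁻¹ * x) (algebraMap k F α))
    (hθ : j * x * j⁻¹ * x = ι A + algebraMap K D s * ι A')
    (hθs : star (j * x * j⁻¹ * x) = ι A - algebraMap K D s * ι A')
    (hA : A ^ 2 - algebraMap k F d * A' ^ 2 = 1) (h3 : finrank k F = 3)
    (b : Fˣ) (hb2 : (b : F) = 2 + 2 * A) {S : Set (HeightOneSpectrum (𝓞 k))}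
    (hout : ∀ v ∉ S, v.valuation k 2 = 1 ∧ v.valuation k (α : k) = 1 ∧ v.valuation k (d : k) = 1)
    (hin : ∀ v ∈ S, ∀ w : HeightOneSpectrum (𝓞 F), Ab w v → b ∈ LS (w.valuation F)) :
    b ∈ NF (inc k F α) := by
  have hx0 : x ≠ 0 := right_ne_zero_of_mul_eq_one hu
  have hj0 := hb.j0
  have hSc : ∀ y : D, algebraMap K D s * y = y * algebraMap K D s := sS_comm
  have hSS := sS_sq (D := D) hS
  have hβc : ∀ y : D, algebraMap k D β * y = y * algebraMap k D β := fun y => Algebra.commutes _ _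
  have hβ0 : algebraMap k D β ≠ 0 := by
    rw [Ne, map_eq_zero]
    exact β.ne_zero
  have hji : j⁻¹ * algebraMap k D β = j := by
    rw [← hb.jj, ← mul_assoc, inv_mul_cancel₀ hj0, one_mul]
  have hzz : j⁻¹ * x * (j⁻¹ * x) * algebraMap k D β = j * x * j⁻¹ * x := by
    rw [← hβc]
    calc algebraMap k D β * (j⁻¹ * x * (j⁻¹ * x))
        = (j⁻¹ * algebraMap k D β) * x * (j⁻¹ * x) := by
          rw [← hβc j⁻¹]
          simp only [mul_assoc]
      _ = j * x * j⁻¹ * x := by
          rw [hji]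
          simp only [mul_assoc]
  have hθm : j * x * j⁻¹ * x ∈ EF hS ι := ⟨A, A', hθ⟩
  have hθsm : star (j * x * j⁻¹ * x) ∈ EF hS ι := ⟨A, -A', by
    rw [hθs, map_neg, mul_neg, sub_eq_add_neg]⟩
  have hθθ := theta_star hb hu
  obtain ⟨P, ⟨P₀, P₁, hP⟩, Q, ⟨Q₀, Q₁, hQ⟩, hPQ⟩ :=
    exists_normform hS hdeg hb h3 H hθm hzz hθθ hθsm
  have key : ∀ (X Y : F), (ι X + algebraMap K D s * ι Y) * (ι X + algebraMap K D s * ι Y) =
      ι (X ^ 2 + algebraMap k F d * Y ^ 2) + algebraMap K D s * ι (2 * (X * Y)) := by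
    intro X Y
    obtain ⟨S', hS'⟩ : ∃ S' : D, S' = algebraMap K D s := ⟨_, rfl⟩
    rw [map_add, map_mul ι (algebraMap k F d), AlgHom.commutes, ← hSS, map_pow, map_pow,
      map_mul ι 2, map_ofNat, map_mul]
    rw [← hS'] at hSc ⊢
    have e5 : ι X * ι Y = ι Y * ι X := by rw [← map_mul, mul_comm, map_mul]
    have e3 : ι X * S' = S' * ι X := (hSc _).symm
    have e4 : ι Y * S' = S' * ι Y := (hSc _).symm
    have e6 : (ι X + S' * ι Y) * (ι X + S' * ι Y) = ι X * ι X + ι X * S' * ι Y + S' * (ι Y * ι X) +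
        S' * (ι Y * S') * ι Y := by noncomm_ring
    rw [e6, e3, e4, ← e5]
    noncomm_ring
  have h5 : ι (A - (P₀ ^ 2 + algebraMap k F d * P₁ ^ 2 - algebraMap k F α *
      (Q₀ ^ 2 + algebraMap k F d * Q₁ ^ 2))) + algebraMap K D s *
      ι (A' - (2 * (P₀ * P₁) - algebraMap k F α * (2 * (Q₀ * Q₁)))) = 0 := by
    have h6 := hPQ
    rw [hθ, hP, hQ, key, key] at h6
    simp only [map_sub, map_mul ι (algebraMap k F α), AlgHom.commutes]
    have e1 : ∀ Y : D, algebraMap K D s * (algebraMap k D α * Y) =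
        algebraMap k D α * (algebraMap K D s * Y) := by
      intro Y
      rw [← mul_assoc, hSc, mul_assoc]
    rw [mul_sub, mul_sub, e1]
    rw [← sub_eq_zero] at h6
    rw [← h6, mul_add]
    abel
  obtain ⟨h7, h8⟩ := EF_zero (hS := hS) H.sym h5
  exact two_add_mem α d b hb2 hA (sub_eq_zero.mp h7) (sub_eq_zero.mp h8) hout hin

end Vale.Agent.P011.Six
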