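import Vale.Agent.P011.Six.Field

/-!
Maximal subfields generated by a symmetric subfield and an element.
-/

open Module Polynomial NumberField IsDedekindDomain

set_option linter.unusedSectionVars false

namespace Vale.Agent.P011.Six

open Vale.Agent.P011.Arith Vale.Agent.P011.Even Vale.Agent.P011.Two Vale.Agent.P011.One

/-- The degree of a subfield divides the degree of the algebra. -/
theorem finrank_dvd {K D : Type} [Field K] [CharZero K] [DivisionRing D] [Algebra K D]
    [FiniteDimensional K D] [Algebra.IsCentral K D] {n : ℕ} (hD : finrank K D = n ^ 2)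
    {E : Type} [Field E] [Algebra K E] (j : E →ₐ[K] D) : finrank K E ∣ n := by
  have hinj : Function.Injective j := j.toRingHom.injective
  have hfd : FiniteDimensional K E := FiniteDimensional.of_injective j.toLinearMap hinj
  obtain ⟨u, hu⟩ := Field.exists_primitive_element K E
  obtain ⟨L, _, _, _, jL, u', hL, hju⟩ := W.exists_maxfield hD (j u)
  have h1 : minpoly K u = minpoly K u' := by
    rw [← minpoly.algHom_eq j hinj u, ← minpoly.algHom_eq jL jL.toRingHom.injective u', hju]
  have h2 : finrank K E = (minpoly K u).natDegree := by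
    rw [← IntermediateField.adjoin.finrank (IsIntegral.of_finite K u), hu,
      IntermediateField.finrank_top']
  rw [h2, h1, ← IntermediateField.adjoin.finrank (IsIntegral.of_finite K u'), ← hL]
  exact ⟨finrank (IntermediateField.adjoin K {u'}) L, (Module.finrank_mul_finrank K _ L).symm⟩

variable {k K D : Type} [Field k] [NumberField k] [Field K] [NumberField K] [StarRing K]
  [DivisionRing D] [StarRing D] [Algebra k K] [Algebra k D] [Algebra K D] [IsScalarTower k K D]
  {d : kˣ} {s : K} {F : Type} [Field F] [NumberField F] [Algebra k F]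

open scoped IsMulCommutative in
/-- The field `F K (w)`. -/
theorem exists_MF (hS : Setting k K D d s) {ι : F →ₐ[k] D} {w h : D} {e : F} (H : WF ι w h e) :
    ∃ (M : Type) (_ : Field M) (_ : NumberField M) (_ : Algebra K M) (jM : M →ₐ[K] D),
      (∀ y, y ∈ Set.range jM ↔ y ∈ MF hS H) ∧ finrank K M = 2 * finrank k F := by
  have hfD := hS.fin
  have hfkK : FiniteDimensional k K := Module.finite_of_finrank_pos (by rw [hS.rank]; norm_num)
  have hfkF : FiniteDimensional k F := Module.Finite.of_restrictScalars_finite ℚ k F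
  have _ : IsMulCommutative (MF hS H) := by
    apply IsMulCommutative.of_setLike_mul_comm
    intro a ha b hb
    exact MF_comm hS H ha hb
  let _ : Field (MF hS H) := fieldOfFiniteDimensional K _
  have hfM : FiniteDimensional K (MF hS H) := inferInstance
  refine ⟨MF hS H, inferInstance, numberField_fin (k := K), inferInstance, (MF hS H).val, ?_, ?_⟩
  · intro y
    constructor
    · rintro ⟨x, rfl⟩
      exact x.2
    · intro h
      exact ⟨⟨y, h⟩, rfl⟩
  · let f : (F × F) × (F × F) →ₗ[k] D :=
      { toFun := fun p => (ι p.1.1 + algebraMap K D s * ι p.1.2) +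
          w * (ι p.2.1 + algebraMap K D s * ι p.2.2)
        map_add' := fun p q => by
          simp only [Prod.fst_add, Prod.snd_add, map_add]
          noncomm_ring
        map_smul' := fun c p => by
          simp only [Prod.smul_fst, Prod.smul_snd, map_smul, RingHom.id_apply, smul_add,
            mul_smul_comm, mul_add] }
    have hmem : ∀ p, f p ∈ MF hS H := fun p =>
      ⟨_, ⟨p.1.1, p.1.2, rfl⟩, _, ⟨p.2.1, p.2.2, rfl⟩, rfl⟩
    let g : (F × F) × (F × F) →ₗ[k] MF hS H :=
      { toFun := fun p => ⟨f p, hmem p⟩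
        map_add' := fun p q => Subtype.ext (map_add f p q)
        map_smul' := fun c p => Subtype.ext (map_smul f c p) }
    have hg : Function.Bijective g := by
      constructor
      · rw [← LinearMap.ker_eq_bot, LinearMap.ker_eq_bot']
        intro p hp
        have h1 : f p = 0 := congrArg Subtype.val hp
        obtain ⟨h2, h3⟩ := MF_zero hS H ⟨p.1.1, p.1.2, rfl⟩ ⟨p.2.1, p.2.2, rfl⟩ h1
        obtain ⟨h4, h5⟩ := EF_zero (hS := hS) H.sym h2
        obtain ⟨h6, h7⟩ := EF_zero (hS := hS) H.sym h3
        exact Prod.ext (Prod.ext h4 h5) (Prod.ext h6 h7)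
      · rintro ⟨_, x, ⟨a, b, rfl⟩, y, ⟨a', b', rfl⟩, rfl⟩
        exact ⟨((a, b), (a', b')), rfl⟩
    have h1 := (LinearEquiv.ofBijective g hg).finrank_eq
    rw [Module.finrank_prod, Module.finrank_prod] at h1
    have h2 : finrank k K * finrank K (MF hS H) = finrank k (MF hS H) :=
      Module.finrank_mul_finrank k K _
    rw [hS.rank, ← h1] at h2
    omega

/-- The degree of a symmetric subfield. -/
theorem finrank_dvd_three (hS : Setting k K D d s) (hdeg : finrank K D = 6 ^ 2)
    {ι : F →ₐ[k] D} {w h : D} {e : F} (H : WF ι w h e) : finrank k F ∣ 3 := by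
  have hfD := hS.fin
  have hcen := hS.cen
  obtain ⟨M, _, _, _, jM, -, h2⟩ := exists_MF hS H
  have h3 := finrank_dvd hdeg jM
  rw [h2] at h3
  exact Nat.dvd_of_mul_dvd_mul_left (by norm_num : 0 < 2) h3

/-- The elements commuting with `F` and `w` are in the field `F K (w)`. -/
theorem mem_MF_of_comm (hS : Setting k K D d s) (hdeg : finrank K D = 6 ^ 2)
    {ι : F →ₐ[k] D} (h3 : finrank k F = 3) {w h : D} {e : F} (H : WF ι w h e) {y : D}
    (hy : ∀ t, ι t * y = y * ι t) (hyw : w * y = y * w) : y ∈ MF hS H := by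
  have hfD := hS.fin
  have hcen := hS.cen
  obtain ⟨M, _, _, _, jM, h1, h2⟩ := exists_MF hS H
  rw [h3] at h2
  obtain ⟨C, _, _, _, _, i, hC, hi, hcov⟩ := W.exists_centralizer (m := 1) (n := 6)
    (by rw [hdeg]) (by rw [h2]) (by norm_num) jM
  obtain ⟨c, rfl⟩ := hcov y (by
    intro z
    have h4 : jM z ∈ MF hS H := (h1 _).mp ⟨z, rfl⟩
    obtain ⟨x, hx, x', hx', h5⟩ := h4
    rw [h5, mul_add, add_mul, ← EF_comm_of (hS := hS) hy hx, ← mul_assoc, ← hyw, mul_assoc,
      ← EF_comm_of (hS := hS) hy hx', mul_assoc])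
  have h4 : finrank M C = 1 := by rw [hC]; norm_num
  obtain ⟨z, hz⟩ := (finrank_eq_one_iff_of_nonzero' (1 : C) one_ne_zero).mp h4 c
  rw [Algebra.smul_def, mul_one] at hz
  rw [← hz, hi]
  exact (h1 _).mp ⟨z, rfl⟩

end Vale.Agent.P011.Six
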