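import Vale.Agent.P011.Six.Max

/-!
Symmetric elements of the centralizer of a cubic symmetric subfield.
-/

open Module Polynomial NumberField IsDedekindDomain

set_option linter.unusedSectionVars false

namespace Vale.Agent.P011.Six

open Vale.Agent.P011.Arith Vale.Agent.P011.Even Vale.Agent.P011.Two Vale.Agent.P011.One

variable {k K D : Type} [Field k] [NumberField k] [Field K] [NumberField K] [StarRing K]
  [DivisionRing D] [StarRing D] [Algebra k K] [Algebra k D] [Algebra K D] [IsScalarTower k K D]
  {d : kˣ} {s : K} {F : Type} [Field F] [NumberField F] [Algebra k F]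

open scoped IsMulCommutative in
/-- The field `F K`. -/
theorem exists_EF (hS : Setting k K D d s) (ι : F →ₐ[k] D) (sym : ∀ t, star (ι t) = ι t) :
    ∃ (E : Type) (_ : Field E) (_ : NumberField E) (_ : Algebra K E) (jE : E →ₐ[K] D),
      (∀ y, y ∈ Set.range jE ↔ y ∈ EF hS ι) ∧ finrank K E = finrank k F := by
  have hfD := hS.fin
  have hfkK : FiniteDimensional k K := Module.finite_of_finrank_pos (by rw [hS.rank]; norm_num)
  have hfkF : FiniteDimensional k F := Module.Finite.of_restrictScalars_finite ℚ k F
  have _ : IsMulCommutative (EF hS ι) := by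
    apply IsMulCommutative.of_setLike_mul_comm
    intro a ha b hb
    exact EF_comm (hS := hS) ha hb
  let _ : Field (EF hS ι) := fieldOfFiniteDimensional K _
  have hfM : FiniteDimensional K (EF hS ι) := inferInstance
  refine ⟨EF hS ι, inferInstance, numberField_fin (k := K), inferInstance, (EF hS ι).val, ?_, ?_⟩
  · intro y
    constructor
    · rintro ⟨x, rfl⟩
      exact x.2
    · intro h
      exact ⟨⟨y, h⟩, rfl⟩
  · let f : F × F →ₗ[k] D :=
      { toFun := fun p => ι p.1 + algebraMap K D s * ι p.2
        map_add' := fun p q => by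
          simp only [Prod.fst_add, Prod.snd_add, map_add]
          noncomm_ring
        map_smul' := fun c p => by
          simp only [Prod.smul_fst, Prod.smul_snd, map_smul, RingHom.id_apply, smul_add,
            mul_smul_comm] }
    have hmem : ∀ p, f p ∈ EF hS ι := fun p => ⟨p.1, p.2, rfl⟩
    let g : F × F →ₗ[k] EF hS ι :=
      { toFun := fun p => ⟨f p, hmem p⟩
        map_add' := fun p q => Subtype.ext (map_add f p q)
        map_smul' := fun c p => Subtype.ext (map_smul f c p) }
    have hg : Function.Bijective g := by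
      constructor
      · rw [← LinearMap.ker_eq_bot, LinearMap.ker_eq_bot']
        intro p hp
        have h1 : f p = 0 := congrArg Subtype.val hp
        obtain ⟨h4, h5⟩ := EF_zero (hS := hS) sym h1
        exact Prod.ext h4 h5
      · rintro ⟨_, a, b, rfl⟩
        exact ⟨(a, b), rfl⟩
    have h1 := (LinearEquiv.ofBijective g hg).finrank_eq
    rw [Module.finrank_prod] at h1
    have h2 : finrank k K * finrank K (EF hS ι) = finrank k (EF hS ι) :=
      Module.finrank_mul_finrank k K _
    rw [hS.rank, ← h1] at h2
    omega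

/-- Symmetric elements of the centralizer of `F` which do not commute with a given one. -/
theorem exists_sym_noncomm (hS : Setting k K D d s) (hdeg : finrank K D = 6 ^ 2)
    (h3 : finrank k F = 3) (ι : F →ₐ[k] D) (sym : ∀ t, star (ι t) = ι t) {x : D}
    (hx : star x = x) (hιx : ∀ t, ι t * x = x * ι t) (hxn : ∀ t, ι t ≠ x) :
    ∃ w : D, star w = w ∧ (∀ t, ι t * w = w * ι t) ∧ w * x ≠ x * w := by
  have hfD := hS.fin
  have hcen := hS.cen
  have hcharD : CharZero D := charZero_of_injective_algebraMap (algebraMap k D).injective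
  by_contra hcon
  push Not at hcon
  have hS0 := sS_ne (D := D) hS
  have hall : ∀ y : D, (∀ t, ι t * y = y * ι t) → y * x = x * y := by
    intro y hy
    have hys : ∀ t, ι t * star y = star y * ι t := by
      intro t
      have h1 := congrArg star (hy t)
      rw [star_mul, star_mul, sym] at h1
      exact h1.symm
    have h1 := hcon (y + star y) (by rw [star_add, star_star, add_comm]) (fun t => by
      rw [mul_add, add_mul, hy, hys])
    have h2 := hcon (algebraMap K D s * (y - star y)) (by
      rw [star_mul, star_S hS, star_sub, star_star, mul_neg, ← sS_comm, ← mul_neg, neg_sub])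
      (fun t => by
        rw [← mul_assoc, ← sS_comm, mul_assoc, mul_sub, hy, hys, ← sub_mul, mul_assoc])
    have h3 : (y - star y) * x = x * (y - star y) := by
      rw [mul_assoc, ← mul_assoc x, ← sS_comm, mul_assoc] at h2
      exact mul_left_cancel₀ hS0 h2
    have h4 : (2 : D) * (y * x - x * y) = 0 := by
      have : (2 : D) * (y * x - x * y) = ((y + star y) * x - x * (y + star y)) +
          ((y - star y) * x - x * (y - star y)) := by noncomm_ring
      rw [this, h1, h3, sub_self, sub_self, add_zero]
    exact sub_eq_zero.mp ((mul_eq_zero.mp h4).resolve_left two_ne_zero)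
  obtain ⟨E, _, _, _, jE, hE, hEr⟩ := exists_EF hS ι sym
  rw [h3] at hEr
  obtain ⟨C, _, _, _, _, i, hC, hi, hcov⟩ := W.exists_centralizer (m := 2) (n := 3)
    (by rw [hdeg]) hEr (by norm_num) jE
  have hcE : ∀ y : D, (∀ t, ι t * y = y * ι t) → ∀ z, y * jE z = jE z * y := by
    intro y hy z
    exact (EF_comm_of (hS := hS) hy ((hE _).mp ⟨z, rfl⟩)).symm
  obtain ⟨c, hc⟩ := hcov x (hcE x hιx)
  have hcc : c ∈ Subalgebra.center E C := by
    rw [Subalgebra.mem_center_iff]
    intro b
    apply i.injective
    rw [map_mul, map_mul, hc]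
    apply hall
    intro t
    obtain ⟨z, hz⟩ := (hE (ι t)).mpr (mem_EF_ι t)
    rw [← hz, ← hi, ← map_mul, ← map_mul, Algebra.commutes]
  rw [Algebra.IsCentral.center_eq_bot, Algebra.mem_bot] at hcc
  obtain ⟨z, hz⟩ := hcc
  rw [← hz, hi] at hc
  obtain ⟨t, ht⟩ := EF_sym (hS := hS) sym ((hE _).mp ⟨z, hc⟩) hx
  exact hxn t ht.symm

end Vale.Agent.P011.Six
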