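import Vale.Agent.P011.Six.Lam
import Vale.Agent.P011.Six.Max

/-!
The elements of the field `F K (p)` attached to the conjugates of a unitary element of `F K`.
-/

open Module Polynomial NumberField IsDedekindDomain

set_option linter.unusedSectionVars false

namespace Vale.Agent.P011.Six

open Vale.Agent.P011.Arith Vale.Agent.P011.Even Vale.Agent.P011.Two Vale.Agent.P011.One

section field

variable {M : Type} [Field M]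

/-- The first element. -/
noncomputable def rr (t₂ t₃ : M) : M := (1 + t₂ + t₂ * t₃) / (1 + t₃ + t₂ * t₃)

/-- The second element. -/
noncomputable def rho (t₂ t₃ : M) : M := t₂ / rr t₂ t₃ / (1 + t₂ * t₃)

theorem den_eq (t₂ t₃ : M) : (1 + t₂ + t₂ * t₃) * (1 + t₃ + t₂ * t₃) =
    (1 + t₂ * t₃) ^ 2 + (1 + t₂ * t₃) * (t₂ + t₃) + t₂ * t₃ := by ring

variable {t₁ t₂ t₃ : M}

theorem rr_comm (t₂ t₃ : M) : rr t₃ t₂ = (1 + t₃ + t₂ * t₃) / (1 + t₂ + t₂ * t₃) := by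
  rw [rr, mul_comm t₃ t₂]

theorem rr_swap (h : (1 + t₂ + t₂ * t₃) ≠ 0) (h' : (1 + t₃ + t₂ * t₃) ≠ 0) :
    rr t₂ t₃ * rr t₃ t₂ = 1 := by
  rw [rr_comm t₂ t₃, rr, div_mul_div_comm, mul_comm, div_self (mul_ne_zero h' h)]

theorem rr_star (h2 : t₂ ≠ 0) (h3 : t₃ ≠ 0) : rr t₂⁻¹ t₃⁻¹ = rr t₃ t₂ := by
  have e1 : 1 + t₂⁻¹ + t₂⁻¹ * t₃⁻¹ = (1 + t₃ + t₂ * t₃) / (t₂ * t₃) := by
    field_simp
    ring
  have e2 : 1 + t₃⁻¹ + t₂⁻¹ * t₃⁻¹ = (1 + t₂ + t₂ * t₃) / (t₂ * t₃) := by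
    field_simp
    ring
  rw [rr_comm t₂ t₃, rr, e1, e2, div_div_div_cancel_right₀ (mul_ne_zero h2 h3)]

theorem rr_trace (h : (1 + t₂ + t₂ * t₃) ≠ 0) (h' : (1 + t₃ + t₂ * t₃) ≠ 0) :
    (2 - (rr t₂ t₃ + rr t₃ t₂)) * ((1 + t₂ * t₃) ^ 2 + (1 + t₂ * t₃) * (t₂ + t₃) + t₂ * t₃) =
      -((t₂ + t₃) ^ 2 - 4 * (t₂ * t₃)) := by
  rw [← den_eq, rr_comm t₂ t₃, rr]
  have e : (t₂ + t₃) ^ 2 - 4 * (t₂ * t₃) = ((1 + t₂ + t₂ * t₃) - (1 + t₃ + t₂ * t₃)) ^ 2 := by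
    ring
  rw [e]
  generalize 1 + t₂ + t₂ * t₃ = X at *
  generalize 1 + t₃ + t₂ * t₃ = Y at *
  field_simp
  ring

theorem rr_conj (hp : t₁ * t₂ * t₃ = 1) : rr t₂ t₁ = t₂ / rr t₂ t₃ := by
  have h1 : t₁ ≠ 0 := by rintro rfl; simp at hp
  have h2 : t₂ ≠ 0 := by rintro rfl; simp at hp
  have h3 : t₃ ≠ 0 := by rintro rfl; simp at hp
  have e1 : 1 + t₂ + t₂ * t₁ = (1 + t₃ + t₂ * t₃) / t₃ := by
    field_simp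
    linear_combination hp
  have e2 : 1 + t₁ + t₂ * t₁ = (1 + t₂ + t₂ * t₃) / (t₂ * t₃) := by
    field_simp
    linear_combination (1 + t₂) * hp
  rw [rr, rr, e1, e2]
  generalize 1 + t₂ + t₂ * t₃ = X at *
  generalize 1 + t₃ + t₂ * t₃ = Y at *
  by_cases hX : X = 0
  · rw [hX]; simp
  by_cases hY : Y = 0
  · rw [hY]; simp
  field_simp

theorem rho_star (h2 : t₂ ≠ 0) (h3 : t₃ ≠ 0) (h : (1 + t₂ + t₂ * t₃) ≠ 0)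
    (h' : (1 + t₃ + t₂ * t₃) ≠ 0) :
    rho t₂⁻¹ t₃⁻¹ = rho t₃ t₂ := by
  rw [rho, rho, rr_star h2 h3]
  have h0 := rr_swap h h'
  have e1 : rr t₂ t₃ ≠ 0 := left_ne_zero_of_mul_eq_one h0
  have e2 : rr t₃ t₂ ≠ 0 := right_ne_zero_of_mul_eq_one h0
  have e3 : (1 : M) + t₂⁻¹ * t₃⁻¹ = (1 + t₂ * t₃) / (t₂ * t₃) := by
    field_simp
    ring
  rw [e3, mul_comm t₃ t₂]
  generalize rr t₂ t₃ = X at *
  generalize rr t₃ t₂ = Y at *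
  generalize (1 : M) + t₂ * t₃ = Z at *
  by_cases hZ : Z = 0
  · rw [hZ]; simp
  field_simp

theorem rho_norm (h : (1 + t₂ + t₂ * t₃) ≠ 0) (h' : (1 + t₃ + t₂ * t₃) ≠ 0)
    (hP : 1 + t₂ * t₃ ≠ 0) (hp : t₁ * t₂ * t₃ = 1) :
    rho t₂ t₃ * rho t₃ t₂ * (2 + t₁ + t₁⁻¹) = 1 := by
  have h1 : t₁ ≠ 0 := by rintro rfl; simp at hp
  have h2 : t₂ ≠ 0 := by rintro rfl; simp at hp
  have h3 : t₃ ≠ 0 := by rintro rfl; simp at hp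
  have h0 := rr_swap h h'
  have e4 : t₁ = (t₂ * t₃)⁻¹ := by
    field_simp
    linear_combination hp
  have e5 : rho t₂ t₃ * rho t₃ t₂ = t₂ * t₃ / (rr t₂ t₃ * rr t₃ t₂) / (1 + t₂ * t₃) ^ 2 := by
    rw [rho, rho, mul_comm t₃ t₂]
    have e1 : rr t₂ t₃ ≠ 0 := left_ne_zero_of_mul_eq_one h0
    have e2 : rr t₃ t₂ ≠ 0 := right_ne_zero_of_mul_eq_one h0
    generalize rr t₂ t₃ = X at *
    generalize rr t₃ t₂ = Y at *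
    generalize (1 : M) + t₂ * t₃ = Z at *
    field_simp
  have e6 : (2 : M) + t₁ + t₁⁻¹ = (1 + t₂ * t₃) ^ 2 / (t₂ * t₃) := by
    rw [e4]
    field_simp
    ring
  rw [e5, h0, e6]
  generalize (1 : M) + t₂ * t₃ = Z at *
  field_simp

theorem rho_trace (h : (1 + t₂ + t₂ * t₃) ≠ 0) (h' : (1 + t₃ + t₂ * t₃) ≠ 0)
    (hP : 1 + t₂ * t₃ ≠ 0) :
    (rho t₂ t₃ + rho t₃ t₂) * ((1 + t₂ * t₃) * ((1 + t₂ * t₃) ^ 2 + (1 + t₂ * t₃) * (t₂ + t₃) +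
      t₂ * t₃)) = (1 + t₂ * t₃) ^ 2 * (t₂ + t₃) + 4 * (1 + t₂ * t₃) * (t₂ * t₃) +
        t₂ * t₃ * (t₂ + t₃) := by
  have e1 : rho t₂ t₃ = t₂ * (1 + t₃ + t₂ * t₃) / (1 + t₂ + t₂ * t₃) / (1 + t₂ * t₃) := by
    rw [rho, rr]
    generalize 1 + t₂ + t₂ * t₃ = X at *
    generalize 1 + t₃ + t₂ * t₃ = Y at *
    generalize (1 : M) + t₂ * t₃ = Z at *
    field_simp
  have e2 : rho t₃ t₂ = t₃ * (1 + t₂ + t₂ * t₃) / (1 + t₃ + t₂ * t₃) / (1 + t₂ * t₃) := by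
    rw [rho, rr_comm t₂ t₃, mul_comm t₃ t₂]
    generalize 1 + t₂ + t₂ * t₃ = X at *
    generalize 1 + t₃ + t₂ * t₃ = Y at *
    generalize (1 : M) + t₂ * t₃ = Z at *
    field_simp
  have e3 : (1 + t₂ * t₃) ^ 2 * (t₂ + t₃) + 4 * (1 + t₂ * t₃) * (t₂ * t₃) +
        t₂ * t₃ * (t₂ + t₃) = t₂ * (1 + t₃ + t₂ * t₃) ^ 2 + t₃ * (1 + t₂ + t₂ * t₃) ^ 2 := by
    ring
  rw [← den_eq, e1, e2, e3]
  generalize 1 + t₂ + t₂ * t₃ = X at *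
  generalize 1 + t₃ + t₂ * t₃ = Y at *
  generalize (1 : M) + t₂ * t₃ = Z at *
  field_simp

theorem prod_newton [CharZero M] (t₁ t₂ t₃ : M) :
    6 * (t₁ * t₂ * t₃) = (t₁ + t₂ + t₃) ^ 3 -
      3 * ((t₁ + t₂ + t₃) * (t₁ ^ 2 + t₂ ^ 2 + t₃ ^ 2)) + 2 * (t₁ ^ 3 + t₂ ^ 3 + t₃ ^ 3) := by
  ring

end field

end Vale.Agent.P011.Six
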