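import Vale.Agent.P011.Six.Sym
import Vale.Agent.P011.One.Final

/-!
Generic elements of `N` near one commuting with the quaternion algebra, and the elements of the
centralizer of a symmetric square root.
-/

open Module NumberField IsDedekindDomain Filter Topology

set_option linter.unusedSectionVars false

namespace Vale.Agent.P011.Six

open Vale.Agent.P011.Arith Vale.Agent.P011.Even Vale.Agent.P011.Two Vale.Agent.P011.One

variable {k K D : Type} [Field k] [NumberField k] [Field K] [NumberField K] [StarRing K]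
  [DivisionRing D] [StarRing D] [Algebra k K] [Algebra k D] [Algebra K D] [IsScalarTower k K D]
  {d : kˣ} {s : K} {α β : kˣ} {i j : D}

/-- The field of a symmetric element commuting with `i` and `j`. -/
theorem exists_FY (hS : Setting k K D d s) (hdeg : finrank K D = 6 ^ 2) (hb : Base k α β i j)
    {Y : D} (hs : star Y = Y) (hi : i * Y = Y * i) (hj : j * Y = Y * j)
    (hY : ∀ c : k, algebraMap k D c ≠ Y) :
    ∃ (F : Type) (_ : Field F) (_ : NumberField F) (_ : Algebra k F) (ι : F →ₐ[k] D) (g : F),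
      (∀ t, star (ι t) = ι t) ∧ (∀ t, ι t * i = i * ι t) ∧ (∀ t, ι t * j = j * ι t) ∧
      finrank k F = 3 ∧ ι g = Y ∧ ∀ c : k, algebraMap k F c ≠ g := by
  obtain ⟨F, _, _, _, ι, sym, cen, hmem⟩ := exists_symfield hS ({Y} : Set D)
    (by rintro a rfl b rfl; rfl) (by rintro a rfl; exact hs)
  obtain ⟨g, hg⟩ := hmem Y rfl
  have ci := cen i (by rintro a rfl; exact hi.symm)
  have cjj := cen j (by rintro a rfl; exact hj.symm)
  have hgk : ∀ c : k, algebraMap k F c ≠ g := by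
    intro c hc
    apply hY c
    rw [← hg, ← hc, AlgHom.commutes]
  have H : WF ι i j (algebraMap k F α) :=
    { sym := sym
      cw := ci
      ch := cjj
      ww := by rw [hb.ii, AlgHom.commutes]
      wh := hb.ij
      w0 := hb.i0
      h0 := hb.j0 }
  refine ⟨F, inferInstance, inferInstance, inferInstance, ι, g, sym, ci, cjj, ?_, hg, hgk⟩
  rcases (Nat.dvd_prime Nat.prime_three).mp (finrank_dvd_three hS hdeg H) with h1 | h1
  · exfalso
    obtain ⟨c, hc⟩ := (finrank_eq_one_iff_of_nonzero' (1 : F) one_ne_zero).mp h1 g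
    exact hgk c (by rw [← hc, Algebra.smul_def, mul_one])
  · exact h1

theorem dscD_ne_zero (hS : Setting k K D d s) (hdeg : finrank K D = 6 ^ 2)
    (hb : Base k α β i j) {Y : D} (hs : star Y = Y) (hi : i * Y = Y * i) (hj : j * Y = Y * j)
    (hY : ∀ c : k, algebraMap k D c ≠ Y) : dscD k Y ≠ 0 := by
  obtain ⟨F, _, _, _, ι, g, -, -, -, h3, rfl, hg⟩ := exists_FY hS hdeg hb hs hi hj hY
  rw [dsc_eq hS hdeg h3]
  exact dsc_ne_zero h3 hg

theorem ne_alg_of_dscD (hS : Setting k K D d s) (hdeg : finrank K D = 6 ^ 2) {Y : D}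
    (h : dscD k Y ≠ 0) (c : k) : algebraMap k D c ≠ Y := by
  rintro rfl
  exact h (dscD_alg hS hdeg c)

/-- The local condition on the discriminants of the symmetric elements. -/
def DiscC (k : Type) {D : Type} [Field k] [NumberField k] [DivisionRing D] [StarRing D]
    [Algebra k D] (α β d : kˣ) (i j : D) : Prop :=
  ∀ v : HeightOneSpectrum (𝓞 k), β ∉ NF α ⊔ LS (v.valuation k) →
    ∃ Y : D, star Y = Y ∧ i * Y = Y * i ∧ j * Y = Y * j ∧
      ∃ δ : kˣ, (δ : k) = d * dscD k Y ∧ δ ∉ LS (v.valuation k)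

/-- A symmetric element with a good discriminant at all bad places. -/
theorem exists_Y (hS : Setting k K D d s) (hdeg : finrank K D = 6 ^ 2) (hb : Base k α β i j)
    {M : ℕ} (B : Basis (Fin M) k D) (hD : DiscC k α β d i j) :
    ∃ Y : D, star Y = Y ∧ i * Y = Y * i ∧ j * Y = Y * j ∧ dscD k Y ≠ 0 ∧
      ∀ v : HeightOneSpectrum (𝓞 k), β ∉ NF α ⊔ LS (v.valuation k) →
        ∀ δ : kˣ, (δ : k) = d * dscD k Y → δ ∉ LS (v.valuation k) := by
  classical
  obtain ⟨Y₀, h0s, h0i, h0j, h0k⟩ := exists_sym hS hdeg hb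
  have h00 := dscD_ne_zero hS hdeg hb h0s h0i h0j h0k
  obtain ⟨v₀⟩ := nonempty_prime (F := k)
  have hex : ∀ v : HeightOneSpectrum (𝓞 k), ∃ Z : D, star Z = Z ∧ i * Z = Z * i ∧
      j * Z = Z * j ∧ dscD k Z ≠ 0 ∧ (β ∉ NF α ⊔ LS (v.valuation k) →
        ∀ δ : kˣ, (δ : k) = d * dscD k Z → δ ∉ LS (v.valuation k)) := by
    intro v
    by_cases hv : β ∈ NF α ⊔ LS (v.valuation k)
    · exact ⟨Y₀, h0s, h0i, h0j, h00, fun h => absurd hv h⟩
    · obtain ⟨Y, hs, hi, hj, δ, hδ, hδL⟩ := hD v hv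
      refine ⟨Y, hs, hi, hj, ?_, fun _ δ' hδ' => ?_⟩
      · intro h0
        rw [h0, mul_zero] at hδ
        exact δ.ne_zero hδ
      · rwa [show δ' = δ from Units.ext (by rw [hδ', hδ])]
  choose Z hZs hZi hZj hZ0 hZv using hex
  choose ε hε hcl using fun v => dscD_class B v (Z v) d (hZ0 v)
  have hTfin : ({v : HeightOneSpectrum (𝓞 k) | β ∉ NF α ⊔ LS (v.valuation k)} ∪
      {v₀}).Finite := by
    refine Set.Finite.union ?_ (Set.finite_singleton v₀)
    exact Set.Finite.preimage (Sum.inl_injective.injOn) (bad_finite α β)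
  obtain ⟨x, hx⟩ := approx_proj B (prj hS hb)
    (P := Sum.inl '' ({v : HeightOneSpectrum (𝓞 k) | β ∉ NF α ⊔ LS (v.valuation k)} ∪ {v₀}))
    (hTfin.image _) (fun q => Sum.elim Z (fun _ => 0) q) (by
      rintro _ ⟨v, -, rfl⟩
      exact prj_eq hS hb (hZs v) (hZi v) (hZj v))
    (fun q => Sum.elim ε (fun _ => 1) q) (by
      rintro (v | φ)
      · exact hε v
      · exact one_pos)
  refine ⟨prj hS hb x, prj_star hS hb x, prj_i hS hb x, prj_j hS hb x, ?_, fun v hv δ hδ hL => ?_⟩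
  · exact (hcl v₀ _ (hx (.inl v₀) ⟨v₀, Or.inr rfl, rfl⟩)).1
  · obtain ⟨δ', hδ'⟩ : ∃ δ' : kˣ, (δ' : k) = d * dscD k (Z v) :=
      ⟨Units.mk0 _ (mul_ne_zero d.ne_zero (hZ0 v)), rfl⟩
    exact hZv v hv δ' hδ' ((hcl v _ (hx (.inl v) ⟨v, Or.inl hv, rfl⟩)).2 δ δ' hδ hδ' hL)

/-- A generic element of `N` close to one. -/
theorem exists_nu (hS : Setting k K D d s) (hdeg : finrank K D = 6 ^ 2) (hb : Base k α β i j)
    {M : ℕ} (B : Basis (Fin M) k D) (hD : DiscC k α β d i j) {Ω : Type} [Field Ω] [Algebra K Ω]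
    (f : D →ₐ[K] Matrix (Fin 6) (Fin 6) Ω) {m : ℕ} (hm : 0 < m) {N : Set D}
    (hpow : ∀ x : D, x * star x = 1 → (f x).det = 1 → x ^ m ∈ N)
    (T : Finset (HeightOneSpectrum (𝓞 k))) (hT : T.Nonempty)
    (ε : HeightOneSpectrum (𝓞 k) → ℝ) (hε : ∀ v, 0 < ε v) :
    ∃ ν ∈ N, i * ν = ν * i ∧ j * ν = ν * j ∧ ν * star ν = 1 ∧ (f ν).det = 1 ∧
      (∀ v ∈ T, nm B (.inl v) (ν - 1) < ε v) ∧ dscD k (ν ^ 2 + star (ν ^ 2)) ≠ 0 ∧
      ∀ v : HeightOneSpectrum (𝓞 k), β ∉ NF α ⊔ LS (v.valuation k) →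
        ∀ δ : kˣ, (δ : k) = d * dscD k (ν ^ 2 + star (ν ^ 2)) → δ ∉ LS (v.valuation k) := by
  obtain ⟨Y, hYs, hYi, hYj, hY0, hYv⟩ := exists_Y hS hdeg hb B hD
  obtain ⟨F, _, _, _, ι, g₀, sym, ci, cjj, h3, hg₀, hg₀k⟩ := exists_FY hS hdeg hb hYs hYi hYj
    (ne_alg_of_dscD hS hdeg hY0)
  obtain ⟨t, ht⟩ : ∃ t : k, t = 3⁻¹ * Algebra.trace k F g₀ := ⟨_, rfl⟩
  obtain ⟨g, hg⟩ : ∃ g : F, g = g₀ - algebraMap k F t := ⟨_, rfl⟩
  have hgk : ∀ c : k, algebraMap k F c ≠ g := by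
    intro c hc
    apply hg₀k (c + t)
    rw [map_add, hc, hg]
    ring
  obtain ⟨a, b', e₁, e₂, e₃, hc⟩ := exists_cubD h3 hgk
  have he1 : e₁ = 0 := by
    have h4 := hc.t1
    have h5 : Algebra.trace k F (algebraMap k F t) = 3 * t := by
      rw [Algebra.trace_algebraMap, h3, nsmul_eq_mul]
      norm_num
    rw [hg, map_sub, h5, ht, ← mul_assoc, mul_inv_cancel₀ (by norm_num), one_mul, sub_self] at h4
    exact h4.symm
  have hge : g ^ 3 = -(algebraMap k F e₂ * g) + algebraMap k F e₃ := by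
    have := hc.eq
    rw [he1, map_zero] at this
    linear_combination this
  choose ρ hρ hkap using fun v : HeightOneSpectrum (𝓞 k) =>
    kap_near B v (algebraMap K D s) (ι g) (d : k) e₂ e₃ hm (hε v)
  obtain ⟨τ, hτ0, hτ⟩ := exists_small (P := Sum.inl '' (T : Set (HeightOneSpectrum (𝓞 k))))
    (T.finite_toSet.image _) (fun q => Sum.elim ρ (fun _ => 1) q) (by
      rintro (v | φ)
      · exact hρ v
      · exact one_pos)
  have hτv : ∀ v ∈ T, plAbv (.inl v : Pl k) τ < ρ v := fun v hv =>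
    hτ (.inl v) ⟨v, hv, rfl⟩
  obtain ⟨κ, hκ⟩ : ∃ κ : D, κ = kap (algebraMap K D s) (ι g) (d : k) e₂ e₃ τ := ⟨_, rfl⟩
  obtain ⟨k1, k2, k3, k4⟩ := exists_kappa hS hdeg h3 sym hgk hge hτ0
    (Y := τ • (algebraMap K D s * ι g)) rfl (κ := κ) (by rw [hκ, kap])
  obtain ⟨v₁, hv₁⟩ := hT
  obtain ⟨c, b, hcc, hb0, hcd⟩ := k4 m hm (by
    rw [hκ]
    exact (hkap v₁ τ (hτv v₁ hv₁)).2)
  have hκ0 : κ ≠ 0 := left_ne_zero_of_mul_eq_one k1
  have hfκ : (f κ).det = 1 := by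
    have := k2 Ω f
    rwa [map_one] at this
  have hpw : ∀ n : ℕ, κ ^ n * star (κ ^ n) = 1 := by
    intro n
    induction n with
    | zero => rw [pow_zero, star_one, mul_one]
    | succ n ih => rw [pow_succ, star_mul, mul_assoc, ← mul_assoc κ, k1, one_mul, ih]
  have hsq : (κ ^ m) ^ 2 = κ ^ (2 * m) := by rw [← pow_mul, mul_comm]
  have hck : dscD k ((κ ^ m) ^ 2 + star ((κ ^ m) ^ 2)) = b ^ 2 * dscD k Y := by
    rw [hsq, ← hcc, dsc_eq hS hdeg h3, hcd, hg, dsc_sub h3, ← hg₀, dsc_eq hS hdeg h3]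
  refine ⟨κ ^ m, hpow κ k1 hfκ, ?_, ?_, hpw m, ?_, ?_, ?_, ?_⟩
  · exact ((show Commute i κ from (k3 i ci).symm).pow_right m).eq
  · exact ((show Commute j κ from (k3 j cjj).symm).pow_right m).eq
  · rw [map_pow, Matrix.det_pow, hfκ, one_pow]
  · intro v hv
    rw [hκ]
    exact (hkap v τ (hτv v hv)).1
  · rw [hck]
    exact mul_ne_zero (pow_ne_zero 2 hb0) hY0
  · intro v hv δ hδ hL
    rw [hck] at hδ
    obtain ⟨b₁, hb₁⟩ : ∃ b₁ : kˣ, (b₁ : k) = b := ⟨Units.mk0 b hb0, rfl⟩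
    have h5 : ((δ / b₁ ^ 2 : kˣ) : k) = d * dscD k Y := by
      rw [Units.val_div_eq_div_val, Units.val_pow_eq_pow_val, hb₁, hδ]
      field_simp
    have h6 : b₁ ^ 2 ∈ LS (v.valuation k) := by
      refine ⟨b₁, ?_⟩
      rw [Units.val_pow_eq_pow_val, div_self (pow_ne_zero 2 b₁.ne_zero), sub_self, map_zero]
      exact zero_lt_iff.mpr ((Valuation.ne_zero_iff _).mpr (by norm_num))
    exact hYv v hv _ h5 (div_mem hL h6)

/-- **The elements of the centralizer of `s i` close to one.** -/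
theorem ab_six (hS : Setting k K D d s) (hdeg : finrank K D = 6 ^ 2) (hb : Base k α β i j)
    (hR : RealC (D := D) k α β d) (hD : DiscC k α β d i j) {Ω : Type} [Field Ω] [Algebra K Ω]
    (f : D →ₐ[K] Matrix (Fin 6) (Fin 6) Ω) {M : ℕ} (B : Basis (Fin M) k D)
    (N : Subgroup (SUD f)) [N.Normal] (hi : N.index ≠ 0) :
    AbAt B f (Im N) (algebraMap K D s * i) := by
  classical
  have hcharD : CharZero D := charZero_of_injective_algebraMap (algebraMap k D).injective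
  have hm : 0 < N.index := Nat.pos_of_ne_zero hi
  have hpow : ∀ g : SUD f, g ^ N.index ∈ N := fun g => Subgroup.pow_index_mem _ g
  have hS0 := sS_ne (D := D) hS
  have hSc : ∀ y : D, algebraMap K D s * y = y * algebraMap K D s := sS_comm
  have hinv : ∀ x ∈ Im N, x⁻¹ ∈ Im N := by
    rintro _ ⟨g, hg, rfl⟩
    refine ⟨g⁻¹, N.inv_mem hg, ?_⟩
    rw [Subgroup.coe_inv, Units.val_inv_eq_inv_val]
  have hN0 : ∀ x ∈ Im N, x ≠ 0 := by
    rintro _ ⟨g, hg, rfl⟩
    exact Units.ne_zero _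
  obtain ⟨T, η, hTne, hη, hbadT, hmain⟩ := near_mem hS hdeg hb B f hm
    (fun _ ha _ hb => mul_im ha hb) hinv hN0 (hq1_im f N hi hm hpow) hR
  choose δ₁ hδ₁ hnm using fun v : HeightOneSpectrum (𝓞 k) =>
    near_mul B (.inl v : Pl k) (hη v)
  obtain ⟨ν, hνN, hνi, hνj, hνs, hνf, hνn, hν0, hνv⟩ := exists_nu hS hdeg hb B hD f hm
    (N := Im N) (fun x hx hxf => pow_im hpow ⟨hx, hxf⟩) T hTne δ₁ hδ₁
  have hνne := hN0 ν hνN
  have hνs' : star ν * ν = 1 := by
    rw [eq_inv_of_mul_eq_one_right hνs, inv_mul_cancel₀ hνne]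
  -- continuity of the invariant
  have hcont : ∀ v : HeightOneSpectrum (𝓞 k), ∃ ρ : ℝ, 0 < ρ ∧ ∀ e : D,
      nm B (.inl v) (e - 1) < ρ →
        dscD k (j * (e * ν) * j⁻¹ * (e * ν) + star (j * (e * ν) * j⁻¹ * (e * ν))) ≠ 0 ∧
        ∀ δ δ' : kˣ, (δ : k) = d * dscD k (j * (e * ν) * j⁻¹ * (e * ν) +
            star (j * (e * ν) * j⁻¹ * (e * ν))) →
          (δ' : k) = d * dscD k (ν ^ 2 + star (ν ^ 2)) →
          δ ∈ LS (v.valuation k) → δ' ∈ LS (v.valuation k) := by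
    intro v
    obtain ⟨ε, hε, hcl⟩ := dscD_class B v (ν ^ 2 + star (ν ^ 2)) d hν0
    have h2 : Tn B (.inl v : Pl k) (Filter.comap (fun z : D => nm B (.inl v : Pl k) (z - 1))
        (nhds 0)) (fun z => z) 1 := Filter.tendsto_comap
    have h3 := h2.mul (Tn.const ν)
    have h4 := (((Tn.const j).mul h3).mul (Tn.const j⁻¹)).mul h3
    have e1 : j * (1 * ν) * j⁻¹ * (1 * ν) = ν ^ 2 := by
      rw [one_mul, hνj, mul_assoc ν j, mul_inv_cancel₀ hb.j0, mul_one, pow_two]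
    rw [e1] at h4
    have h5 := h4.linear (sig hS)
    have h6 := (h4.add h5).ev_lt hε
    rw [Filter.eventually_comap, Metric.eventually_nhds_iff] at h6
    obtain ⟨ρ, hρ, h⟩ := h6
    refine ⟨ρ, hρ, fun e he => hcl _ (h ?_ e rfl)⟩
    rw [Real.dist_0_eq_abs, abs_of_nonneg (nm_nonneg B _ _)]
    exact he
  choose ρ hρ hcl using hcont
  refine ⟨(T : Set (HeightOneSpectrum (𝓞 k))), T.finite_toSet, fun v => min (δ₁ v) (ρ v),
    fun v => lt_min (hδ₁ v) (hρ v), fun e het hes hef hen => ?_⟩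
  have hei : e * i = i * e := by
    have h1 : algebraMap K D s * (e * i) = algebraMap K D s * (i * e) := by
      rw [← mul_assoc, hSc, mul_assoc, het, mul_assoc]
    exact mul_left_cancel₀ hS0 h1
  have hx : e * ν ∈ Im N := by
    refine hmain (e * ν) ?_ ?_ ?_ ?_ ?_
    · rw [← mul_assoc, ← hei, mul_assoc, hνi, mul_assoc]
    · rw [star_mul, mul_assoc, ← mul_assoc (star e), hes, one_mul, hνs']
    · rw [map_mul, Matrix.det_mul, hef, hνf, one_mul]
    · intro v hv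
      exact hnm v e ν ((hen v hv).trans_le (min_le_left _ _)) (hνn v hv)
    · obtain ⟨v₁, hv₁⟩ := hTne
      obtain ⟨δ, hδ⟩ : ∃ δ : kˣ, (δ : k) = d * dscD k (j * (e * ν) * j⁻¹ * (e * ν) +
          star (j * (e * ν) * j⁻¹ * (e * ν))) :=
        ⟨Units.mk0 _ (mul_ne_zero d.ne_zero
          (hcl v₁ e ((hen v₁ hv₁).trans_le (min_le_right _ _))).1), rfl⟩
      obtain ⟨δ', hδ'⟩ : ∃ δ' : kˣ, (δ' : k) = d * dscD k (ν ^ 2 + star (ν ^ 2)) :=
        ⟨Units.mk0 _ (mul_ne_zero d.ne_zero hν0), rfl⟩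
      refine ⟨δ, hδ, fun v => ?_⟩
      by_cases hv : β ∈ NF α ⊔ LS (v.valuation k)
      · exact Or.inl hv
      · refine Or.inr fun hL => hνv v hv δ' hδ' ?_
        exact (hcl v e ((hen v (hbadT v hv)).trans_le (min_le_right _ _))).2 δ δ' hδ hδ' hL
  have h7 := mul_im hx (hinv ν hνN)
  rwa [mul_assoc, mul_inv_cancel₀ hνne, mul_one] at h7

end Vale.Agent.P011.Six
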