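import Vale.Agent.P011.Six.Conj
import Vale.Agent.P011.Two.Tr
import Vale.Agent.P011.Even.GChoice

/-!
The sum of the conjugates of an element of `F K`, as a linear function of the element.
-/

open Module Polynomial NumberField IsDedekindDomain

set_option linter.unusedSectionVars false

namespace Vale.Agent.P011.Six

open Vale.Agent.P011.Arith Vale.Agent.P011.Even Vale.Agent.P011.Two Vale.Agent.P011.One

variable {k K D : Type} [Field k] [NumberField k] [Field K] [NumberField K] [StarRing K]
  [DivisionRing D] [StarRing D] [Algebra k K] [Algebra k D] [Algebra K D] [IsScalarTower k K D]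
  {d : kˣ} {s : K}

/-- The trace form. -/
noncomputable def Lam (hS : Setting k K D d s) : D →ₗ[k] D :=
  (Algebra.linearMap k D).comp (((48 : k)⁻¹ • Two.tr k).comp (LinearMap.id + sig hS)) +
    (LinearMap.mulLeft k (algebraMap K D s)).comp ((Algebra.linearMap k D).comp
      (((48 * d : k)⁻¹ • Two.tr k).comp ((LinearMap.mulLeft k (algebraMap K D s)).comp
        (LinearMap.id - sig hS))))

theorem Lam_apply (hS : Setting k K D d s) (x : D) : Lam hS x =
    algebraMap k D ((48 : k)⁻¹ * Two.tr k (x + star x)) + algebraMap K D s *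
      algebraMap k D ((48 * d : k)⁻¹ * Two.tr k (algebraMap K D s * (x - star x))) := rfl

theorem tr_sub24 (hS : Setting k K D d s) (hdeg : finrank K D = 6 ^ 2) {F : Type} [Field F]
    [NumberField F] [Algebra k F] (h3 : finrank k F = 3) (ι : F →ₐ[k] D) (t : F) :
    Two.tr k (ι t) = 24 * Algebra.trace k F t := by
  have hfD := hS.fin
  have hKf : FiniteDimensional k K := Module.finite_of_finrank_pos (by rw [hS.rank]; norm_num)
  have hDf : FiniteDimensional k D := Module.Finite.trans K D
  have hfkF : FiniteDimensional k F := Module.Finite.of_restrictScalars_finite ℚ k F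
  obtain ⟨r, hr⟩ := trace_sub (K := k) ι
  have h1 := hr 1
  rw [map_one, tr_one, trace_one_cub h3] at h1
  have h2 : finrank k D = 72 := by
    rw [← Module.finrank_mul_finrank k K D, hS.rank, hdeg]
    norm_num
  rw [h2] at h1
  have h4 : ((r * 3 : ℕ) : k) = ((72 : ℕ) : k) := by
    rw [h1, Nat.cast_mul, Nat.cast_ofNat]
  have h5 : r * 3 = 72 := Nat.cast_injective h4
  have h6 : r = 24 := by omega
  rw [hr, h6]
  norm_num

/-- The value of the form on the elements of `F K`. -/
theorem Lam_EF (hS : Setting k K D d s) (hdeg : finrank K D = 6 ^ 2) {F : Type} [Field F]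
    [NumberField F] [Algebra k F] (h3 : finrank k F = 3) {ι : F →ₐ[k] D}
    (sym : ∀ t, star (ι t) = ι t) (x y : F) :
    Lam hS (ι x + algebraMap K D s * ι y) = algebraMap k D (Algebra.trace k F x) +
      algebraMap K D s * algebraMap k D (Algebra.trace k F y) := by
  rw [Lam_apply, EF_star (hS := hS) sym]
  have e1 : ι x + algebraMap K D s * ι y + (ι x - algebraMap K D s * ι y) = ι (2 * x) := by
    rw [map_mul, map_ofNat]
    noncomm_ring
  have e2 : algebraMap K D s * (ι x + algebraMap K D s * ι y -
      (ι x - algebraMap K D s * ι y)) = ι (algebraMap k F (2 * d) * y) := by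
    have h1 : algebraMap K D s * (ι x + algebraMap K D s * ι y -
      (ι x - algebraMap K D s * ι y)) = 2 * (algebraMap K D s * algebraMap K D s * ι y) := by
      noncomm_ring
    rw [h1, sS_sq hS, map_mul, AlgHom.commutes, map_mul, map_ofNat, mul_assoc]
  rw [e1, e2, tr_sub24 hS hdeg h3, tr_sub24 hS hdeg h3]
  congr 2
  · have e3 : Algebra.trace k F (2 * x) = 2 * Algebra.trace k F x := by
      rw [two_mul, map_add, two_mul]
    rw [e3]
    ring
  · congr 1
    have e3 : Algebra.trace k F (algebraMap k F (2 * d) * y) =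
        (2 * d) * Algebra.trace k F y := by
      rw [← Algebra.smul_def, map_smul, smul_eq_mul]
    have hd0 : (d : k) ≠ 0 := d.ne_zero
    rw [e3]
    field_simp
    ring

theorem Lam_one (hS : Setting k K D d s) (hdeg : finrank K D = 6 ^ 2) : Lam hS 1 = 3 := by
  have hfD := hS.fin
  have hKf : FiniteDimensional k K := Module.finite_of_finrank_pos (by rw [hS.rank]; norm_num)
  have hDf : FiniteDimensional k D := Module.Finite.trans K D
  have h2 : finrank k D = 72 := by
    rw [← Module.finrank_mul_finrank k K D, hS.rank, hdeg]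
    norm_num
  rw [Lam_apply, star_one, sub_self, mul_zero, map_zero, mul_zero, map_zero, mul_zero, add_zero,
    map_add, tr_one, h2]
  rw [← map_ofNat (algebraMap k D) 3]
  congr 1
  norm_num

/-- Two homomorphisms which agree at a generator. -/
theorem hom_ext_gen {F : Type} [Field F] [Algebra k F] (h3 : finrank k F = 3) {g : F}
    (hg : ∀ c : k, algebraMap k F c ≠ g) {S : Type} [Ring S] [Algebra k S] {f₁ f₂ : F →ₐ[k] S}
    (h : f₁ g = f₂ g) (t : F) : f₁ t = f₂ t := by
  obtain ⟨a₀, a₁, a₂, rfl⟩ := exists_coef h3 hg t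
  simp only [map_add, map_mul, map_pow, AlgHom.commutes, h]

end Vale.Agent.P011.Six
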