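import Vale.Agent.P011.Six.Quat2

/-!
The unitary elements of norm one close to one which commute with `i`.
-/

open Module NumberField IsDedekindDomain

set_option linter.unusedSectionVars false

namespace Vale.Agent.P011.Six

open Vale.Agent.P011.Arith Vale.Agent.P011.Even Vale.Agent.P011.Two Vale.Agent.P011.One
open Vale.Agent.P011.MPQ

variable {k K D : Type} [Field k] [NumberField k] [Field K] [NumberField K] [StarRing K]
  [DivisionRing D] [StarRing D] [Algebra k K] [Algebra k D] [Algebra K D] [IsScalarTower k K D]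
  {d : kˣ} {s : K}

/-- The discriminant, in terms of the traces in the algebra. -/
noncomputable def dscD (k : Type) {D : Type} [Field k] [DivisionRing D] [Algebra k D]
    (y : D) : k :=
  3 * (24⁻¹ * Two.tr k (y ^ 2) * (24⁻¹ * Two.tr k (y ^ 4)) - (24⁻¹ * Two.tr k (y ^ 3)) ^ 2) -
    24⁻¹ * Two.tr k y * (24⁻¹ * Two.tr k y * (24⁻¹ * Two.tr k (y ^ 4)) -
      24⁻¹ * Two.tr k (y ^ 2) * (24⁻¹ * Two.tr k (y ^ 3))) +
    24⁻¹ * Two.tr k (y ^ 2) * (24⁻¹ * Two.tr k y * (24⁻¹ * Two.tr k (y ^ 3)) -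
      (24⁻¹ * Two.tr k (y ^ 2)) ^ 2)

theorem dsc_eq (hS : Setting k K D d s) (hdeg : finrank K D = 6 ^ 2) {F : Type} [Field F]
    [NumberField F] [Algebra k F] (h3 : finrank k F = 3) (ι : F →ₐ[k] D) (g : F) :
    dscD k (ι g) = dsc k g := by
  have h : ∀ n : ℕ, 24⁻¹ * Two.tr k (ι g ^ n) = Algebra.trace k F (g ^ n) := by
    intro n
    rw [← map_pow, tr_sub24 hS hdeg h3, ← mul_assoc, inv_mul_cancel₀ (by norm_num), one_mul]
  have h1 := h 1
  rw [pow_one, pow_one] at h1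
  rw [dscD, dsc, h, h, h, h1]

theorem dscD_alg (hS : Setting k K D d s) (hdeg : finrank K D = 6 ^ 2) (c : k) :
    dscD k (algebraMap k D c) = 0 := by
  have hfD := hS.fin
  have hKf : FiniteDimensional k K := Module.finite_of_finrank_pos (by rw [hS.rank]; norm_num)
  have hDf : FiniteDimensional k D := Module.Finite.trans K D
  have h72 : finrank k D = 72 := by
    rw [← Module.finrank_mul_finrank k K D, hS.rank, hdeg]
    norm_num
  have h : ∀ n : ℕ, 24⁻¹ * Two.tr k (algebraMap k D c ^ n) = 3 * c ^ n := by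
    intro n
    rw [← map_pow, Algebra.algebraMap_eq_smul_one, map_smul, tr_one, h72, smul_eq_mul]
    norm_num
    ring
  have h1 := h 1
  rw [pow_one, pow_one] at h1
  rw [dscD, h, h, h, h1]
  ring

/-- **The unitary elements of norm one close to one commuting with `i`.** -/
theorem near_mem (hS : Setting k K D d s) (hdeg : finrank K D = 6 ^ 2) {α β : kˣ} {i j : D}
    (hb : Base k α β i j) {M : ℕ} (B : Basis (Fin M) k D) {Ω : Type} [Field Ω] [Algebra K Ω]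
    (f : D →ₐ[K] Matrix (Fin 6) (Fin 6) Ω) {e₀ : ℕ} (he₀ : 0 < e₀) {N : Set D}
    (hmul : ∀ x ∈ N, ∀ y ∈ N, x * y ∈ N) (hinv : ∀ x ∈ N, x⁻¹ ∈ N) (hN0 : ∀ x ∈ N, x ≠ 0)
    (hN : HQ1 k e₀ N) (hR : RealC (D := D) k α β d) :
    ∃ (T : Finset (HeightOneSpectrum (𝓞 k))) (η : HeightOneSpectrum (𝓞 k) → ℝ),
      T.Nonempty ∧ (∀ v, 0 < η v) ∧ (∀ v, β ∉ NF α ⊔ LS (v.valuation k) → v ∈ T) ∧
      ∀ x : D, i * x = x * i → star x * x = 1 → (f x).det = 1 →
        (∀ v ∈ T, nm B (.inl v) (x - 1) < η v) →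
        (∃ δ : kˣ, (δ : k) = d * dscD k (j * x * j⁻¹ * x + star (j * x * j⁻¹ * x)) ∧
          ∀ v : HeightOneSpectrum (𝓞 k), β ∈ NF α ⊔ LS (v.valuation k) ∨
            δ ∉ LS (v.valuation k)) → x ∈ N := by
  classical
  have hcharD : CharZero D := charZero_of_injective_algebraMap (algebraMap k D).injective
  have hj0 := hb.j0
  have h20 : (2 : D) ≠ 0 := two_ne_zero
  have hC0 : (64 : k) * (e₀ : k) ^ 4 ≠ 0 :=
    mul_ne_zero (by norm_num) (pow_ne_zero 4 (Nat.cast_ne_zero.mpr he₀.ne'))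
  obtain ⟨v₀⟩ := nonempty_prime (F := k)
  obtain ⟨u2, hu2⟩ : ∃ u2 : kˣ, (u2 : k) = 2 := ⟨Units.mk0 2 two_ne_zero, rfl⟩
  have hTfin : ({v : HeightOneSpectrum (𝓞 k) | β ∉ NF α ⊔ LS (v.valuation k)} ∪
      {v | v.valuation k (u2 : k) ≠ 1} ∪ {v | v.valuation k (α : k) ≠ 1} ∪
      {v | v.valuation k (d : k) ≠ 1} ∪ {v₀}).Finite := by
    refine ((((?_ : Set.Finite _).union (finite_ne_one u2)).union (finite_ne_one α)).union
      (finite_ne_one d)).union (Set.finite_singleton v₀)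
    exact Set.Finite.preimage (Sum.inl_injective.injOn) (bad_finite α β)
  obtain ⟨T, hT⟩ : ∃ T, T = hTfin.toFinset := ⟨_, rfl⟩
  have hv₀T : v₀ ∈ T := by
    rw [hT, Set.Finite.mem_toFinset]
    exact Or.inr rfl
  have hbadT : ∀ v, β ∉ NF α ⊔ LS (v.valuation k) → v ∈ T := by
    intro v hv
    rw [hT, Set.Finite.mem_toFinset]
    exact Or.inl (Or.inl (Or.inl (Or.inl hv)))
  have houtT : ∀ v ∉ T, v.valuation k 2 = 1 ∧ v.valuation k (α : k) = 1 ∧
      v.valuation k (d : k) = 1 := by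
    intro v hv
    rw [hT, Set.Finite.mem_toFinset] at hv
    simp only [Set.mem_union, not_or, Set.mem_ofPred_eq, not_not] at hv
    exact ⟨hu2 ▸ hv.1.1.1.2, hv.1.1.2, hv.1.2⟩
  choose ε₀ hε₀ hval using fun v : HeightOneSpectrum (𝓞 k) =>
    val_of_small B v (64 * (e₀ : k) ^ 4) hC0
  choose δ₁ hδ₁ hnear₁ using fun v : HeightOneSpectrum (𝓞 k) =>
    exists_nearV hS hdeg B (.inl v : Pl k) hj0 (hε₀ v)
  obtain ⟨εT, hεT, hεTle⟩ := exists_le_all T δ₁ hδ₁
  obtain ⟨δ₂, hδ₂, hq⟩ := q_near B α i T hεT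
  choose δ₃ hδ₃ hnear₃ using fun v : HeightOneSpectrum (𝓞 k) =>
    exists_nearV hS hdeg B (.inl v : Pl k) hj0 hδ₂
  refine ⟨T, fun v => min (δ₁ v) (δ₃ v), ⟨v₀, hv₀T⟩, fun v => lt_min (hδ₁ v) (hδ₃ v), hbadT, ?_⟩
  rintro x hx hu hf hxT ⟨δ, hδ, hδb⟩
  have hx1 : ∀ v ∈ T, nm B (.inl v) (x - 1) < δ₁ v := fun v hv =>
    (hxT v hv).trans_le (min_le_left _ _)
  have hx3 : ∀ v ∈ T, nm B (.inl v) (x - 1) < δ₃ v := fun v hv =>
    (hxT v hv).trans_le (min_le_right _ _)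
  -- valuations
  have hvalC : ∀ {F : Type} [Field F] [NumberField F] [Algebra k F]
      (w : HeightOneSpectrum (𝓞 F)), w.valuation F (algebraMap k F (64 * (e₀ : k) ^ 4)) =
        w.valuation F (16 * (4 * (e₀ : F) ^ 4)) := by
    intro F _ _ _ w
    congr 1
    rw [map_mul, map_pow, map_natCast, map_ofNat]
    ring
  have hle1 : ∀ {F : Type} [Field F] [NumberField F] (w : HeightOneSpectrum (𝓞 F)),
      w.valuation F (4 * (e₀ : F) ^ 4) ≤ 1 := by
    intro F _ _ w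
    have h2 : w.valuation F (algebraMap (𝓞 F) F (4 * (e₀ : 𝓞 F) ^ 4)) ≤ 1 :=
      w.valuation_le_one _
    rwa [map_mul, map_pow, map_natCast, map_ofNat] at h2
  have hle16 : ∀ {F : Type} [Field F] [NumberField F] (w : HeightOneSpectrum (𝓞 F)),
      w.valuation F (16 : F) ≤ 1 := by
    intro F _ _ w
    have h2 : w.valuation F (algebraMap (𝓞 F) F 16) ≤ 1 := w.valuation_le_one _
    rwa [map_ofNat] at h2
  -- the frame
  obtain ⟨F, _, _, _, ι, A, A', H, hθ, hθs, hA, -, hdvd⟩ := exists_frameF hS hdeg hb hx hu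
  obtain ⟨θ, hθd⟩ : ∃ θ : D, θ = j * x * j⁻¹ * x := ⟨_, rfl⟩
  have hts : θ * star θ = 1 := by rw [hθd]; exact theta_star hb hu
  have hsθ : star θ = θ⁻¹ := eq_inv_of_mul_eq_one_right hts
  have hιg : ι (2 * A) = θ + star θ := by
    rw [hθd, hθs, hθ, map_mul, map_ofNat]
    noncomm_ring
  have hgk : ∀ c : k, algebraMap k F c ≠ 2 * A := by
    intro c hc
    have h1 : dscD k (θ + star θ) = 0 := by
      rw [← hιg, ← hc, AlgHom.commutes, dscD_alg hS hdeg]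
    rw [← hθd, h1, mul_zero] at hδ
    exact δ.ne_zero hδ
  have h3 : finrank k F = 3 := by
    rcases (Nat.dvd_prime Nat.prime_three).mp hdvd with h1 | h1
    · exfalso
      obtain ⟨c, hc⟩ := (finrank_eq_one_iff_of_nonzero' (1 : F) one_ne_zero).mp h1 (2 * A)
      exact hgk c (by rw [← hc, Algebra.smul_def, mul_one])
    · exact h1
  have hδ' : (δ : k) = d * dsc k (2 * A : F) := by
    rw [hδ, ← hθd, ← hιg, dsc_eq hS hdeg h3]
  have hNV₁ : ∀ v ∈ T, ∀ c : D, nm B (.inl v) (c - 1) < εT →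
      NearV hS B (.inl v) j (ε₀ v) x c := fun v hv c hc =>
    hnear₁ v x c (hx1 v hv) (hc.trans_le (hεTle v hv))
  have hNV₁' : ∀ v ∈ T, NearV hS B (.inl v) j (ε₀ v) x 1 := fun v hv =>
    hNV₁ v hv 1 (by rw [sub_self, nm_zero]; exact hεT)
  have hNV₃ : ∀ v ∈ T, NearV hS B (.inl v) j δ₂ x 1 := fun v hv =>
    hnear₃ v x 1 (hx3 v hv) (by rw [sub_self, nm_zero]; exact hδ₃ v)
  obtain ⟨n_den, n_one, n_nu, n_b0, -, -, -, -, -, -⟩ := hNV₁' v₀ hv₀T
  have hιb : ι (2 + 2 * A) = 2 + θ + θ⁻¹ := by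
    rw [map_add, map_ofNat, hιg, hsθ, add_assoc]
  rw [← hθd] at n_den n_one n_nu n_b0
  have hb0 : (2 : F) + 2 * A ≠ 0 := by
    intro h0
    rw [h0, map_zero] at hιb
    exact n_b0 hιb.symm
  obtain ⟨b, hb2⟩ : ∃ b : Fˣ, (b : F) = 2 + 2 * A := ⟨Units.mk0 _ hb0, rfl⟩
  rw [← hb2] at hιb
  have hsmall : ∀ v ∈ T, ∀ w : HeightOneSpectrum (𝓞 F), Ab w v → ∀ y : F,
      nm B (.inl v) (ι y) < ε₀ v → w.valuation F y < w.valuation F (16 * (4 * (e₀ : F) ^ 4)) := by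
    intro v _ w hw y hy
    rw [← hvalC]
    exact hval v F ι w hw y hy
  have hbLS : ∀ v ∈ T, ∀ w : HeightOneSpectrum (𝓞 F), Ab w v → b ∈ LS (w.valuation F) := by
    intro v hv w hw
    obtain ⟨u4, hu4⟩ : ∃ u4 : Fˣ, (u4 : F) = 4 := ⟨Units.mk0 4 (by norm_num), rfl⟩
    have h4LS : u4 ∈ LS (w.valuation F) := by
      refine ⟨Units.mk0 2 two_ne_zero, ?_⟩
      rw [hu4, Units.val_mk0]
      have : (4 : F) / 2 ^ 2 - 1 = 0 := by norm_num
      rw [this, map_zero]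
      exact zero_lt_iff.mpr ((Valuation.ne_zero_iff _).mpr (by norm_num))
    refine Sch.LS_of_near h4LS ?_
    rw [hu4, ← map_mul]
    have h1 := hsmall v hv w hw (b - 4) (by
      have h2 := (hNV₁' v hv).n1
      rw [← hθd, ← hιb] at h2
      rwa [map_sub, map_ofNat])
    refine h1.trans_le ?_
    rw [map_mul]
    have h2 : (4 : F) * 4 = 16 := by norm_num
    rw [h2]
    exact (mul_le_mul' le_rfl (hle1 w)).trans (mul_one _).le
  have hbN : b ∈ NF (inc k F α) := by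
    refine frame_norm hS hdeg hb hx hu H hθ hθs hA h3 b hb2 (S := (T : Set _)) ?_ ?_
    · intro v hv
      exact houtT v (by simpa using hv)
    · intro v hv
      exact hbLS v (by simpa using hv)
  obtain ⟨u4, hu4⟩ : ∃ u4 : Fˣ, (u4 : F) = 4 := ⟨Units.mk0 4 (by norm_num), rfl⟩
  have h4N : u4 ∈ NF (inc k F α) := ⟨2, 0, by rw [hu4]; norm_num⟩
  have hι4b : ι ((u4 / b : Fˣ) : F) = 4 * (2 + θ + θ⁻¹)⁻¹ := by
    rw [Units.val_div_eq_div_val, hu4, map_div₀, hιb, map_ofNat, div_eq_mul_inv]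
  obtain ⟨P, Q, hPQ, hPQn⟩ := hq F ι (u4 / b) (div_mem h4N hbN) (by
    intro v hv
    have h2 := (hNV₃ v hv).n2
    rw [← hθd] at h2
    rwa [hι4b])
  have hPQ' : P ^ 2 - algebraMap k F α * Q ^ 2 = 4 / b := by
    rw [← hu4, ← Units.val_div_eq_div_val, ← hPQ]
    rfl
  -- the first factor
  obtain ⟨u, hu1, hu2', hu3, hu4', hfr, hux⟩ := exists_u hS hb hu H hθ hθs b hb2 hPQ'
  rw [← hθd] at hux
  have hueq : u = 2⁻¹ * ((ι P + ι Q * i) * (star x + j * x * j⁻¹)) := by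
    rw [← hu1, ← mul_assoc, inv_mul_cancel₀ h20, one_mul]
  have huN : u ∈ N := by
    refine u_mem hS hb hN hu2' hu3 hu4' fun F' _ _ _ ι' p' hp' w v hw hv => ?_
    have hvT := hbadT v hv
    have h5 := (hNV₁ v hvT _ (hPQn v hvT).2).n6
    rw [← hueq, ← hp'] at h5
    have h6 := hval v F' ι' w hw p' h5
    rw [hvalC, map_mul] at h6
    exact h6.trans_le ((mul_le_mul' (hle16 w) le_rfl).trans (one_mul _).le)
  -- the system
  obtain ⟨a, b', e₁, e₂, e₃, hc⟩ := exists_cubD h3 hgk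
  obtain ⟨l, m₀, m₁, e, p, q, h, κ, hp, H', he, sp, sq, hq0, hqq, hq1, hq2⟩ :=
    exists_sys hS hdeg hc hfr δ hδ' hδb hR
  have hfθ : (f θ).det = 1 := by
    have h1 : (f j).det * (f j⁻¹).det = 1 := by
      rw [← Matrix.det_mul, ← map_mul, mul_inv_cancel₀ hj0, map_one, Matrix.det_one]
    rw [hθd, map_mul, map_mul, map_mul, Matrix.det_mul, Matrix.det_mul, Matrix.det_mul, hf,
      mul_one, mul_one, h1]
  obtain ⟨a₀, a₁, b₀, b₁, ha, hb', hqr, htr, htρ⟩ := exists_ab hS hdeg hc H' he sp hq0 hqq hq1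
    hq2 hA (θ := θ) (by rw [hθd, hθ]) f hfθ n_nu n_den n_one b hb2
  have hdown : ∀ ω : HeightOneSpectrum (𝓞 F), inc k F β ∉ NF (inc k F α) ⊔
      LS (ω.valuation F) → ∃ v ∈ T, Ab ω v := by
    intro ω hω
    obtain ⟨v, hv⟩ := Arith.exists_below (F := k) ω
    exact ⟨v, hbadT v fun h => hω (Sch.sup_map hv h), hv⟩
  -- the third factor
  obtain ⟨r, hr⟩ : ∃ r : D, r = (1 + θ⁻¹) * (ι b₀ + ι b₁ * p) := ⟨_, rfl⟩
  have hrN : r ∈ N := by
    refine conj_mem hN (qelt_of hfr hp H'.ww ha) hq0 sq hqq (by rw [hqr, hr]) fun ω hω => ?_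
    obtain ⟨v, hvT, hvω⟩ := hdown ω hω
    have h5 := (hNV₁' v hvT).n4
    rw [← hθd] at h5
    have h6 : ι (2 - 2 * a₀) = -((Lam hS θ - θ) ^ 2 - 4 * θ⁻¹) * (Den hS θ)⁻¹ := by
      rw [eq_mul_inv_iff_mul_eq₀ n_den, Den]
      exact htr
    rw [← h6] at h5
    have h7 := hsmall v hvT ω hvω _ h5
    rw [map_mul] at h7
    exact h7.trans_le ((mul_le_mul' (hle16 ω) le_rfl).trans (one_mul _).le)
  -- the second factor
  have hθ0 : θ ≠ 0 := left_ne_zero_of_mul_eq_one hts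
  have hy : 2 * (u * x * r) = (ι P + ι Q * i) * ι b * (ι b₀ + ι b₁ * p) := by
    have h5 : (1 + θ) * (1 + θ⁻¹) = ι b := by
      rw [hιb, add_mul, one_mul, mul_add, mul_inv_cancel₀ hθ0]
      have : (2 : D) = 1 + 1 := by norm_num
      rw [this]
      noncomm_ring
    rw [← h5, hr]
    calc 2 * (u * x * ((1 + θ⁻¹) * (ι b₀ + ι b₁ * p)))
        = 2 * (u * x) * ((1 + θ⁻¹) * (ι b₀ + ι b₁ * p)) := by simp only [mul_assoc]
      _ = _ := by
        rw [hux]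
        simp only [mul_assoc]
  have hyN : u * x * r ∈ N := by
    refine y_mem hN hfr hp H'.ww b hb' (by rw [← hPQ'] ; rfl) hy fun ω hω => ?_
    obtain ⟨v, hvT, hvω⟩ := hdown ω hω
    refine ⟨?_, ?_, ?_⟩
    · refine hsmall v hvT ω hvω _ ?_
      have h5 := (hNV₁ v hvT _ (hPQn v hvT).1).n3
      rw [← hθd, ← hιb] at h5
      rw [map_add, map_sub, map_div₀, map_div₀, map_mul, map_one, map_ofNat, map_ofNat,
        div_eq_mul_inv, div_eq_mul_inv]
      exact h5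
    · refine hsmall v hvT ω hvω _ ?_
      have h5 := (hNV₁' v hvT).n5
      rw [← hθd, ← hιb] at h5
      have h6 : ι (2 * b₀) = ((1 + θ⁻¹) ^ 2 * (Lam hS θ - θ) + 4 * (1 + θ⁻¹) * θ⁻¹ +
          θ⁻¹ * (Lam hS θ - θ)) * ((1 + θ⁻¹) * Den hS θ)⁻¹ := by
        rw [eq_mul_inv_iff_mul_eq₀ (mul_ne_zero n_one n_den), Den]
        exact htρ
      have h7 : ι (4 / b - 4 * b₀ + 1) = 4 * (ι b)⁻¹ - 2 * ι (2 * b₀) + 1 := by
        have e1 : (4 : F) / b - 4 * b₀ + 1 = 4 / b - 2 * (2 * b₀) + 1 := by ring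
        rw [e1, map_add, map_sub, map_div₀, map_one, map_mul ι 2 (2 * b₀), map_ofNat, map_ofNat,
          div_eq_mul_inv]
      rw [h7, h6]
      exact h5
    · have h5 := (hNV₁' v hvT).n2
      rw [← hθd, ← hιb] at h5
      have h6 : ι (4 / b - 1) = 4 * (ι b)⁻¹ - 1 := by
        rw [map_sub, map_div₀, map_one, map_ofNat, div_eq_mul_inv]
      rw [← h6] at h5
      have h7 := hsmall v hvT ω hvω _ h5
      rw [map_mul] at h7
      have h8 : ω.valuation F (4 / (b : F) - 1) ≤ 1 :=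
        h7.le.trans (mul_le_one' (hle16 ω) (hle1 ω))
      have h9 : (4 : F) / b = (4 / b - 1) + 1 := by ring
      rw [h9]
      exact (Valuation.map_add _ _ _).trans (max_le h8 (map_one _).le)
  have hu0 := hN0 u huN
  have hr0 := hN0 r hrN
  have hxe : x = u⁻¹ * (u * x * r) * r⁻¹ := by
    rw [mul_assoc u x r, inv_mul_cancel_left₀ hu0, mul_assoc, mul_inv_cancel₀ hr0, mul_one]
  rw [hxe]
  exact hmul _ (hmul _ (hinv _ huN) _ hyN) _ (hinv _ hrN)

end Vale.Agent.P011.Six
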