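import Vale.Agent.P011.Six.AB
import Vale.Agent.P011.Two.Cont
import Vale.Agent.P011.One.Near

/-!
The local estimates.
-/

open Module NumberField IsDedekindDomain Filter Topology

set_option linter.unusedSectionVars false

namespace Vale.Agent.P011.Six

open Vale.Agent.P011.Arith Vale.Agent.P011.Even Vale.Agent.P011.Two Vale.Agent.P011.One

variable {k K D : Type} [Field k] [NumberField k] [Field K] [NumberField K] [StarRing K]
  [DivisionRing D] [StarRing D] [Algebra k K] [Algebra k D] [Algebra K D] [IsScalarTower k K D]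
  {d : kˣ} {s : K}

/-- The denominator. -/
noncomputable def Den (hS : Setting k K D d s) (θ : D) : D :=
  (1 + θ⁻¹) ^ 2 + (1 + θ⁻¹) * (Lam hS θ - θ) + θ⁻¹

/-- The local conditions. -/
structure NearV (hS : Setting k K D d s) {M : ℕ} (B : Basis (Fin M) k D) (p : Pl k) (j : D)
    (ε : ℝ) (x c : D) : Prop where
  den : Den hS (j * x * j⁻¹ * x) ≠ 0
  one : 1 + (j * x * j⁻¹ * x)⁻¹ ≠ 0
  nu : 1 + nu hS (j * x * j⁻¹ * x) + nu hS (j * x * j⁻¹ * x) ^ 2 +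
    nu hS (j * x * j⁻¹ * x) ^ 3 + nu hS (j * x * j⁻¹ * x) ^ 4 + nu hS (j * x * j⁻¹ * x) ^ 5 ≠ 0
  b0 : 2 + j * x * j⁻¹ * x + (j * x * j⁻¹ * x)⁻¹ ≠ 0
  n1 : nm B p (2 + j * x * j⁻¹ * x + (j * x * j⁻¹ * x)⁻¹ - 4) < ε
  n2 : nm B p (4 * (2 + j * x * j⁻¹ * x + (j * x * j⁻¹ * x)⁻¹)⁻¹ - 1) < ε
  n3 : nm B p ((2 + j * x * j⁻¹ * x + (j * x * j⁻¹ * x)⁻¹) * 4⁻¹ -
    (2 + j * x * j⁻¹ * x + (j * x * j⁻¹ * x)⁻¹) * c * 2⁻¹ + 1) < ε
  n4 : nm B p (-((Lam hS (j * x * j⁻¹ * x) - j * x * j⁻¹ * x) ^ 2 -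
    4 * (j * x * j⁻¹ * x)⁻¹) * (Den hS (j * x * j⁻¹ * x))⁻¹) < ε
  n5 : nm B p (4 * (2 + j * x * j⁻¹ * x + (j * x * j⁻¹ * x)⁻¹)⁻¹ -
    2 * (((1 + (j * x * j⁻¹ * x)⁻¹) ^ 2 * (Lam hS (j * x * j⁻¹ * x) - j * x * j⁻¹ * x) +
      4 * (1 + (j * x * j⁻¹ * x)⁻¹) * (j * x * j⁻¹ * x)⁻¹ +
      (j * x * j⁻¹ * x)⁻¹ * (Lam hS (j * x * j⁻¹ * x) - j * x * j⁻¹ * x)) *
      ((1 + (j * x * j⁻¹ * x)⁻¹) * Den hS (j * x * j⁻¹ * x))⁻¹) + 1) < ε
  n6 : nm B p (2 - (2⁻¹ * (c * (star x + j * x * j⁻¹)) +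
    star (2⁻¹ * (c * (star x + j * x * j⁻¹))))) < ε

theorem exists_nearV (hS : Setting k K D d s) (hdeg : finrank K D = 6 ^ 2) {M : ℕ}
    (B : Basis (Fin M) k D) (p : Pl k) {j : D} (hj : j ≠ 0) {ε : ℝ} (hε : 0 < ε) :
    ∃ δ : ℝ, 0 < δ ∧ ∀ x c : D, nm B p (x - 1) < δ → nm B p (c - 1) < δ →
      NearV hS B p j ε x c := by
  have hcharD : CharZero D := charZero_of_injective_algebraMap (algebraMap k D).injective
  obtain ⟨l, hl⟩ : ∃ l, l = nb B p ((1 : D), (1 : D)) := ⟨_, rfl⟩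
  have hx : Tn B p l (fun y => y.1) 1 := by rw [hl]; exact nb_fst B p _
  have hc : Tn B p l (fun y => y.2) 1 := by rw [hl]; exact nb_snd B p _
  have h1 : Tn B p l (fun _ : D × D => (1 : D)) 1 := Tn.const 1
  have h2 : Tn B p l (fun _ : D × D => (2 : D)) 2 := Tn.const 2
  have h3 : Tn B p l (fun _ : D × D => (3 : D)) 3 := Tn.const 3
  have h4 : Tn B p l (fun _ : D × D => (4 : D)) 4 := Tn.const 4
  have hjj : Tn B p l (fun y => j * y.1 * j⁻¹) 1 := by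
    have := ((Tn.const j).mul hx).mul (Tn.const j⁻¹)
    rwa [mul_one, mul_inv_cancel₀ hj] at this
  have hθ : Tn B p l (fun y => j * y.1 * j⁻¹ * y.1) 1 := by
    have := hjj.mul hx
    rwa [mul_one] at this
  have hθi : Tn B p l (fun y => (j * y.1 * j⁻¹ * y.1)⁻¹) 1 := by
    have := hθ.inv one_ne_zero
    rwa [inv_one] at this
  have hL1 : Tn B p l (fun y => Lam hS (j * y.1 * j⁻¹ * y.1)) 3 := by
    have := hθ.linear (Lam hS)
    rwa [Lam_one hS hdeg] at this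
  have hθ2 : Tn B p l (fun y => (j * y.1 * j⁻¹ * y.1) ^ 2) 1 := by
    have := hθ.mul hθ
    simp only [← pow_two, one_pow] at this
    exact this
  have hθ3 : Tn B p l (fun y => (j * y.1 * j⁻¹ * y.1) ^ 3) 1 := by
    have := hθ2.mul hθ
    simp only [← pow_succ, one_mul] at this
    exact this
  have hL2 : Tn B p l (fun y => Lam hS ((j * y.1 * j⁻¹ * y.1) ^ 2)) 3 := by
    have := hθ2.linear (Lam hS)
    rwa [Lam_one hS hdeg] at this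
  have hL3 : Tn B p l (fun y => Lam hS ((j * y.1 * j⁻¹ * y.1) ^ 3)) 3 := by
    have := hθ3.linear (Lam hS)
    rwa [Lam_one hS hdeg] at this
  have hpow : ∀ {f : D × D → D} {a : D} (n : ℕ), Tn B p l f a →
      Tn B p l (fun y => f y ^ n) (a ^ n) := by
    intro f a n hf
    induction n with
    | zero => simp only [pow_zero]; exact h1
    | succ n ih =>
      have := ih.mul hf
      simp only [← pow_succ] at this
      exact this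
  have hone : Tn B p l (fun y => 1 + (j * y.1 * j⁻¹ * y.1)⁻¹) 2 := by
    have := h1.add hθi
    rwa [one_add_one_eq_two] at this
  have hdiff : Tn B p l (fun y => Lam hS (j * y.1 * j⁻¹ * y.1) - j * y.1 * j⁻¹ * y.1) 2 := by
    have := hL1.sub hθ
    have e : (3 : D) - 1 = 2 := by norm_num
    rwa [e] at this
  have hden : Tn B p l (fun y => Den hS (j * y.1 * j⁻¹ * y.1)) 9 := by
    have := ((hpow 2 hone).add (hone.mul hdiff)).add hθi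
    have e : (2 : D) ^ 2 + 2 * 2 + 1 = 9 := by norm_num
    rwa [e] at this
  have hnu : Tn B p l (fun y => nu hS (j * y.1 * j⁻¹ * y.1)) 1 := by
    have := (Tn.const (6⁻¹ : D)).mul
      (((hpow 3 hL1).sub (h3.mul (hL1.mul hL2))).add (h2.mul hL3))
    have e : (6 : D)⁻¹ * (3 ^ 3 - 3 * (3 * 3) + 2 * 3) = 1 := by norm_num
    rwa [e] at this
  have hnus : Tn B p l (fun y => 1 + nu hS (j * y.1 * j⁻¹ * y.1) +
      nu hS (j * y.1 * j⁻¹ * y.1) ^ 2 + nu hS (j * y.1 * j⁻¹ * y.1) ^ 3 +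
      nu hS (j * y.1 * j⁻¹ * y.1) ^ 4 + nu hS (j * y.1 * j⁻¹ * y.1) ^ 5) 6 := by
    have := ((((h1.add hnu).add (hpow 2 hnu)).add (hpow 3 hnu)).add (hpow 4 hnu)).add
      (hpow 5 hnu)
    have e : (1 : D) + 1 + 1 ^ 2 + 1 ^ 3 + 1 ^ 4 + 1 ^ 5 = 6 := by norm_num
    rwa [e] at this
  have hb : Tn B p l (fun y => 2 + j * y.1 * j⁻¹ * y.1 + (j * y.1 * j⁻¹ * y.1)⁻¹) 4 := by
    have := (h2.add hθ).add hθi
    have e : (2 : D) + 1 + 1 = 4 := by norm_num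
    rwa [e] at this
  have hbi : Tn B p l (fun y => 4 * (2 + j * y.1 * j⁻¹ * y.1 +
      (j * y.1 * j⁻¹ * y.1)⁻¹)⁻¹) 1 := by
    have := h4.mul (hb.inv (by norm_num : (4 : D) ≠ 0))
    have e : (4 : D) * 4⁻¹ = 1 := by norm_num
    rwa [e] at this
  have hn3 : Tn B p l (fun y => (2 + j * y.1 * j⁻¹ * y.1 + (j * y.1 * j⁻¹ * y.1)⁻¹) * 4⁻¹ -
      (2 + j * y.1 * j⁻¹ * y.1 + (j * y.1 * j⁻¹ * y.1)⁻¹) * y.2 * 2⁻¹ + 1) 0 := by
    have := ((hb.mul (Tn.const (4⁻¹ : D))).sub ((hb.mul hc).mul (Tn.const (2⁻¹ : D)))).add h1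
    have e : (4 : D) * 4⁻¹ - 4 * 1 * 2⁻¹ + 1 = 0 := by norm_num
    rwa [e] at this
  have hn4 : Tn B p l (fun y => -((Lam hS (j * y.1 * j⁻¹ * y.1) - j * y.1 * j⁻¹ * y.1) ^ 2 -
      4 * (j * y.1 * j⁻¹ * y.1)⁻¹) * (Den hS (j * y.1 * j⁻¹ * y.1))⁻¹) 0 := by
    have := (((hpow 2 hdiff).sub (h4.mul hθi)).neg).mul (hden.inv (by norm_num : (9 : D) ≠ 0))
    have e : -((2 : D) ^ 2 - 4 * 1) * 9⁻¹ = 0 := by norm_num
    rwa [e] at this
  have hn5 : Tn B p l (fun y => 4 * (2 + j * y.1 * j⁻¹ * y.1 + (j * y.1 * j⁻¹ * y.1)⁻¹)⁻¹ -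
    2 * (((1 + (j * y.1 * j⁻¹ * y.1)⁻¹) ^ 2 * (Lam hS (j * y.1 * j⁻¹ * y.1) -
      j * y.1 * j⁻¹ * y.1) + 4 * (1 + (j * y.1 * j⁻¹ * y.1)⁻¹) * (j * y.1 * j⁻¹ * y.1)⁻¹ +
      (j * y.1 * j⁻¹ * y.1)⁻¹ * (Lam hS (j * y.1 * j⁻¹ * y.1) - j * y.1 * j⁻¹ * y.1)) *
      ((1 + (j * y.1 * j⁻¹ * y.1)⁻¹) * Den hS (j * y.1 * j⁻¹ * y.1))⁻¹) + 1) 0 := by
    have := (hbi.sub (h2.mul (((((hpow 2 hone).mul hdiff).add ((h4.mul hone).mul hθi)).add
      (hθi.mul hdiff)).mul ((hone.mul hden).inv (by norm_num : (2 : D) * 9 ≠ 0))))).add h1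
    have e : (1 : D) - 2 * (((2 : D) ^ 2 * 2 + 4 * 2 * 1 + 1 * 2) * (2 * 9)⁻¹) + 1 = 0 := by
      norm_num
    rwa [e] at this
  have hn6 : Tn B p l (fun y => 2 - (2⁻¹ * (y.2 * (star y.1 + j * y.1 * j⁻¹)) +
      star (2⁻¹ * (y.2 * (star y.1 + j * y.1 * j⁻¹))))) 0 := by
    have hs : Tn B p l (fun y => star y.1) 1 := by
      have := hx.linear (sig hS)
      rw [sig_apply, star_one] at this
      exact this
    have h5 := (Tn.const (2⁻¹ : D)).mul (hc.mul (hs.add hjj))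
    have e : (2 : D)⁻¹ * (1 * (1 + 1)) = 1 := by norm_num
    rw [e] at h5
    have h6 := h5.linear (sig hS)
    rw [sig_apply, star_one] at h6
    have h7 := h2.sub (h5.add h6)
    have e' : (2 : D) - (1 + 1) = 0 := by norm_num
    rw [e'] at h7
    exact h7
  have h0 : ∀ {f : D × D → D}, Tn B p l f 0 → ∀ᶠ y in l, nm B p (f y) < ε := by
    intro f hf
    exact hf.ev_small (by rw [nm_zero]; exact hε)
  have key : ∀ᶠ y in l, NearV hS B p j ε y.1 y.2 := by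
    filter_upwards [hden.ev_ne (by norm_num : (9 : D) ≠ 0), hone.ev_ne two_ne_zero,
      hnus.ev_ne (by norm_num : (6 : D) ≠ 0), hb.ev_ne (by norm_num : (4 : D) ≠ 0),
      hb.ev_lt hε, hbi.ev_lt hε, h0 hn3, h0 hn4, h0 hn5, h0 hn6] with y a1 a2 a3 a4 a5 a6 a7 a8 a9
      a10
    exact ⟨a1, a2, a3, a4, a5, a6, a7, a8, a9, a10⟩
  rw [hl] at key
  obtain ⟨δ, hδ, h⟩ := ev_nb B p key
  refine ⟨δ / 2, by positivity, fun x c hx hc => h (x, c) ?_⟩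
  change nm B p (x - 1) + nm B p (c - 1) < δ
  linarith

end Vale.Agent.P011.Six
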