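import Vale.Agent.P011.Six.Frame
import Vale.Agent.P011.Six.NonComm
import Vale.Agent.P011.Six.Disc
import Vale.Agent.P011.Pow.CentNrd

/-!
The reduced norm of the elements of `F K`, for `F` symmetric and cubic.
-/

open Module Polynomial NumberField IsDedekindDomain

set_option linter.unusedSectionVars false

namespace Vale.Agent.P011.Six

open Vale.Agent.P011.Arith Vale.Agent.P011.Even Vale.Agent.P011.Two Vale.Agent.P011.One

variable {k K D : Type} [Field k] [NumberField k] [Field K] [NumberField K] [StarRing K]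
  [DivisionRing D] [StarRing D] [Algebra k K] [Algebra k D] [Algebra K D] [IsScalarTower k K D]
  {d : kˣ} {s : K} {F : Type} [Field F] [NumberField F] [Algebra k F]

/-- The reduced norm of the elements of a cubic subfield. -/
theorem nrd_cubic (hS : Setting k K D d s) (hdeg : finrank K D = 6 ^ 2) {E : Type} [Field E]
    [NumberField E] [Algebra K E] (h3 : finrank K E = 3) (jE : E →ₐ[K] D) (y : E) :
    W.HasNrd K 6 (jE y) (Algebra.norm K y ^ 2) := by
  have hfD := hS.fin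
  have hcen := hS.cen
  have hcharK : CharZero K := inferInstance
  obtain ⟨C, _, _, _, _, i, hC, hi, -⟩ := W.exists_centralizer (m := 2) (n := 3)
    (by rw [hdeg]) h3 (by norm_num) jE
  have hCf : FiniteDimensional E C := Module.finite_of_finrank_pos (by rw [hC]; norm_num)
  have h1 : W.HasNrd E 2 (algebraMap E C y) (y ^ 2) := W.HasNrd.algMap y
  have h2 := Pow.hasNrd_cent (K := K) (K' := E) hdeg hC (by rw [h3]) (i : C →+* D) (fun c => by
    change i (algebraMap E C (algebraMap K E c)) = algebraMap K D c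
    rw [hi, jE.commutes]) h1
  rw [map_pow] at h2
  change W.HasNrd K 6 (i (algebraMap E C y)) _ at h2
  rwa [hi] at h2

/-- The norm of `1 + Z`. -/
theorem norm_one_add {R E : Type} [Field R] [Field E] [Algebra R E] (h3 : finrank R E = 3)
    {Z : E} (hZ : ∀ c : R, algebraMap R E c ≠ Z) {c₂ c₃ : R}
    (h : Z ^ 3 = -(algebraMap R E c₂ * Z) + algebraMap R E c₃) :
    Algebra.norm R (1 + Z) = 1 + c₂ + c₃ := by
  obtain ⟨a₁, a₂, a₃, h1, -, -, h4⟩ := exists_cub h3 hZ
  have h5 : algebraMap R E (a₃ - c₃) + algebraMap R E (c₂ - a₂) * Z + algebraMap R E a₁ * Z ^ 2 =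
      0 := by
    rw [h] at h1
    simp only [map_sub]
    linear_combination -h1
  obtain ⟨h6, h7, h8⟩ := cub_indep h3 hZ h5
  rw [h4, h8, sub_eq_zero.mp h6, ← sub_eq_zero.mp h7]
  ring

/-- The elements of norm one of the cubic field. -/
theorem exists_kappa (hS : Setting k K D d s) (hdeg : finrank K D = 6 ^ 2)
    (h3 : finrank k F = 3) {ι : F →ₐ[k] D} (sym : ∀ t, star (ι t) = ι t) {g : F}
    (hg : ∀ c : k, algebraMap k F c ≠ g) {e₂ e₃ : k}
    (hge : g ^ 3 = -(algebraMap k F e₂ * g) + algebraMap k F e₃) {τ : k} (hτ : τ ≠ 0) {Y : D}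
    (hY : Y = τ • (algebraMap K D s * ι g)) {κ : D}
    (hκ : κ = ((1 + Y) * (1 - Y)⁻¹) ^ 3 *
      ((1 + (τ ^ 2 * d * e₂) • (1 : D) - (τ ^ 3 * d * e₃) • algebraMap K D s) *
        (1 + (τ ^ 2 * d * e₂) • (1 : D) + (τ ^ 3 * d * e₃) • algebraMap K D s)⁻¹)) :
    κ * star κ = 1 ∧ W.HasNrd K 6 κ 1 ∧ (∀ y : D, (∀ t, ι t * y = y * ι t) → κ * y = y * κ) ∧
      ∀ m : ℕ, 0 < m → ∑ l ∈ Finset.range (12 * m), κ ^ l ≠ 0 →
        ∃ (c : F) (b : k), ι c = κ ^ (2 * m) + star (κ ^ (2 * m)) ∧ b ≠ 0 ∧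
          dsc k c = b ^ 2 * dsc k g := by
  have hcharD : CharZero D := charZero_of_injective_algebraMap (algebraMap k D).injective
  obtain ⟨E, _, _, _, jE, hE, hEr⟩ := exists_EF hS ι sym
  rw [h3] at hEr
  have hcE : CharZero E := charZero_of_injective_algebraMap (algebraMap K E).injective
  have hinj : Function.Injective jE := jE.toRingHom.injective
  obtain ⟨G, hG⟩ : ∃ G : E, jE G = ι g := (hE _).mpr (mem_EF_ι g)
  obtain ⟨σ, hσ⟩ : ∃ σ : K, σ = algebraMap k K τ * s := ⟨_, rfl⟩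
  have hs0 : s ≠ 0 := hS.s_ne
  have hσ0 : σ ≠ 0 := by
    rw [hσ]
    exact mul_ne_zero ((_root_.map_ne_zero _).mpr hτ) hs0
  have hσs : star σ = -σ := by
    rw [hσ, star_mul, hS.star_s, star_algebraMap hS, neg_mul, mul_comm]
  have hkD : ∀ x : k, algebraMap K D (algebraMap k K x) = algebraMap k D x := fun x =>
    (IsScalarTower.algebraMap_apply k K D x).symm
  have hGK : ∀ c : K, algebraMap K E c ≠ G := by
    intro c hc
    have h1 : ι g = algebraMap K D c := by rw [← hG, ← hc, jE.commutes]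
    obtain ⟨a, b, h2⟩ := exists_K (D := D) hS c
    have h4 : ι (g - algebraMap k F a) + algebraMap K D s * ι (-algebraMap k F b) = 0 := by
      rw [map_sub, map_neg, AlgHom.commutes, AlgHom.commutes, h1, h2]
      noncomm_ring
    exact hg a (sub_eq_zero.mp (EF_zero (hS := hS) sym h4).1).symm
  have hG3 : G ^ 3 = -(algebraMap K E (algebraMap k K e₂) * G) +
      algebraMap K E (algebraMap k K e₃) := by
    apply hinj
    rw [map_pow, hG, ← map_pow, hge, map_add, map_neg, map_mul, AlgHom.commutes, AlgHom.commutes,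
      map_add, map_neg, map_mul, jE.commutes, jE.commutes, hG, hkD, hkD]
  obtain ⟨Z, hZ⟩ : ∃ Z : E, Z = algebraMap K E σ * G := ⟨_, rfl⟩
  have hσE : algebraMap K E σ ≠ 0 := (_root_.map_ne_zero _).mpr hσ0
  have hZK : ∀ c : K, algebraMap K E c ≠ Z := by
    intro c hc
    refine hGK (σ⁻¹ * c) ?_
    rw [map_mul, hc, hZ, map_inv₀, inv_mul_cancel_left₀ hσE]
  obtain ⟨c₂, hc₂⟩ : ∃ c₂ : K, c₂ = σ ^ 2 * algebraMap k K e₂ := ⟨_, rfl⟩
  obtain ⟨c₃, hc₃⟩ : ∃ c₃ : K, c₃ = σ ^ 3 * algebraMap k K e₃ := ⟨_, rfl⟩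
  have hZ3 : Z ^ 3 = -(algebraMap K E c₂ * Z) + algebraMap K E c₃ := by
    rw [hZ, mul_pow, hG3, hc₂, hc₃]
    simp only [map_mul, map_pow]
    ring
  have hZK' : ∀ c : K, algebraMap K E c ≠ -Z := fun c hc => hZK (-c) (by rw [map_neg, hc, neg_neg])
  have hn1 := norm_one_add hEr hZK hZ3
  have hn2 : Algebra.norm K (1 + -Z) = 1 + c₂ + -c₃ := norm_one_add hEr hZK' (by
    have : (-Z) ^ 3 = -(Z ^ 3) := by ring
    rw [this, hZ3, map_neg]
    ring)
  have h10 : 1 + Z ≠ 0 := fun h0 => hZK (-1) (by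
    rw [map_neg, map_one]
    linear_combination -h0)
  have h20 : 1 + -Z ≠ 0 := fun h0 => hZK 1 (by
    rw [map_one]
    linear_combination h0)
  have hEf : FiniteDimensional K E := Module.finite_of_finrank_pos (by rw [hEr]; norm_num)
  have hn10 : (1 : K) + c₂ + c₃ ≠ 0 := by
    rw [← hn1]
    exact Algebra.norm_ne_zero_iff.mpr h10
  have hn20 : (1 : K) + c₂ + -c₃ ≠ 0 := by
    rw [← hn2]
    exact Algebra.norm_ne_zero_iff.mpr h20
  obtain ⟨κ₁, hκ₁⟩ : ∃ κ₁ : E, κ₁ = (1 + Z) * (1 + -Z)⁻¹ := ⟨_, rfl⟩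
  obtain ⟨ν, hν⟩ : ∃ ν : K, ν = (1 + c₂ + -c₃) * (1 + c₂ + c₃)⁻¹ := ⟨_, rfl⟩
  have hν0 : ν ≠ 0 := by rw [hν]; exact mul_ne_zero hn20 (inv_ne_zero hn10)
  have hκ₁0 : κ₁ ≠ 0 := by rw [hκ₁]; exact mul_ne_zero h10 (inv_ne_zero h20)
  obtain ⟨κ₀, hκ₀⟩ : ∃ κ₀ : E, κ₀ = κ₁ ^ 3 * algebraMap K E ν := ⟨_, rfl⟩
  have hκ₀0 : κ₀ ≠ 0 := by
    rw [hκ₀]
    exact mul_ne_zero (pow_ne_zero 3 hκ₁0) ((_root_.map_ne_zero _).mpr hν0)
  have hjZ : jE Z = Y := by
    rw [hZ, map_mul, jE.commutes, hG, hY, hσ, map_mul, hkD, Algebra.smul_def, mul_assoc]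
  have hσ2 : σ ^ 2 = algebraMap k K (τ ^ 2 * d) := by
    rw [hσ, mul_pow, hS.sq, map_mul, map_pow]
  have hjc₂ : algebraMap K D c₂ = (τ ^ 2 * d * e₂) • (1 : D) := by
    rw [hc₂, hσ2, ← map_mul, hkD, Algebra.smul_def, mul_one]
  have hjc₃ : algebraMap K D c₃ = (τ ^ 3 * d * e₃) • algebraMap K D s := by
    have e1 : c₃ = algebraMap k K (τ ^ 3 * d * e₃) * s := by
      have : c₃ = σ ^ 2 * σ * algebraMap k K e₃ := by rw [hc₃]; ring
      rw [this, hσ2, hσ]
      simp only [map_mul, map_pow]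
      ring
    rw [e1, map_mul, hkD, Algebra.smul_def]
  have hjκ : jE κ₀ = κ := by
    rw [hκ, hκ₀, hκ₁, hν, map_mul, map_pow, map_mul, map_inv₀, map_add, map_add, map_neg, map_one,
      hjZ, jE.commutes, map_mul, map_inv₀, map_add, map_add, map_add, map_add, map_neg, map_one,
      hjc₂, hjc₃, ← sub_eq_add_neg, ← sub_eq_add_neg]
  have hsY : star Y = -Y := by
    have hss : star (algebraMap K D s) = -algebraMap K D s := star_S hS
    have h1 : star Y = τ • star (algebraMap K D s * ι g) := by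
      rw [hY]
      exact (sig hS).map_smul τ _
    rw [h1, star_mul, sym, hss, mul_neg, smul_neg, hY, sS_comm]
  -- the involution on `E`
  have hstarE : ∀ y : E, ∃ y' : E, star (jE y) = jE y' := by
    intro y
    obtain ⟨a, b, h1⟩ := (hE _).mp ⟨y, rfl⟩
    obtain ⟨y', hy'⟩ := (hE (ι a - algebraMap K D s * ι b)).mpr ⟨a, -b, by
      rw [map_neg, mul_neg, sub_eq_add_neg]⟩
    exact ⟨y', by rw [hy', h1, EF_star (hS := hS) sym]⟩
  choose τE hτE using hstarE
  let T : E →+* E :=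
    { toFun := τE
      map_one' := hinj (by rw [← hτE, map_one, star_one])
      map_mul' := fun x y => hinj (by
        rw [← hτE, mul_comm x y, map_mul, star_mul, hτE, hτE, map_mul])
      map_zero' := hinj (by rw [← hτE, map_zero, star_zero])
      map_add' := fun x y => hinj (by rw [← hτE, map_add, map_add, ← hτE, ← hτE, star_add]) }
  have hT : ∀ y, star (jE y) = jE (T y) := hτE
  have hTZ : T Z = -Z := hinj (by rw [← hT, map_neg, hjZ, hsY])
  have hTK : ∀ c : K, T (algebraMap K E c) = algebraMap K E (star c) := by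
    intro c
    apply hinj
    rw [← hT, jE.commutes, jE.commutes]
    exact star_algK hS c
  have hsc₂ : star c₂ = c₂ := by
    rw [hc₂, hσ2, ← map_mul, star_algebraMap hS]
  have hsc₃ : star c₃ = -c₃ := by
    rw [hc₃, star_mul, star_pow, hσs, star_algebraMap hS]
    ring
  have hTκ₁ : T κ₁ * κ₁ = 1 := by
    rw [hκ₁, map_mul, map_inv₀, map_add, map_add, map_neg, hTZ, map_one, neg_neg]
    field_simp
  have hTκ : T κ₀ * κ₀ = 1 := by
    rw [hκ₀, map_mul, map_pow, hTK]
    have h1 : algebraMap K E (star ν) * algebraMap K E ν = 1 := by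
      rw [← map_mul, hν, star_mul, star_inv₀, star_add, star_add, star_add, star_add, star_neg,
        star_one, hsc₂, hsc₃, neg_neg]
      have : (1 + c₂ + -c₃)⁻¹ * (1 + c₂ + c₃) * ((1 + c₂ + -c₃) * (1 + c₂ + c₃)⁻¹) = 1 := by
        field_simp
      rw [this, map_one]
    calc T κ₁ ^ 3 * algebraMap K E (star ν) * (κ₁ ^ 3 * algebraMap K E ν)
        = (T κ₁ * κ₁) ^ 3 * (algebraMap K E (star ν) * algebraMap K E ν) := by ring
      _ = 1 := by rw [hTκ₁, h1]; ring
  have hnorm : Algebra.norm K κ₀ = 1 := by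
    have hi : Algebra.norm K (1 + -Z)⁻¹ = (1 + c₂ + -c₃)⁻¹ := by
      rw [← hn2]
      exact eq_inv_of_mul_eq_one_left (by rw [← map_mul, inv_mul_cancel₀ h20, map_one])
    rw [hκ₀, map_mul, map_pow, Algebra.norm_algebraMap, hEr, hκ₁, map_mul, hi, hn1, hν]
    field_simp
  refine ⟨?_, ?_, ?_, ?_⟩
  · rw [← hjκ, hT, ← map_mul, mul_comm, hTκ, map_one]
  · have h1 := nrd_cubic hS hdeg hEr jE κ₀
    rwa [hnorm, one_pow, hjκ] at h1
  · intro y hy
    have h1 : κ ∈ EF hS ι := by rw [← hjκ]; exact (hE _).mp ⟨_, rfl⟩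
    exact EF_comm_of hy h1
  · intro m hm hsum
    have hsumE : ∑ l ∈ Finset.range (12 * m), κ₀ ^ l ≠ 0 := by
      intro h0
      apply hsum
      rw [← hjκ, ← map_zero jE, ← h0, map_sum]
      simp only [map_pow]
    obtain ⟨c, hc⟩ : ∃ c : F, κ ^ (2 * m) + star (κ ^ (2 * m)) = ι c := by
      refine EF_sym (hS := hS) sym ?_ (by rw [star_add, star_star, add_comm])
      rw [← hjκ, ← map_pow, hT, ← map_add]
      exact (hE _).mp ⟨_, rfl⟩
    have hck : ∀ x : k, algebraMap k F x ≠ c := by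
      intro x hx
      obtain ⟨y, hy⟩ : ∃ y : E, y = κ₀ ^ (2 * m) := ⟨_, rfl⟩
      have hTy : T y * y = 1 := by
        rw [hy, map_pow, ← mul_pow, hTκ, one_pow]
      have hyc : y + T y = algebraMap K E (algebraMap k K x) := by
        apply hinj
        rw [map_add, ← hT, hy, map_pow, hjκ, hc, ← hx, AlgHom.commutes, jE.commutes, hkD]
      have hy2 : algebraMap K E 1 + algebraMap K E (-algebraMap k K x) * y +
          algebraMap K E 1 * y ^ 2 = 0 := by
        rw [map_neg, ← hyc, map_one]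
        linear_combination -hTy
      have hyK : ∃ w : K, algebraMap K E w = y := by
        by_contra hcon
        push Not at hcon
        exact one_ne_zero (cub_indep hEr hcon hy2).1
      obtain ⟨w, hw⟩ := hyK
      have hw3 : w ^ 3 = 1 := by
        have h1 : Algebra.norm K y = 1 := by rw [hy, map_pow, hnorm, one_pow]
        rw [← hw, Algebra.norm_algebraMap, hEr] at h1
        exact h1
      have hκ12 : κ₀ ^ (12 * m) = 1 := by
        have e1 : κ₀ ^ (12 * m) = y ^ 6 := by rw [hy, ← pow_mul]; ring_nf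
        have e2 : y ^ 6 = algebraMap K E ((w ^ 3) ^ 2) := by
          rw [← hw, ← map_pow]
          ring_nf
        rw [e1, e2, hw3, one_pow, map_one]
      have hκ1 : κ₀ = 1 := by
        have h1 : (∑ l ∈ Finset.range (12 * m), κ₀ ^ l) * (κ₀ - 1) = κ₀ ^ (12 * m) - 1 :=
          geom_sum_mul κ₀ (12 * m)
        rw [hκ12, sub_self] at h1
        exact sub_eq_zero.mp ((mul_eq_zero.mp h1).resolve_left hsumE)
      have h1 : (1 + Z) ^ 3 * algebraMap K E (1 + c₂ + -c₃) =
          (1 + -Z) ^ 3 * algebraMap K E (1 + c₂ + c₃) := by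
        have h2 : κ₁ ^ 3 * algebraMap K E ν = 1 := by rw [← hκ₀, hκ1]
        have e3 : algebraMap K E (1 + c₂ + c₃) ≠ 0 := (_root_.map_ne_zero _).mpr hn10
        rw [hκ₁, hν, map_mul, map_inv₀] at h2
        have h4 : (1 + Z) ^ 3 * algebraMap K E (1 + c₂ + -c₃) =
            (((1 + Z) * (1 + -Z)⁻¹) ^ 3 * (algebraMap K E (1 + c₂ + -c₃) *
              (algebraMap K E (1 + c₂ + c₃))⁻¹)) * ((1 + -Z) ^ 3 *
                algebraMap K E (1 + c₂ + c₃)) := by
          field_simp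
        rw [h4, h2, one_mul]
      have h2 : algebraMap K E (c₂ * c₃) + algebraMap K E ((1 + c₂) * (3 - c₂)) * Z +
          algebraMap K E (-3 * c₃) * Z ^ 2 = 0 := by
        simp only [map_mul, map_add, map_sub, map_neg, map_one, map_ofNat] at h1 ⊢
        have h2c : (2 : E) ≠ 0 := two_ne_zero
        apply mul_left_cancel₀ h2c
        linear_combination h1 - (2 * (1 + algebraMap K E c₂)) * hZ3
      have h4 := (cub_indep hEr hZK h2).2.2
      have hc₃0 : c₃ = 0 := by
        have : (-3 : K) ≠ 0 := by norm_num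
        exact (mul_eq_zero.mp h4).resolve_left this
      rw [hc₃0, map_zero, add_zero] at hZ3
      have h5 : Z ≠ 0 := fun h0 => hZK 0 (by rw [map_zero, h0])
      have h6 : algebraMap K E c₂ + algebraMap K E 0 * Z + algebraMap K E 1 * Z ^ 2 = 0 := by
        apply mul_left_cancel₀ h5
        rw [map_zero, map_one]
        linear_combination hZ3
      exact one_ne_zero (cub_indep hEr hZK h6).2.2
    obtain ⟨b, hb, hbc⟩ := dsc_gen h3 hg hck
    exact ⟨c, b, hc.symm, hb, hbc⟩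

end Vale.Agent.P011.Six
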