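import Vale.Agent.P011.Six.Conj

/-!
The element inducing the transposition of two conjugates.
-/

open Module Polynomial NumberField IsDedekindDomain

set_option linter.unusedSectionVars false

namespace Vale.Agent.P011.Six

open Vale.Agent.P011.Arith Vale.Agent.P011.Even Vale.Agent.P011.Two Vale.Agent.P011.One

variable {k K D : Type} [Field k] [NumberField k] [Field K] [NumberField K] [StarRing K]
  [DivisionRing D] [StarRing D] [Algebra k K] [Algebra k D] [Algebra K D] [IsScalarTower k K D]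
  {d : kˣ} {s : K} {F : Type} [Field F] [NumberField F] [Algebra k F]

/-- The twisted commutator. -/
theorem comm_conj {R : Type} [Ring R] {X Y T N w : R} (hT : X + Y = T) (hN : Y * X = N)
    (hXY : X * Y = Y * X) (hTw : T * w = w * T) (hNw : N * w = w * N) :
    (w * X - X * w) * X = Y * (w * X - X * w) := by
  have h1 : Y = T - X := by rw [← hT]; abel
  have h2 : Y * (w * X - X * w) = (T * w) * X - X * w * X - (Y * X) * w := by
    nth_rewrite 1 [mul_sub]
    rw [← mul_assoc, ← mul_assoc, h1, sub_mul T X w, sub_mul]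
  rw [h2, hN, hTw, hNw]
  have h3 : T * X - N = X * X := by
    rw [← hT, ← hN, add_mul]; abel
  have h4 : w * T * X - X * w * X - w * N = w * (T * X - N) - X * w * X := by noncomm_ring
  rw [h4, h3]
  noncomm_ring

/-- The element `q`. -/
theorem exists_q2 (hS : Setting k K D d s) (hdeg : finrank K D = 6 ^ 2) {ι : F →ₐ[k] D}
    {g a b : F} {e₁ e₂ e₃ : k} (hc : CubD k g a b e₁ e₂ e₃) {p h : D} {e : F}
    (H : WF ι p h e) (he : algebraMap k F d * e = a ^ 2 - 4 * b) (sp : star p = -p) :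
    ∃ (ι₂ : F →ₐ[k] D) (q : D) (t₀ : F), 2 * ι₂ g = ι a + algebraMap K D s * p ∧
      2 * (ι₂ a - ι g) = ι a - algebraMap K D s * p ∧
      (∀ t, star (ι₂ t) = ι₂ t) ∧ (∀ t t', ι t * ι₂ t' = ι₂ t' * ι t) ∧
      (∀ t, p * ι₂ t = ι₂ t * p) ∧ q ≠ 0 ∧ star q = -q ∧ (∀ t, q * ι₂ t = ι₂ t * q) ∧
      q * q = -ι₂ t₀ ∧ q * ι g = (ι₂ a - ι g) * q ∧
      (∀ t, ∃ n : k, ι t * ι₂ t * (algebraMap k D (Algebra.trace k F t) - ι t - ι₂ t) =
        algebraMap k D n) ∧
      (∀ t, q * ι t = (algebraMap k D (Algebra.trace k F t) - ι t - ι₂ t) * q) := by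
  have hcharD : CharZero D := charZero_of_injective_algebraMap (algebraMap k D).injective
  obtain ⟨M, _, _, _, _, _, jM, ι₁, ιM₂, ιM₃, P, hι₁, hP, hPP, hP0, h2, h3, hsum⟩ :=
    exists_tower hS hc H he
  have hinj : Function.Injective jM := jM.toRingHom.injective
  have hcM : CharZero M := charZero_of_injective_algebraMap (algebraMap k M).injective
  have hjk : ∀ c : k, jM (algebraMap k M c) = algebraMap k D c := fun c => by
    rw [IsScalarTower.algebraMap_apply k K M, jM.commutes, ← IsScalarTower.algebraMap_apply]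
  have hS0 : algebraMap K M s ≠ 0 := by
    intro h0
    have h1 := congrArg jM h0
    rw [jM.commutes, map_zero] at h1
    exact sS_ne hS h1
  have hSS : algebraMap K M s * algebraMap K M s = algebraMap k M d := by
    rw [← map_mul, ← pow_two, hS.sq, ← IsScalarTower.algebraMap_apply]
  obtain ⟨S, hSd⟩ : ∃ S, S = algebraMap K M s := ⟨_, rfl⟩
  rw [← hSd] at h2 h3 hS0 hSS
  have hjS : jM S = algebraMap K D s := by rw [hSd, jM.commutes]
  let ι₂ : F →ₐ[k] D :=
    { (jM : M →+* D).comp (ιM₂ : F →+* M) with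
      commutes' := fun c => by
        change jM (ιM₂ (algebraMap k F c)) = _
        rw [ιM₂.commutes, hjk] }
  have hι₂ : ∀ t, ι₂ t = jM (ιM₂ t) := fun _ => rfl
  have hsp : (S * P) * (S * P) = ι₁ a ^ 2 - 4 * ι₁ b := by
    have h1 := congrArg ι₁ he
    rw [map_mul, AlgHom.commutes, map_sub, map_mul, map_pow, map_ofNat] at h1
    rw [← h1, ← hSS, ← hPP]
    ring
  have c1 : algebraMap k M e₁ = ι₁ g + ι₁ a := by
    rw [hc.ha, map_sub, AlgHom.commutes]; ring
  have c2 : algebraMap k M e₂ = ι₁ g * ι₁ a + ι₁ b := by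
    rw [hc.hb, map_sub, AlgHom.commutes, map_mul]; ring
  -- the values at `a` and `b`
  have ha2 : ιM₂ a = ι₁ g + ιM₃ g := by
    rw [hc.ha, map_sub, AlgHom.commutes, c1]
    have e1 : ιM₂ g = (ι₁ a + S * P) / 2 := by rw [← h2]; field_simp
    have e2 : ιM₃ g = (ι₁ a - S * P) / 2 := by rw [← h3]; field_simp
    rw [e1, e2]; ring
  have hb2 : ιM₂ b = ι₁ g * ιM₃ g := by
    rw [hc.hb, map_sub, AlgHom.commutes, c2, map_mul, ha2]
    have e1 : ιM₂ g = (ι₁ a + S * P) / 2 := by rw [← h2]; field_simp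
    have e2 : ιM₃ g = (ι₁ a - S * P) / 2 := by rw [← h3]; field_simp
    rw [e1, e2]
    field_simp
    linear_combination hsp
  have sS : star (algebraMap K D s * p) = algebraMap K D s * p := by
    rw [star_mul, sp, star_S hS, neg_mul_neg, sS_comm]
  have sϑ : star (ι₂ g) = ι₂ g := by
    have h4 : 2 * ι₂ g = ι a + algebraMap K D s * p := by
      rw [hι₂, ← map_ofNat jM 2, ← map_mul, h2, map_add, map_mul, hι₁, hP, hjS]
    have h5 := congrArg star h4
    rw [star_add, sS, H.sym, ← h4, star_mul, star_ofNat] at h5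
    have h6 : star (ι₂ g) * 2 = 2 * star (ι₂ g) := (Commute.ofNat_right _ 2).eq
    rw [h6] at h5
    exact mul_left_cancel₀ two_ne_zero h5
  have sym₂ : ∀ t, star (ι₂ t) = ι₂ t := by
    intro t
    obtain ⟨a₀, a₁, a₂, rfl⟩ := exists_coef hc.h3 hc.hg t
    simp only [map_add, map_mul, map_pow, AlgHom.commutes, star_add, star_mul, star_pow, sϑ,
      star_alg hS, Algebra.commutes]
  have comm₁₂ : ∀ t t', ι t * ι₂ t' = ι₂ t' * ι t := by
    intro t t'
    rw [← hι₁, hι₂, ← map_mul, ← map_mul, mul_comm]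
  have hxn : ∀ t, ι₂ t ≠ ι g := by
    intro t ht
    -- conjugate by `h`
    obtain ⟨a₀, a₁, a₂, hta⟩ := exists_coef hc.h3 hc.hg t
    have e0 : (algebraMap K D s * p) * h = -(h * (algebraMap K D s * p)) := by
      rw [mul_assoc, H.wh, mul_neg, ← mul_assoc, ← mul_assoc, sS_comm]
    have e1 : ι₂ g * h = h * jM (ιM₃ g) := by
      have h4 : 2 * ι₂ g = ι a + algebraMap K D s * p := by
        rw [hι₂, ← map_ofNat jM 2, ← map_mul, h2, map_add, map_mul, hι₁, hP, hjS]
      have h5 : 2 * jM (ιM₃ g) = ι a - algebraMap K D s * p := by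
        rw [← map_ofNat jM 2, ← map_mul, h3, map_sub, map_mul, hι₁, hP, hjS]
      apply mul_left_cancel₀ (two_ne_zero (α := D))
      rw [← mul_assoc, h4, add_mul, H.ch, e0]
      have h6 : (2 : D) * (h * jM (ιM₃ g)) = h * (2 * jM (ιM₃ g)) := by
        rw [← mul_assoc, ← mul_assoc]
        congr 1
        exact (Commute.ofNat_left 2 h).eq
      rw [h6, h5, mul_sub, sub_eq_add_neg]
    have e2 : ι₂ t * h = h * jM (ιM₃ t) := by
      have h7 : ι₂ g ^ 2 * h = h * jM (ιM₃ g) ^ 2 := by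
        rw [pow_two, mul_assoc, e1, ← mul_assoc, e1, mul_assoc, pow_two]
      rw [hta]
      simp only [map_add, map_mul, map_pow, AlgHom.commutes, hjk]
      simp only [add_mul, mul_add, mul_assoc, e1, h7]
      rw [← mul_assoc h (algebraMap k D a₁), ← mul_assoc h (algebraMap k D a₂),
        ← Algebra.commutes a₀ h, ← Algebra.commutes a₁ h, ← Algebra.commutes a₂ h, mul_assoc,
        mul_assoc]
    rw [ht, H.ch] at e2
    have e3 : ι g = jM (ιM₃ t) := mul_left_cancel₀ H.h0 e2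
    have e4 : ιM₂ t = ι₁ g := hinj (by rw [← hι₂, ht, hι₁])
    have e5 : ιM₃ t = ι₁ g := hinj (by rw [← e3, hι₁])
    have e6 : (ιM₂ g - ιM₃ g) * (algebraMap k M a₁ + algebraMap k M a₂ * ι₁ a) = 0 := by
      have h8 : ιM₂ t - ιM₃ t = 0 := by rw [e4, e5, sub_self]
      rw [hta] at h8
      simp only [map_add, map_mul, map_pow, AlgHom.commutes] at h8
      have h9 : ιM₂ g + ιM₃ g = ι₁ a := by
        have : 2 * (ιM₂ g + ιM₃ g) = 2 * ι₁ a := by rw [mul_add, h2, h3]; ring
        exact mul_left_cancel₀ two_ne_zero this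
      rw [← h9]
      linear_combination h8
    have e7 : ιM₂ g - ιM₃ g ≠ 0 := by
      intro h0
      have : 2 * (S * P) = 2 * (ιM₂ g - ιM₃ g) := by rw [mul_sub, h2, h3]; ring
      rw [h0, mul_zero] at this
      exact mul_ne_zero hS0 hP0 ((mul_eq_zero.mp this).resolve_left two_ne_zero)
    have e8 := (mul_eq_zero.mp e6).resolve_left e7
    rw [← ι₁.commutes, ← ι₁.commutes, ← map_mul, ← map_add, map_eq_zero, hc.ha] at e8
    have e9 : algebraMap k F (a₁ + a₂ * e₁) + algebraMap k F (-a₂) * g +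
        algebraMap k F 0 * g ^ 2 = 0 := by
      rw [← e8]
      simp only [map_add, map_mul, map_neg, map_zero]
      ring
    obtain ⟨f1, f2, -⟩ := cub_indep hc.h3 hc.hg e9
    rw [neg_eq_zero] at f2
    rw [f2, zero_mul, add_zero] at f1
    rw [f1, f2, map_zero, zero_mul, zero_mul, add_zero, add_zero] at hta
    rw [hta, AlgHom.commutes] at e4
    rw [← ι₁.commutes] at e4
    exact hc.hg a₀ (ι₁.toRingHom.injective e4)
  obtain ⟨w, hw, hwι, hwx⟩ := exists_sym_noncomm hS hdeg hc.h3 ι₂ sym₂ (x := ι g) (H.sym g)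
    (fun t => (comm₁₂ g t).symm) hxn
  obtain ⟨q, hq⟩ : ∃ q, q = w * ι g - ι g * w := ⟨_, rfl⟩
  have hq0 : q ≠ 0 := by rw [hq]; exact sub_ne_zero.mpr hwx
  have hsq : star q = -q := by
    rw [hq, star_sub, star_mul, star_mul, hw, H.sym, neg_sub]
  have hqι : ∀ t, q * ι₂ t = ι₂ t * q := by
    intro t
    rw [hq, sub_mul, mul_sub, mul_assoc w, comm₁₂, ← mul_assoc w, ← hwι, mul_assoc (ι g),
      ← hwι, ← mul_assoc (ι g), comm₁₂, mul_assoc, mul_assoc]
  have eY : jM (ιM₃ g) = ι₂ a - ι g := by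
    rw [hι₂, ha2, map_add, hι₁]; abel
  have hqX : q * ι g = (ι₂ a - ι g) * q := by
    rw [hq]
    refine comm_conj (T := ι₂ a) (N := ι₂ b) (by abel) ?_ ?_ (hwι a) (hwι b)
    · rw [← eY, hι₂, hb2, map_mul, hι₁, ← hι₁ g, ← map_mul, ← map_mul, mul_comm]
    · rw [← eY, ← hι₁ g, ← map_mul, ← map_mul, mul_comm]
  have hqY : q * (ι₂ a - ι g) = ι g * q := by
    rw [mul_sub, hqι, hqX]
    noncomm_ring
  -- the square of `q`
  obtain ⟨W, hW⟩ : ∃ W : D, W = ι g - (ι₂ a - ι g) := ⟨_, rfl⟩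
  have hWc : ∀ t, ι₂ t * W = W * ι₂ t := by
    intro t
    rw [hW, ← eY, ← hι₁ g, hι₂, ← map_sub, ← map_mul, ← map_mul, mul_comm]
  have hWq : W * q = -(q * W) := by
    rw [hW, mul_sub, sub_mul, hqX, hqY]
    abel
  have hWW : W * W = ι₂ (a ^ 2 - 4 * b) := by
    rw [hW, ← eY, ← hι₁ g, hι₂, ← map_sub, ← map_mul]
    congr 1
    rw [map_sub, map_mul, map_pow, map_ofNat, ha2, hb2]
    ring
  have hW0 : W ≠ 0 := by
    intro h0
    apply hxn (a * algebraMap k F (2 : k)⁻¹)
    have h4 : ι₂ a = 2 * ι g := by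
      have : ι₂ a - 2 * ι g = -W := by rw [hW]; noncomm_ring
      rw [h0, neg_zero, sub_eq_zero] at this
      exact this
    rw [map_mul, h4, AlgHom.commutes, ← Algebra.commutes, ← mul_assoc, map_inv₀, map_ofNat,
      inv_mul_cancel₀ two_ne_zero, one_mul]
  have H2 : WF ι₂ W q (a ^ 2 - 4 * b) := ⟨sym₂, hWc, fun t => (hqι t).symm, hWW, hWq, hW0, hq0⟩
  have hmem := mem_MF_of_comm hS hdeg hc.h3 H2 (y := q * q)
    (fun t => by rw [← mul_assoc, ← hqι, mul_assoc, ← hqι, mul_assoc])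
    (by rw [← mul_assoc, hWq, neg_mul, mul_assoc, hWq, mul_neg, neg_neg, mul_assoc])
  obtain ⟨x, hx, x', hx', hqq⟩ := hmem
  have hxq := EF_comm_of (hS := hS) (h := q) (fun t => (hqι t).symm) hx
  have hxq' := EF_comm_of (hS := hS) (h := q) (fun t => (hqι t).symm) hx'
  have hx0 : W * x' = 0 := by
    have h4 : (x - W * x') * q = (x + W * x') * q := by
      have h5 : q * (x + W * x') = (x + W * x') * q := by rw [← hqq, mul_assoc]
      rw [← h5, mul_add, ← mul_assoc q W]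
      have h6 : q * W = -(W * q) := by rw [hWq, neg_neg]
      rw [h6, neg_mul, mul_assoc W q, ← hxq', sub_mul, hxq, mul_assoc W x', sub_eq_add_neg]
    have h5 := mul_right_cancel₀ hq0 h4
    have h6 : (2 : D) * (W * x') = (x + W * x') - (x - W * x') := by noncomm_ring
    rw [h5, sub_self] at h6
    exact (mul_eq_zero.mp h6).resolve_left two_ne_zero
  rw [hx0, add_zero] at hqq
  obtain ⟨B, hB⟩ := EF_sym (hS := hS) sym₂ hx (by
    rw [← hqq, star_mul, hsq, neg_mul_neg])
  have hι₃ : ∀ t, algebraMap k D (Algebra.trace k F t) - ι t - ι₂ t = jM (ιM₃ t) := by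
    intro t
    rw [← hjk, ← hsum, map_add, map_add, hι₁, hι₂]
    abel
  refine ⟨ι₂, q, -B, ?_, ?_, sym₂, comm₁₂, ?_, hq0, hsq, hqι, ?_, hqX, ?_, ?_⟩
  · rw [hι₂, ← map_ofNat jM 2, ← map_mul, h2, map_add, map_mul, hι₁, hP, hjS]
  · rw [← eY, ← map_ofNat jM 2, ← map_mul, h3, map_sub, map_mul, hι₁, hP, hjS]
  · intro t
    rw [← hP, hι₂, ← map_mul, ← map_mul, mul_comm]
  · rw [map_neg, neg_neg, hqq, hB]
  · intro t
    refine ⟨(Algebra.trace k F t ^ 3 - 3 * (Algebra.trace k F t * Algebra.trace k F (t ^ 2)) +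
      2 * Algebra.trace k F (t ^ 3)) / 6, ?_⟩
    rw [hι₃, ← hι₁, hι₂, ← map_mul, ← map_mul, ← hjk]
    congr 1
    rw [map_div₀, map_add, map_sub, map_mul, map_mul, map_mul, map_pow, ← hsum, ← hsum, ← hsum]
    simp only [map_pow, map_ofNat]
    field_simp
    ring
  · intro t
    rw [hι₃]
    have e1 : q * ι g ^ 2 = jM (ιM₃ g) ^ 2 * q := by
      rw [pow_two, ← mul_assoc, hqX, mul_assoc, hqX, ← mul_assoc, ← eY, pow_two]
    obtain ⟨a₀, a₁, a₂, rfl⟩ := exists_coef hc.h3 hc.hg t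
    simp only [map_add, map_mul, map_pow, AlgHom.commutes, hjk]
    simp only [add_mul, mul_add, mul_assoc]
    rw [← Algebra.commutes a₀ q, ← mul_assoc q (algebraMap k D a₁), ← Algebra.commutes a₁ q,
      mul_assoc (algebraMap k D a₁) q, hqX, ← eY, ← mul_assoc q (algebraMap k D a₂),
      ← Algebra.commutes a₂ q, mul_assoc (algebraMap k D a₂) q, e1]

end Vale.Agent.P011.Six
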