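import Vale.Agent.P011.One.CloseNear

/-!
Elements of given norm close to one, in a division algebra.
-/

open Module Polynomial NumberField IsDedekindDomain

set_option linter.unusedSectionVars false

namespace Vale.Agent.P011.Six

open Vale.Agent.P011.Arith Vale.Agent.P011.Even Vale.Agent.P011.Two Vale.Agent.P011.One

variable {k D : Type} [Field k] [NumberField k] [DivisionRing D] [Algebra k D] {M : ℕ}

/-- Elements of norm `c` close to one, if `c` is close to one. -/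
theorem q_near (B : Module.Basis (Fin M) k D) (α : kˣ) (i : D)
    (Tk : Finset (HeightOneSpectrum (𝓞 k))) {ε : ℝ} (hε : 0 < ε) :
    ∃ δ : ℝ, 0 < δ ∧ ∀ (F : Type) [Field F] [NumberField F] [Algebra k F] (ι : F →ₐ[k] D)
      (c : Fˣ), c ∈ NF (inc k F α) → (∀ v ∈ Tk, nm B (.inl v) (ι c - 1) < δ) →
      ∃ P Q : F, P ^ 2 - (inc k F α : F) * Q ^ 2 = c ∧ ∀ v ∈ Tk,
        nm B (.inl v) (ι P - 1) < ε ∧ nm B (.inl v) (ι P + ι Q * i - 1) < ε := by
  classical
  rcases Tk.eq_empty_or_nonempty with rfl | ⟨v₀, hv₀⟩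
  · refine ⟨1, one_pos, fun F _ _ _ ι c hc _ => ?_⟩
    obtain ⟨P, Q, h⟩ := hc
    exact ⟨P, Q, h.symm, fun v hv => absurd hv (Finset.notMem_empty v)⟩
  choose δ₆ hδ₆ H6 using fun v : HeightOneSpectrum (𝓞 k) => val_of_small B v 2 two_ne_zero
  choose δ₅ hδ₅ H5 using fun v : HeightOneSpectrum (𝓞 k) => val_of_small B v 4 (by norm_num)
  choose δ₄ hδ₄ H4 using fun v : HeightOneSpectrum (𝓞 k) =>
    gs_bound B (.inl v : Pl k) (ε := min (ε / 3) (δ₆ v)) (lt_min (by positivity) (hδ₆ v))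
  obtain ⟨δ₀, hδ₀, hle⟩ := exists_le_all Tk (fun v => min (δ₄ v) (δ₅ v))
    (fun v => lt_min (hδ₄ v) (hδ₅ v))
  refine ⟨δ₀, hδ₀, fun F _ _ _ ι c hc hcn => ?_⟩
  have hc4 : ∀ v ∈ Tk, nm B (.inl v) (ι c - 1) < δ₄ v := fun v hv =>
    (hcn v hv).trans_le ((hle v hv).trans (min_le_left _ _))
  have hc5 : ∀ v ∈ Tk, nm B (.inl v) (ι c - 1) < δ₅ v := fun v hv =>
    (hcn v hv).trans_le ((hle v hv).trans (min_le_right _ _))
  obtain ⟨T, hT⟩ := above_finset (F := F) Tk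
  have hbl : ∀ ω : HeightOneSpectrum (𝓞 F), ∃ v : HeightOneSpectrum (𝓞 k), Ab ω v :=
    fun ω => Arith.exists_below ω
  choose bl hbl using hbl
  have hTb : ∀ ω ∈ T, bl ω ∈ Tk := by
    intro ω hω
    obtain ⟨v, hv, hab⟩ := (hT ω).mp hω
    rwa [One.below_unique (hbl ω) hab]
  have hTne : T.Nonempty := by
    obtain ⟨w, hw⟩ := Arith.exists_above (E := F) v₀
    exact ⟨w, (hT w).mpr ⟨v₀, hv₀, hw⟩⟩
  -- the norm constants
  choose C hC hCm using fun v : HeightOneSpectrum (𝓞 k) => nm_mul B (.inl v : Pl k)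
  have hη : ∀ v : HeightOneSpectrum (𝓞 k), ∃ η : kˣ, ∀ f : F,
      (∀ ω : HeightOneSpectrum (𝓞 F), Ab ω v →
        ω.valuation F f < ω.valuation F (algebraMap k F η)) → nm B (.inl v) (ι f) <
          min (ε / 3) (ε / (3 * (C v * nm B (.inl v) i + 1))) := by
    intro v
    have h2 := hC v
    have h3 := nm_nonneg B (.inl v) i
    exact small_of_val B ι v (by positivity)
  choose η hη using hη
  obtain ⟨g, P, Q, hPg, hPQ, hPB, hPT⟩ := norm_near2 (inc k F α) c hc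
    T T (Finset.Subset.refl T) hTne 1 one_pos (by
      intro ω hω
      have h1 := H5 _ F ι ω (hbl ω) ((c : F) - 1) (by
        rw [map_sub, map_one]
        exact hc5 _ (hTb ω hω))
      rw [← Valuation.map_sub_swap] at h1
      rw [map_ofNat] at h1
      rwa [Nat.cast_one, one_pow, mul_one])
    (fun g => ∀ v ∈ Tk, nm B (.inl v) (ι g - 1) < min (ε / 3) (δ₆ v)) (by
      intro β₀ hβ₀
      have hb : ∀ v : HeightOneSpectrum (𝓞 k), ∃ b : k, b ≠ 0 ∧ ∀ ω ∈ T, Ab ω v →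
          ω.valuation F (algebraMap k F b) < β₀ ω := fun v => exists_small_elt v T β₀ hβ₀
      choose b hb0 hb using hb
      choose δ₇ hδ₇ H7 using fun v : HeightOneSpectrum (𝓞 k) => val_of_small B v (b v) (hb0 v)
      have hm : ∀ v : HeightOneSpectrum (𝓞 k), ∃ m : ℕ, (1 / 2 : ℝ) ^ m * δ₄ v < δ₇ v := by
        intro v
        obtain ⟨m, hm⟩ := exists_pow_lt_of_lt_one (div_pos (hδ₇ v) (hδ₄ v))
          (show (1 / 2 : ℝ) < 1 by norm_num)
        exact ⟨m, by rwa [lt_div_iff₀ (hδ₄ v)] at hm⟩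
      choose m hm using hm
      have hg : ι (gs k (c : F) (Tk.sup m)) = gs k (ι c) (Tk.sup m) := gs_map ι _ _
      refine ⟨gs k (c : F) (Tk.sup m), fun v hv => ?_, fun ω hω => ⟨?_, ?_⟩⟩
      · rw [hg]
        exact (H4 v _ (hc4 v hv) _).1
      · have h1 := H6 _ F ι ω (hbl ω) (gs k (c : F) (Tk.sup m) - 1) (by
          rw [map_sub, map_one, hg]
          exact (H4 _ _ (hc4 _ (hTb ω hω)) _).1.trans_le (min_le_right _ _))
        rwa [map_ofNat] at h1
      · have h2 : nm B (.inl (bl ω)) (ι (gs k (c : F) (Tk.sup m) ^ 2 - c)) < δ₇ (bl ω) := by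
          rw [map_sub, map_pow, hg]
          refine ((H4 _ _ (hc4 _ (hTb ω hω)) _).2).trans_lt (lt_of_le_of_lt ?_ (hm (bl ω)))
          exact mul_le_mul_of_nonneg_right (pow_le_pow_of_le_one (by norm_num) (by norm_num)
            (Finset.le_sup (hTb ω hω))) (hδ₄ _).le
        have h1 := H7 _ F ι ω (hbl ω) _ h2
        rw [Valuation.map_sub_swap]
        exact h1.trans (hb _ ω hω (hbl ω)))
    (fun ω => ω.valuation F (algebraMap k F (η (bl ω))))
    (fun ω => (Valuation.ne_zero_iff _).mpr ((_root_.map_ne_zero _).mpr (Units.ne_zero _)))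
  refine ⟨P, Q, hPQ, fun v hv => ?_⟩
  have hsp : ∀ ω : HeightOneSpectrum (𝓞 F), Ab ω v → ω ∈ T ∧ bl ω = v := fun ω hω =>
    ⟨(hT ω).mpr ⟨v, hv, hω⟩, One.below_unique (hbl ω) hω⟩
  have b1 := hη v (P - g) fun ω hω => by
    obtain ⟨h1, h2⟩ := hsp ω hω
    have := (hPT ω h1).1
    rwa [h2] at this
  have b2 := hη v Q fun ω hω => by
    obtain ⟨h1, h2⟩ := hsp ω hω
    have := (hPT ω h1).2
    rwa [h2] at this
  have b3 := (hPg v hv).trans_le (min_le_left _ _)
  obtain ⟨Z, hZ⟩ : ∃ Z : ℝ, Z = nm B (.inl v) i := ⟨_, rfl⟩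
  have hZ0 : 0 ≤ Z := hZ ▸ nm_nonneg B _ _
  rw [← hZ] at b2
  have b4 := hCm v (ι Q) i
  rw [← hZ] at b4
  have hCv := hC v
  have b5 : C v * nm B (.inl v) (ι Q) * Z ≤ ε / 3 := by
    have h1 := b2.trans_le (min_le_right _ _)
    rw [lt_div_iff₀ (by positivity)] at h1
    have h2 := nm_nonneg B (.inl v) (ι Q)
    nlinarith
  have b8 := b1.trans_le (min_le_left _ _)
  constructor
  · have e1 : ι P - 1 = (ι g - 1) + ι (P - g) := by
      rw [map_sub]
      abel
    rw [e1]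
    have b6 := nm_add_le B (.inl v) (ι g - 1) (ι (P - g))
    linarith
  · have e1 : ι P + ι Q * i - 1 = (ι g - 1) + (ι (P - g) + ι Q * i) := by
      rw [map_sub]
      abel
    rw [e1]
    have b6 := nm_add_le B (.inl v) (ι g - 1) (ι (P - g) + ι Q * i)
    have b7 := nm_add_le B (.inl v) (ι (P - g)) (ι Q * i)
    linarith

end Vale.Agent.P011.Six
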