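import Vale.Agent.P011.Six.DivG
import Vale.Agent.P011.Six.QSix
import Vale.Agent.P011.Six.EichC
import Vale.Agent.P011.Six.H359.Glue
import Vale.Agent.P011.One.QEquiv

/-!
The conjecture in degree six, in its original form.
-/

open Module NumberField IsDedekindDomain TensorProduct Topology

set_option linter.unusedSectionVars false

namespace Vale.Agent.P011.Six

open Vale.Agent.P011.Arith Vale.Agent.P011.Even Vale.Agent.P011.Two Vale.Agent.P011.One
open Vale.Agent.P011.Six.H359 (Fr th)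

variable {k K D : Type} [Field k] [NumberField k] [Field K] [NumberField K] [StarRing K]
  [DivisionRing D] [StarRing D] [Algebra k K] [Algebra k D] [Algebra K D] [IsScalarTower k K D]
  {d : kˣ} {s : K} {α β : kˣ} {i j : D} {Ω : Type} [Field Ω] [Algebra K Ω]

/-- Degree six: the normal subgroups of finite index contain the elements close to one. -/
theorem pf_six_ne (hS : Setting k K D d s) (hdeg : finrank K D = 6 ^ 2) (hb : Base k α β i j)
    (hT : ∀ v ∈ Adiv k K D, Nat.card (𝓞 k ⧸ v.asIdeal) % 3 ≠ 1)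
    (f : D →ₐ[K] Matrix (Fin 6) (Fin 6) Ω) {M : ℕ} (B : Basis (Fin M) k D)
    (N : Subgroup (SUD f)) [N.Normal] (hN : N.index ≠ 0) :
    ∃ S : Set (Pl k), S.Finite ∧ PF B (GU f) (Im N) S :=
  H359.pf_six_of_exNu hS hdeg f B hb.fr
    (fun _ hSf η hη _ he => exNu_ne hS hdeg hb.fr (fun v _ hv => hT v (adiv_iff.mpr hv)) f B hSf
      η hη he) N hN

/-- Every subgroup of finite index is open. -/
theorem open_six_ne (hS : Setting k K D d s) (hdeg : finrank K D = 6 ^ 2) (hb : Base k α β i j)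
    (hT : ∀ v ∈ Adiv k K D, Nat.card (𝓞 k ⧸ v.asIdeal) % 3 ≠ 1)
    (f : D →ₐ[K] Matrix (Fin 6) (Fin 6) Ω) (H : Subgroup (SUD f)) (hi : H.index ≠ 0) :
    IsOpen[adicTop (Adiv k K D) (SUD f)] (H : Set (SUD f)) := by
  have hfin := hS.fin
  have hKf : FiniteDimensional k K := Module.finite_of_finrank_pos (by rw [hS.rank]; norm_num)
  have hDf : FiniteDimensional k D := Module.Finite.trans K D
  have : H.FiniteIndex := ⟨hi⟩
  have hi' : H.normalCore.index ≠ 0 := Subgroup.FiniteIndex.index_ne_zero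
  obtain ⟨S, hSf, h⟩ := pf_six_ne hS hdeg hb hT f (finBasis k D) H.normalCore hi'
  refine isOpen_of_pf hS (by norm_num) hdeg f (finBasis k D) H hi'
    (fun g => H.normalCore_le (Subgroup.pow_index_mem _ g)) hSf (h.mono ?_)
  rintro _ ⟨g, hg, rfl⟩
  exact ⟨g, H.normalCore_le hg, rfl⟩

/-- **The conjecture in degree six.** -/
theorem q1_six_ne (hS : Setting k K D d s) (h : ∀ c : k, star (algebraMap k D c) = algebraMap k D c)
    (hdeg : finrank K D = 6 ^ 2) (hb : Base k α β i j)
    (hT : ∀ v ∈ Adiv k K D, Nat.card (𝓞 k ⧸ v.asIdeal) % 3 ≠ 1)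
    (f : D →ₐ[K] Matrix (Fin 6) (Fin 6) Ω) :
    ∃ δ : SUD f →* HA D 6 (Adiv k K D), IsDiagonal δ ∧ DenseRange δ ∧
      ∀ N : Subgroup (SUD f), N.index ≠ 0 → IsOpenPreimage δ N := by
  have := hS.fin
  have := hS.cen
  have hKf : FiniteDimensional k K := Module.finite_of_finrank_pos (by rw [hS.rank]; norm_num)
  have hDf : FiniteDimensional k D := Module.Finite.trans K D
  obtain ⟨δ, h1, h2, h3⟩ := q1_std hS (finBasis k D) h hdeg f (Adiv k K D)
    (dense_of hS (by norm_num) hdeg (en_six hS hdeg hb) f (finBasis k D) h)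
  exact ⟨δ, h1, h2, fun N hN => h3 N hN (open_six_ne hS hdeg hb hT f N hN)⟩

end Vale.Agent.P011.Six
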