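import Vale.Agent.P011.Six.Frame
import Vale.Agent.P011.One.Quat

/-!
The first factor: identities.
-/

open Module Polynomial NumberField IsDedekindDomain

set_option linter.unusedSectionVars false

namespace Vale.Agent.P011.Six

open Vale.Agent.P011.Arith Vale.Agent.P011.Even Vale.Agent.P011.Two Vale.Agent.P011.One

variable {k K D : Type} [Field k] [NumberField k] [Field K] [NumberField K] [StarRing K]
  [DivisionRing D] [StarRing D] [Algebra k K] [Algebra k D] [Algebra K D] [IsScalarTower k K D]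
  {d : kˣ} {s : K}

/-- The elements `u` and `j₁ = u j`. -/
theorem exists_u (hS : Setting k K D d s) {α β : kˣ} {i j : D} (hb : Base k α β i j) {x : D}
    (hu : star x * x = 1) {F : Type} [Field F] [NumberField F]
    [Algebra k F] {ι : F →ₐ[k] D} {A A' : F} (H : WF ι i (j⁻¹ * x) (algebraMap k F α))
    (hθ : j * x * j⁻¹ * x = ι A + algebraMap K D s * ι A')
    (hθs : star (j * x * j⁻¹ * x) = ι A - algebraMap K D s * ι A')
    (b : Fˣ) (hb2 : (b : F) = 2 + 2 * A) {P Q : F}
    (hPQ : P ^ 2 - algebraMap k F α * Q ^ 2 = 4 / b) :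
    ∃ u : D, 2 * u = (ι P + ι Q * i) * (star x + j * x * j⁻¹) ∧ i * u = u * i ∧
      u * star u = 1 ∧ j * u = star u * j ∧ QFr ι (inc k F α) (inc k F β) i (u * j) ∧
      2 * (u * x) = (ι P + ι Q * i) * (1 + j * x * j⁻¹ * x) := by
  have hcharD : CharZero D := charZero_of_injective_algebraMap (algebraMap k D).injective
  have h20 : (2 : D) ≠ 0 := two_ne_zero
  have hx0 : x ≠ 0 := right_ne_zero_of_mul_eq_one hu
  have hxs : star x = x⁻¹ := eq_inv_of_mul_eq_one_left hu
  have hi0 := hb.i0
  have hj0 := hb.j0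
  have hβc : ∀ y : D, algebraMap k D β * y = y * algebraMap k D β := fun y => Algebra.commutes _ _
  have hβ0 : algebraMap k D β ≠ 0 := by
    rw [Ne, map_eq_zero]
    exact β.ne_zero
  have hβs : star (algebraMap k D β) = algebraMap k D β := Even.star_alg hS _
  obtain ⟨z, hz⟩ : ∃ z : D, z = j⁻¹ * x := ⟨_, rfl⟩
  obtain ⟨θ, hθd⟩ : ∃ θ : D, θ = j * x * j⁻¹ * x := ⟨_, rfl⟩
  have hz0 : z ≠ 0 := by rw [hz]; exact mul_ne_zero (inv_ne_zero hj0) hx0
  have hxz : x = j * z := by rw [hz, mul_inv_cancel_left₀ hj0]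
  rw [← hz] at H
  rw [← hθd] at hθ hθs
  have hβj : ∀ y, j * (j * y) = algebraMap k D β * y := by
    intro y
    rw [← mul_assoc, hb.jj]
  have hβj' : ∀ y, j * (algebraMap k D β * y) = algebraMap k D β * (j * y) := by
    intro y
    rw [← mul_assoc, ← hβc, mul_assoc]
  have hjb : j⁻¹ = algebraMap k D (β⁻¹ : kˣ) * j := by
    rw [inv_eq_iff_eq_inv, ← mul_right_inj' hj0, mul_inv_rev, ← mul_assoc, mul_inv_cancel₀ hj0,
      one_mul, hb.jj, ← map_inv₀]
    congr 1
    rw [Units.val_inv_eq_inv_val, inv_inv]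
  have hzs : star z = -(z⁻¹ * (algebraMap k D β)⁻¹) := by
    have h1 : star (j⁻¹) = -j⁻¹ := by rw [star_inv₀, hb.sj, inv_neg]
    rw [hz, star_mul, h1, hxs, mul_inv_rev, inv_inv, mul_neg, mul_assoc]
    congr 2
    rw [eq_mul_inv_iff_mul_eq₀ hβ0, ← hb.jj, ← mul_assoc, inv_mul_cancel₀ hj0, one_mul]
  -- v
  obtain ⟨v, hv⟩ : ∃ v : D, v = z⁻¹ + algebraMap k D β * z := ⟨_, rfl⟩
  have hvs : star v = -v := by
    have h1 : star z⁻¹ = -(algebraMap k D β * z) := by
      rw [star_inv₀, hzs, inv_neg, mul_inv_rev, inv_inv, inv_inv]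
    have h2 : star (algebraMap k D β * z) = -z⁻¹ := by
      rw [star_mul, hβs, hzs, neg_mul, mul_assoc, inv_mul_cancel₀ hβ0, mul_one]
    rw [hv, star_add, h1, h2]
    abel
  have hw : star x + j * x * j⁻¹ = v * j⁻¹ := by
    rw [hv, add_mul, hxs, hxz, mul_inv_rev, hβj]
  have hiz : i * z⁻¹ = -(z⁻¹ * i) := by
    have h1 : z * (i * z⁻¹) = -i := by
      have h2 : z * i = -(i * z) := by rw [H.wh, neg_neg]
      rw [← mul_assoc, h2, neg_mul, mul_assoc, mul_inv_cancel₀ hz0, mul_one]
    have h2 : z * -(z⁻¹ * i) = -i := by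
      rw [mul_neg, ← mul_assoc, mul_inv_cancel₀ hz0, one_mul]
    exact mul_left_cancel₀ hz0 (h1.trans h2.symm)
  have hiv : i * v = -(v * i) := by
    rw [hv, mul_add, hiz, ← mul_assoc i, ← hβc i, mul_assoc _ i, H.wh]
    noncomm_ring
  have hιv : ∀ t, ι t * v = v * ι t := by
    intro t
    have h1 : ι t * z⁻¹ = z⁻¹ * ι t :=
      ((show Commute z (ι t) from (H.ch t).symm).inv_left₀).eq.symm
    rw [hv, mul_add, add_mul, h1, ← mul_assoc, ← hβc, mul_assoc, H.ch, mul_assoc]
  have hvi : ∀ y, v * (i * y) = -(i * (v * y)) := by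
    intro y
    rw [← mul_assoc, ← mul_assoc, hiv, neg_mul, neg_neg]
  -- c
  obtain ⟨c, hc⟩ : ∃ c : D, c = ι P + ι Q * i := ⟨_, rfl⟩
  have hcs : star c = ι P - ι Q * i := by
    rw [hc, star_add, star_mul, H.sym, H.sym, hb.si, neg_mul, ← H.cw, sub_eq_add_neg]
  have hcv : c * v = v * star c := by
    rw [hcs, hc, add_mul, mul_sub, hιv, mul_assoc, hiv, mul_neg, ← mul_assoc, hιv, mul_assoc,
      ← sub_eq_add_neg]
  have hci : i * c = c * i := by
    rw [hc, mul_add, add_mul, ← H.cw, ← mul_assoc, ← H.cw]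
  have hcι : ∀ t, ι t * c = c * ι t := by
    intro t
    have e1 : ι t * ι P = ι P * ι t := by rw [← map_mul, mul_comm, map_mul]
    have e2 : ι t * ι Q = ι Q * ι t := by rw [← map_mul, mul_comm, map_mul]
    rw [hc, mul_add, add_mul, e1, ← mul_assoc, e2, mul_assoc, H.cw, ← mul_assoc]
  have hb0 : (b : F) ≠ 0 := b.ne_zero
  have hcc : c * star c = ι (4 / b) := by
    rw [← hPQ, hcs, hc, map_sub, map_mul, map_pow, map_pow, AlgHom.commutes, ← hb.ii]
    have h1 : ι P * ι Q = ι Q * ι P := by rw [← map_mul, mul_comm, map_mul]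
    have h2 : i * ι P = ι P * i := (H.cw P).symm
    have h3 : i * ι Q = ι Q * i := (H.cw Q).symm
    have h4 : (ι P + ι Q * i) * (ι P - ι Q * i) = ι P * ι P - ι P * ι Q * i +
        ι Q * (i * ι P) - ι Q * (i * ι Q) * i := by noncomm_ring
    rw [h4, h2, h3, h1]
    have h5 : i * i * ι Q ^ 2 = ι Q * ι Q * (i * i) := by
      rw [hb.ii, Algebra.commutes, pow_two]
    rw [h5]
    noncomm_ring
  have hzz : algebraMap k D β * (z * z) = θ := by
    rw [hθd, hxz]
    calc algebraMap k D β * (z * z) = j * j * (z * z) := by rw [hb.jj]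
      _ = j * (j * z) * (j⁻¹ * j) * z := by
        rw [inv_mul_cancel₀ hj0, mul_one]
        simp only [mul_assoc]
      _ = _ := by simp only [mul_assoc]
  have hθi : θ⁻¹ = star θ := by
    have h1 : θ * star θ = 1 := by
      rw [hθd]
      exact theta_star hb hu
    exact (eq_inv_of_mul_eq_one_right h1).symm
  have hιb : ι b = 2 + θ + star θ := by
    rw [hb2, hθs, hθ, map_add, map_mul, map_ofNat]
    noncomm_ring
  have hvv : v * v = algebraMap k D β * ι b := by
    have h1 : z⁻¹ * z⁻¹ = algebraMap k D β * star θ := by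
      rw [← hθi, ← hzz, mul_inv_rev, mul_inv_rev, ← mul_assoc, hβc, mul_assoc,
        mul_inv_cancel₀ hβ0, mul_one]
    rw [hv, hιb]
    have h2 : (z⁻¹ + algebraMap k D β * z) * (z⁻¹ + algebraMap k D β * z) =
        z⁻¹ * z⁻¹ + z⁻¹ * (algebraMap k D β * z) + algebraMap k D β * (z * z⁻¹) +
        algebraMap k D β * (z * (algebraMap k D β * z)) := by noncomm_ring
    have h3 : z⁻¹ * (algebraMap k D β * z) = algebraMap k D β := by
      rw [hβc, ← mul_assoc, inv_mul_cancel₀ hz0, one_mul]
    have h4 : z * (algebraMap k D β * z) = algebraMap k D β * (z * z) := by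
      rw [← mul_assoc, ← hβc, mul_assoc]
    rw [h2, h3, mul_inv_cancel₀ hz0, h4, h1, hzz]
    noncomm_ring
  -- u
  obtain ⟨u, hu2⟩ : ∃ u : D, 2 * u = c * v * j⁻¹ := ⟨2⁻¹ * (c * v * j⁻¹), by
    rw [← mul_assoc, mul_inv_cancel₀ h20, one_mul]⟩
  have hsj : star j⁻¹ = -j⁻¹ := by rw [star_inv₀, hb.sj, inv_neg]
  have hsu : 2 * star u = j⁻¹ * (c * v) := by
    have h1 := congrArg star hu2
    rw [star_mul, star_ofNat, star_mul, star_mul, hvs, hsj, neg_mul, neg_mul, mul_neg, neg_neg,
      ← hcv] at h1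
    rw [← h1]
    exact (Nat.cast_commute 2 (star u)).eq
  have hjcv : j * (c * v * j⁻¹) = j⁻¹ * (c * v) * j := by
    rw [hjb]
    have h1 : ∀ y : D, algebraMap k D ((β⁻¹ : kˣ) : k) * y = y * algebraMap k D ((β⁻¹ : kˣ) : k) :=
      fun y => Algebra.commutes _ _
    calc j * (c * v * (algebraMap k D ((β⁻¹ : kˣ) : k) * j))
        = j * (c * v) * algebraMap k D ((β⁻¹ : kˣ) : k) * j := by simp only [mul_assoc]
      _ = algebraMap k D ((β⁻¹ : kˣ) : k) * j * (c * v) * j := by
        rw [← h1]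
        simp only [mul_assoc]
  have h2c : ∀ y : D, 2 * y = y * 2 := fun y => (Nat.cast_commute 2 y).eq
  have hju : j * u = star u * j := by
    apply mul_left_cancel₀ h20
    rw [← mul_assoc, h2c j, mul_assoc, hu2, ← mul_assoc 2 (star u), hsu, ← hjcv]
  have hij' : i * j⁻¹ = -(j⁻¹ * i) := by
    have h1 : j * (i * j⁻¹) = -(i) := by
      rw [← mul_assoc]
      have : j * i = -(i * j) := by rw [hb.ij, neg_neg]
      rw [this, neg_mul, mul_assoc, mul_inv_cancel₀ hj0, mul_one]
    have h2 : j * -(j⁻¹ * i) = -i := by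
      rw [mul_neg, ← mul_assoc, mul_inv_cancel₀ hj0, one_mul]
    exact mul_left_cancel₀ hj0 (h1.trans h2.symm)
  have hiu : i * u = u * i := by
    apply mul_left_cancel₀ h20
    rw [← mul_assoc, h2c i, mul_assoc, hu2, ← mul_assoc 2 u, hu2]
    calc i * (c * v * j⁻¹) = (i * c) * v * j⁻¹ := by simp only [mul_assoc]
      _ = c * (i * v) * j⁻¹ := by rw [hci]; simp only [mul_assoc]
      _ = -(c * v * (i * j⁻¹)) := by rw [hiv]; simp only [mul_assoc, mul_neg, neg_mul]
      _ = c * v * j⁻¹ * i := by rw [hij']; simp only [mul_assoc, mul_neg, neg_neg]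
  have hcvcv : c * v * (c * v) = 4 * algebraMap k D β := by
    calc c * v * (c * v) = c * v * (v * star c) := by rw [hcv]
      _ = c * (v * v) * star c := by simp only [mul_assoc]
      _ = c * (algebraMap k D β * ι b) * star c := by rw [hvv]
      _ = algebraMap k D β * ((c * ι b) * star c) := by
          rw [← mul_assoc c, ← hβc]
          simp only [mul_assoc]
      _ = algebraMap k D β * (ι b * (c * star c)) := by rw [← hcι]; simp only [mul_assoc]
      _ = algebraMap k D β * ι (b * (4 / b)) := by rw [hcc, ← map_mul]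
      _ = 4 * algebraMap k D β := by
          rw [mul_div_cancel₀ _ hb0, map_ofNat]
          exact (Nat.cast_commute 4 (algebraMap k D β)).eq.symm
  have h4 : (4 : D) = 2 * 2 := by norm_num
  have huu : u * star u = 1 := by
    apply mul_left_cancel₀ h20
    apply mul_left_cancel₀ h20
    have h1 : (2 : D) * (2 * (u * star u)) = (2 * u) * (2 * star u) := by
      rw [mul_assoc 2 u (2 * star u), ← mul_assoc u 2 (star u), ← h2c u, mul_assoc 2 u (star u)]
    rw [h1, hu2, hsu, mul_one]
    calc c * v * j⁻¹ * (j⁻¹ * (c * v)) = c * v * (j * j)⁻¹ * (c * v) := by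
          rw [mul_inv_rev]
          simp only [mul_assoc]
      _ = (algebraMap k D β)⁻¹ * (c * v * (c * v)) := by
          rw [hb.jj]
          have h3 : (algebraMap k D β)⁻¹ * (c * v) = c * v * (algebraMap k D β)⁻¹ :=
            ((show Commute (algebraMap k D β) (c * v) from hβc _).inv_left₀).eq
          rw [← h3, mul_assoc]
      _ = 2 * 2 := by
          rw [hcvcv, ← hβc 4, ← mul_assoc, inv_mul_cancel₀ hβ0, one_mul]
          norm_num
  have h2uj : 2 * (u * j) = c * v := by
    rw [← mul_assoc, hu2, mul_assoc, inv_mul_cancel₀ hj0, mul_one]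
  refine ⟨u, by rw [hu2, ← hc, hw, mul_assoc], hiu, huu, hju, ?_, ?_⟩
  · refine
      { sym := H.sym
        si := hb.si
        sj := ?_
        ii := by
          change i * i = ι (algebraMap k F α)
          rw [hb.ii, AlgHom.commutes]
        jj := ?_
        ij := ?_
        ci := H.cw
        cj := ?_ }
    · rw [star_mul, hb.sj, neg_mul]
      congr 1
      have h1 : u * j = j * star u := by
        have hsuu : star u * u = 1 := by
          have hu0 : u ≠ 0 := left_ne_zero_of_mul_eq_one huu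
          rw [eq_inv_of_mul_eq_one_right huu, inv_mul_cancel₀ hu0]
        calc u * j = u * (j * u) * star u := by
              rw [mul_assoc, mul_assoc j, huu, mul_one]
          _ = u * star u * j * star u := by rw [hju]; simp only [mul_assoc]
          _ = j * star u := by rw [huu, one_mul]
      exact h1.symm
    · change u * j * (u * j) = ι (algebraMap k F β)
      rw [AlgHom.commutes, ← hb.jj]
      calc u * j * (u * j) = u * (j * u) * j := by simp only [mul_assoc]
        _ = (u * star u) * (j * j) := by rw [hju]; simp only [mul_assoc]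
        _ = j * j := by rw [huu, one_mul]
    · rw [← mul_assoc, hiu, mul_assoc, hb.ij]
      simp only [mul_neg, mul_assoc]
    · intro t
      apply mul_left_cancel₀ h20
      rw [← mul_assoc, h2c (ι t), mul_assoc, h2uj, ← mul_assoc 2, h2uj, ← mul_assoc, hcι,
        mul_assoc, hιv, mul_assoc]
  · rw [← mul_assoc, hu2, ← hc, ← hθd, mul_assoc, ← hz, mul_assoc]
    congr 1
    rw [hv, add_mul, inv_mul_cancel₀ hz0, mul_assoc, hzz]

end Vale.Agent.P011.Six
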