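import Vale.Agent.P011.Six.Frame
import Vale.Agent.P011.Six.Sys
import Vale.Agent.P011.One.Close

/-!
The first factor.
-/

open Module Polynomial NumberField IsDedekindDomain

set_option linter.unusedSectionVars false

namespace Vale.Agent.P011.Six

open Vale.Agent.P011.Arith Vale.Agent.P011.Even Vale.Agent.P011.Two Vale.Agent.P011.One

variable {k K D : Type} [Field k] [NumberField k] [Field K] [NumberField K] [StarRing K]
  [DivisionRing D] [StarRing D] [Algebra k K] [Algebra k D] [Algebra K D] [IsScalarTower k K D]
  {d : kˣ} {s : K}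

/-- A unitary element commuting with `i` which is inverted by `j`. -/
theorem u_mem (hS : Setting k K D d s) {α β : kˣ} {i j : D} (hb : Base k α β i j) {e : ℕ}
    {N : Set D} (hN : HQ1 k e N) {u : D} (hui : i * u = u * i) (huu : u * star u = 1)
    (huj : j * u = star u * j)
    (hnear : ∀ (F : Type) [Field F] [NumberField F] [Algebra k F] (ι : F →ₐ[k] D) (p : F),
      ι p = 2 - (u + star u) → ∀ (w : HeightOneSpectrum (𝓞 F)) (v : HeightOneSpectrum (𝓞 k)),
      Ab w v → β ∉ NF α ⊔ LS (v.valuation k) →
      w.valuation F p < w.valuation F (4 * (e : F) ^ 4)) : u ∈ N := by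
  have hcharD : CharZero D := charZero_of_injective_algebraMap (algebraMap k D).injective
  have h20 : (2 : D) ≠ 0 := two_ne_zero
  have hu0 : u ≠ 0 := left_ne_zero_of_mul_eq_one huu
  have hus : star u = u⁻¹ := eq_inv_of_mul_eq_one_right huu
  have huu' : star u * u = 1 := by rw [hus, inv_mul_cancel₀ hu0]
  have hcs : ∀ y : D, u * y = y * u → star u * y = y * star u := by
    intro y hy
    rw [hus]
    exact ((show Commute u y from hy).inv_left₀).eq
  have hus_i : star u * i = i * star u := hcs i hui.symm
  obtain ⟨a, ha⟩ : ∃ a : D, a = u + star u := ⟨_, rfl⟩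
  obtain ⟨b, hbd⟩ : ∃ b : D, b = i * (u - star u) := ⟨_, rfl⟩
  have hab : ∀ y : D, u * y = y * u → a * y = y * a := by
    intro y hy
    rw [ha, add_mul, mul_add, hy, hcs y hy]
  have hbb : ∀ y : D, u * y = y * u → i * y = y * i → b * y = y * b := by
    intro y hy hy'
    rw [hbd, mul_assoc, sub_mul, hy, hcs y hy, ← mul_sub, ← mul_assoc, hy', mul_assoc]
  have hua : u * a = a * u := (hab u rfl).symm
  have hub : u * b = b * u := (hbb u rfl hui).symm
  have hia : i * a = a * i := by rw [hab i hui.symm]
  have hsa : star a = a := by rw [ha, star_add, star_star, add_comm]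
  have hsb : star b = b := by
    rw [hbd, star_mul, star_sub, star_star, hb.si, mul_neg, ← neg_mul, neg_sub, sub_mul, mul_sub,
      hus_i, hui]
  have haj : a * j = j * a := by
    have h1 : u * j = j * star u := by
      have h2 : u * (j * u) * star u = u * (star u * j) * star u := by rw [huj]
      rw [← mul_assoc u (star u), huu, one_mul, mul_assoc u, mul_assoc j, huu, mul_one] at h2
      exact h2
    rw [ha, add_mul, mul_add, h1, huj, add_comm]
  have hbj : b * j = j * b := by
    have h1 : u * j = j * star u := by
      have h2 : u * (j * u) * star u = u * (star u * j) * star u := by rw [huj]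
      rw [← mul_assoc u (star u), huu, one_mul, mul_assoc u, mul_assoc j, huu, mul_one] at h2
      exact h2
    have h3 : i * j = -(j * i) := hb.ij
    rw [hbd, mul_assoc, sub_mul, h1, ← huj, ← mul_sub, ← mul_assoc, h3]
    noncomm_ring
  obtain ⟨F, _, _, _, ι, sym, cen, hmem⟩ := exists_symfield hS ({a, b} : Set D) (by
      rintro y (rfl | rfl) w (rfl | rfl)
      · rfl
      · exact hab _ hub
      · exact hbb _ hua hia
      · rfl) (by
      rintro y (rfl | rfl)
      · exact hsa
      · exact hsb)
  obtain ⟨a', ha'⟩ := hmem a (by simp)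
  obtain ⟨b', hb'⟩ := hmem b (by simp)
  have hα0 : algebraMap k F α ≠ 0 := by
    rw [Ne, map_eq_zero]
    exact α.ne_zero
  have hfr : QFr ι (inc k F α) (inc k F β) i j :=
    { sym := sym
      si := hb.si
      sj := hb.sj
      ii := by
        change i * i = ι (algebraMap k F α)
        rw [hb.ii, AlgHom.commutes]
      jj := by
        change j * j = ι (algebraMap k F β)
        rw [hb.jj, AlgHom.commutes]
      ij := hb.ij
      ci := cen i (by
        rintro y (rfl | rfl)
        · exact hia.symm
        · exact hbb i hui.symm rfl)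
      cj := cen j (by
        rintro y (rfl | rfl)
        · exact haj
        · exact hbj) }
  have e0 : (2 : D) * ι (a' / 2) = u + star u := by
    rw [← map_ofNat ι 2, ← map_mul, mul_div_cancel₀ _ two_ne_zero, ha', ha]
  have e1 : (2 : D) * (ι (b' / (2 * algebraMap k F α)) * i) = u - star u := by
    have h1 : i * ((2 : D) * (ι (b' / (2 * algebraMap k F α)) * i)) = i * (u - star u) := by
      rw [← hbd, ← hb']
      have h2 : i * ι (b' / (2 * algebraMap k F α)) = ι (b' / (2 * algebraMap k F α)) * i :=
        (hfr.ci _).symm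
      have h3 : i * (2 : D) = 2 * i := (Nat.cast_commute 2 i).eq.symm
      calc i * ((2 : D) * (ι (b' / (2 * algebraMap k F α)) * i))
          = 2 * (i * ι (b' / (2 * algebraMap k F α))) * i := by
            rw [← mul_assoc, h3]
            simp only [mul_assoc]
        _ = 2 * ι (b' / (2 * algebraMap k F α)) * (i * i) := by
            rw [h2]
            simp only [mul_assoc]
        _ = ι b' := by
            rw [hb.ii, ← map_ofNat ι 2, ← AlgHom.commutes ι, ← map_mul, ← map_mul]
            congr 1
            field_simp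
    exact mul_left_cancel₀ hb.i0 h1
  have hq : QElt ι (inc k F α) (inc k F β) i j (a' / 2) (b' / (2 * algebraMap k F α)) 0 0 u := by
    refine ⟨hfr, ?_, ?_⟩
    · apply ι.toRingHom.injective
      change ι _ = ι 1
      have e2 : ((a' / 2) ^ 2 - ((inc k F α : Fˣ) : F) * (b' / (2 * algebraMap k F α)) ^ 2 -
          ((inc k F β : Fˣ) : F) * 0 ^ 2 + ((inc k F α : Fˣ) : F) * ((inc k F β : Fˣ) : F) *
          0 ^ 2) = (a' / 2) ^ 2 - algebraMap k F α * (b' / (2 * algebraMap k F α)) ^ 2 := by
        change (a' / 2) ^ 2 - algebraMap k F α * (b' / (2 * algebraMap k F α)) ^ 2 -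
          _ * 0 ^ 2 + _ * _ * 0 ^ 2 = _
        ring
      rw [e2, map_one]
      apply mul_left_cancel₀ h20
      apply mul_left_cancel₀ h20
      have e3 : (2 : D) * (2 * ι ((a' / 2) ^ 2 - algebraMap k F α *
          (b' / (2 * algebraMap k F α)) ^ 2)) = (2 * ι (a' / 2)) * (2 * ι (a' / 2)) -
          (2 * (ι (b' / (2 * algebraMap k F α)) * i)) *
            (2 * (ι (b' / (2 * algebraMap k F α)) * i)) := by
        rw [map_sub, map_mul, map_pow, map_pow, AlgHom.commutes, ← hb.ii]
        obtain ⟨Y, hY⟩ : ∃ Y, Y = ι (b' / (2 * algebraMap k F α)) := ⟨_, rfl⟩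
        have h2 : i * Y = Y * i := by rw [hY]; exact (hfr.ci _).symm
        rw [← hY]
        have h5 : Y * i * (Y * i) = i * i * Y ^ 2 := by
          calc Y * i * (Y * i) = Y * (i * Y) * i := by simp only [mul_assoc]
            _ = Y * Y * (i * i) := by rw [h2]; simp only [mul_assoc]
            _ = i * i * Y ^ 2 := by rw [pow_two, hb.ii, Algebra.commutes]
        rw [← h5]
        noncomm_ring
      rw [e3, e0, e1]
      have h6 : (u + star u) * (u + star u) - (u - star u) * (u - star u) =
          2 * (u * star u) + 2 * (star u * u) := by noncomm_ring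
      rw [h6, huu, huu']
      norm_num
    · rw [map_zero, zero_mul, zero_mul, add_zero, add_zero]
      apply mul_left_cancel₀ h20
      rw [mul_add, e0, e1]
      noncomm_ring
  refine hN F ι _ _ _ _ _ _ _ _ _ hq fun w hw => ?_
  obtain ⟨v, hv⟩ := Arith.exists_below (F := k) w
  refine hnear F ι _ ?_ w v hv fun h => hw (Sch.sup_map hv h)
  rw [map_sub, map_mul, map_ofNat, e0]

end Vale.Agent.P011.Six
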