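import Vale.Agent.P011.Six.Near
import Vale.Agent.P011.Six.UN
import Vale.Agent.P011.Six.UAlg
import Vale.Agent.P011.Six.QNear
import Vale.Agent.P011.One.AbX

/-!
The second and third factors as elements of quaternion algebras.
-/

open Module NumberField IsDedekindDomain

set_option linter.unusedSectionVars false

namespace Vale.Agent.P011.Six

open Vale.Agent.P011.Arith Vale.Agent.P011.Even Vale.Agent.P011.Two Vale.Agent.P011.One
open Vale.Agent.P011.MPQ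

variable {k K D : Type} [Field k] [NumberField k] [Field K] [NumberField K] [StarRing K]
  [DivisionRing D] [StarRing D] [Algebra k K] [Algebra k D] [Algebra K D] [IsScalarTower k K D]
  {d : kˣ} {s : K} {F : Type} [Field F] [NumberField F] [Algebra k F]

theorem star_cj {q : D} (hq : q ≠ 0) (sq : star q = -q) {κ : k} (hqq : q * q = algebraMap k D κ)
    (y : D) : star (cj k q hq y) = cj k q hq (star y) := by
  rw [cj_apply, cj_apply, star_mul, star_mul, star_inv₀, sq, inv_neg, neg_mul, mul_neg, mul_neg,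
    neg_neg]
  have h1 : q⁻¹ = q * (algebraMap k D κ)⁻¹ := by
    have h0 : algebraMap k D κ ≠ 0 := by rw [← hqq]; exact mul_ne_zero hq hq
    rw [eq_mul_inv_iff_mul_eq₀ h0, ← hqq, ← mul_assoc, inv_mul_cancel₀ hq, one_mul]
  have h2 : (algebraMap k D κ)⁻¹ * (star y * q) = star y * q * (algebraMap k D κ)⁻¹ :=
    ((show Commute (algebraMap k D κ) (star y * q) from Algebra.commutes _ _).inv_left₀).eq
  rw [h1, mul_assoc, h2]
  simp only [mul_assoc]

/-- The conjugate of an element of norm one of a quaternion algebra. -/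
theorem conj_mem {e₀ : ℕ} {N : Set D} (hN : HQ1 k e₀ N) {ι : F →ₐ[k] D} {α β : Fˣ} {i j : D}
    {p₀ p₁ p₂ p₃ : F} {u : D} (hu : QElt ι α β i j p₀ p₁ p₂ p₃ u) {q r : D} (hq : q ≠ 0)
    (sq : star q = -q) {κ : k} (hqq : q * q = algebraMap k D κ) (hr : q * u = r * q)
    (hloc : ∀ ω : HeightOneSpectrum (𝓞 F), β ∉ NF α ⊔ LS (ω.valuation F) →
      ω.valuation F (2 - 2 * p₀) < ω.valuation F (4 * (e₀ : F) ^ 4)) : r ∈ N := by
  have hst := star_cj hq sq hqq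
  have hr' : r = cj k q hq u := (cj_eq (hq := hq) hr).symm
  refine hN F ((cj k q hq).comp ι) α β (cj k q hq i) (cj k q hq j) p₀ p₁ p₂ p₃ r
    ⟨⟨fun x => ?_, ?_, ?_, ?_, ?_, ?_, fun x => ?_, fun x => ?_⟩, hu.nrm, ?_⟩ hloc
  · rw [AlgHom.comp_apply, hst, hu.fr.sym]
  · rw [hst, hu.fr.si, map_neg]
  · rw [hst, hu.fr.sj, map_neg]
  · rw [← map_mul, hu.fr.ii, AlgHom.comp_apply]
  · rw [← map_mul, hu.fr.jj, AlgHom.comp_apply]
  · rw [← map_mul, hu.fr.ij, map_neg, map_mul]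
  · rw [AlgHom.comp_apply, ← map_mul, hu.fr.ci, map_mul]
  · rw [AlgHom.comp_apply, ← map_mul, hu.fr.cj, map_mul]
  · rw [hr', hu.eq]
    simp only [map_add, map_mul, AlgHom.comp_apply]

/-- The square of a pure quaternion. -/
theorem pure_eq {ι : F →ₐ[k] D} {α β : Fˣ} {i j : D} (fr : QFr ι α β i j) {l m₀ m₁ e : F} {p : D}
    (hp : p = ι l * i + (ι m₀ + ι m₁ * i) * j) (hpp : p * p = ι e) :
    e = α * l ^ 2 + β * (m₀ ^ 2 - α * m₁ ^ 2) := by
  obtain ⟨φ, hφ⟩ := exists_qhom fr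
  have h1 : p = φ ⟨0, l, m₀, m₁⟩ := by
    rw [hφ, hp, map_zero, zero_add, add_mul, mul_assoc (ι m₁)]
    abel
  have h2 : φ (algebraMap F (Qt α β) (-nrd (⟨0, l, m₀, m₁⟩ : Qt α β))) = ι e := by
    rw [← pure_sq (η := (⟨0, l, m₀, m₁⟩ : Qt α β)) rfl, map_mul, ← h1, hpp]
  rw [phi_alg hφ] at h2
  have h3 := ι.toRingHom.injective h2
  rw [← h3, nrd_mk]
  ring

/-- The elements of the plane of `1` and `p`. -/
theorem qelt_of {ι : F →ₐ[k] D} {α β : Fˣ} {i j : D} (fr : QFr ι α β i j) {l m₀ m₁ e : F}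
    {p : D} (hp : p = ι l * i + (ι m₀ + ι m₁ * i) * j) (hpp : p * p = ι e) {a₀ a₁ : F}
    (ha : a₀ ^ 2 - e * a₁ ^ 2 = 1) :
    QElt ι α β i j a₀ (a₁ * l) (a₁ * m₀) (a₁ * m₁) (ι a₀ + ι a₁ * p) := by
  refine ⟨fr, ?_, ?_⟩
  · rw [← ha, pure_eq fr hp hpp]
    ring
  · rw [hp, map_mul, map_mul, map_mul]
    noncomm_ring

/-- The second factor. -/
theorem y_mem {e₀ : ℕ} {N : Set D} (hN : HQ1 k e₀ N) {ι : F →ₐ[k] D} {α β : Fˣ} {i j : D}
    (fr : QFr ι α β i j) {l m₀ m₁ e : F}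
    {p : D} (hp : p = ι l * i + (ι m₀ + ι m₁ * i) * j) (hpp : p * p = ι e) {b₀ b₁ P Q : F}
    (b : Fˣ) (hb : (b₀ ^ 2 - e * b₁ ^ 2) * b = 1) (hPQ : P ^ 2 - α * Q ^ 2 = 4 / b) {y : D}
    (hy : 2 * y = (ι P + ι Q * i) * ι b * (ι b₀ + ι b₁ * p))
    (hloc : ∀ ω : HeightOneSpectrum (𝓞 F), β ∉ NF α ⊔ LS (ω.valuation F) →
      ω.valuation F (b / 4 - b * P / 2 + 1) < ω.valuation F (16 * (4 * (e₀ : F) ^ 4)) ∧
      ω.valuation F (4 / b - 4 * b₀ + 1) < ω.valuation F (16 * (4 * (e₀ : F) ^ 4)) ∧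
      ω.valuation F (4 / b) ≤ 1) : y ∈ N := by
  have hcharD : CharZero D := charZero_of_injective_algebraMap (algebraMap k D).injective
  have h20 : (2 : D) ≠ 0 := two_ne_zero
  obtain ⟨φ, hφ⟩ := exists_qhom fr
  have hb0 : (b : F) ≠ 0 := b.ne_zero
  obtain ⟨qA, hqA⟩ : ∃ qA : Qt α β, qA = ⟨b * P / 4, b * Q / 4, 0, 0⟩ := ⟨_, rfl⟩
  obtain ⟨qR, hqR⟩ : ∃ qR : Qt α β, qR = ⟨2 * b₀, 2 * (b₁ * l), 2 * (b₁ * m₀), 2 * (b₁ * m₁)⟩ :=
    ⟨_, rfl⟩
  have hnA : nrd qA = b / 4 := by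
    rw [hqA, nrd_mk]
    have : P ^ 2 * b - α * Q ^ 2 * b = 4 := by
      rw [← sub_mul, hPQ]
      field_simp
    linear_combination b / 16 * this
  have hnR : nrd qR = 4 / b := by
    rw [hqR, nrd_mk, eq_div_iff hb0]
    rw [pure_eq fr hp hpp] at hb
    linear_combination 4 * hb
  have hn : nrd (qA * qR) = 1 := by
    rw [nrd_mul, hnA, hnR]
    field_simp
  have hφA : 4 * φ qA = (ι P + ι Q * i) * ι b := by
    rw [hφ, hqA]
    simp only [map_zero, zero_mul, add_zero]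
    have e1 : (4 : D) * ι (b * P / 4) = ι b * ι P := by
      rw [← map_ofNat ι 4, ← map_mul, ← map_mul]
      congr 1
      field_simp
    have e2 : (4 : D) * (ι (b * Q / 4) * i) = ι b * ι Q * i := by
      rw [← map_ofNat ι 4, ← mul_assoc, ← map_mul, ← map_mul]
      congr 2
      field_simp
    rw [mul_add, e1, e2, add_mul, mul_assoc (ι Q), ← fr.ci, ← mul_assoc, ← map_mul, ← map_mul,
      ← map_mul, ← map_mul, mul_comm (b : F) P, mul_comm (b : F) Q]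
  have hφR : φ qR = 2 * (ι b₀ + ι b₁ * p) := by
    rw [hφ, hqR, hp]
    simp only [map_mul, map_ofNat]
    noncomm_ring
  have hyq : y = φ (qA * qR) := by
    apply mul_left_cancel₀ h20
    have e1 : (2 : D) * (4 * φ (qA * qR)) = 2 * (2 * (2 * y)) := by
      rw [hy, ← hφA, map_mul, hφR]
      have e2 : (2 : D) * (ι b₀ + ι b₁ * p) = (ι b₀ + ι b₁ * p) * 2 :=
        (Nat.cast_commute 2 (ι b₀ + ι b₁ * p)).eq
      have e3 : (4 : D) * φ qA * (ι b₀ + ι b₁ * p) * 2 = 2 * (4 * φ qA * (ι b₀ + ι b₁ * p)) :=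
        (Nat.cast_commute 2 (4 * φ qA * (ι b₀ + ι b₁ * p))).eq.symm
      rw [← e3, e2]
      simp only [mul_assoc]
    have e2 : (4 : D) = 2 * 2 := by norm_num
    have e3 := mul_left_cancel₀ h20 e1
    rw [e2, mul_assoc] at e3
    exact (mul_left_cancel₀ h20 e3).symm
  refine hN F ι α β i j (qA * qR).re (qA * qR).imI (qA * qR).imJ (qA * qR).imK y
    ⟨fr, hn, by rw [hyq, hφ]⟩ fun ω hω => ?_
  obtain ⟨h1, h2, h3⟩ := hloc ω hω
  rw [re_of_nrd_one hn]
  have e1 : qA * qR - 1 = (qA - 1) * qR + (qR - 1) := by noncomm_ring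
  have hsub : ∀ x : Qt α β, nrd (x - 1) = nrd x - 2 * x.re + 1 := by
    intro x
    simp only [nrd, QuaternionAlgebra.re_sub, QuaternionAlgebra.imI_sub,
      QuaternionAlgebra.imJ_sub, QuaternionAlgebra.imK_sub, QuaternionAlgebra.re_one,
      QuaternionAlgebra.imI_one, QuaternionAlgebra.imJ_one, QuaternionAlgebra.imK_one]
    ring
  have h4 := ram_add hω ((qA - 1) * qR) (qR - 1)
  rw [← e1, nrd_mul, hsub qA, hsub qR, hnA, hnR] at h4
  have e2 : (b : F) / 4 - 2 * qA.re + 1 = b / 4 - b * P / 2 + 1 := by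
    rw [hqA]
    ring
  have e3 : (4 : F) / b - 2 * qR.re + 1 = 4 / b - 4 * b₀ + 1 := by
    rw [hqR]
    ring
  rw [e2, e3] at h4
  have h16 : ω.valuation F (16 : F) ≠ 0 := (Valuation.ne_zero_iff _).mpr (by norm_num)
  have h5 : ω.valuation F 16 * ω.valuation F (nrd (qA * qR - 1)) <
      ω.valuation F 16 * ω.valuation F (4 * (e₀ : F) ^ 4) := by
    refine h4.trans_lt (max_lt ?_ ?_)
    · rw [map_mul, ← map_mul _ (16 : F)]
      exact ((mul_le_mul' le_rfl h3).trans (mul_one _).le).trans_lt h1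
    · rw [← map_mul _ (16 : F)]
      exact h2
  exact (mul_lt_mul_iff_right₀ (zero_lt_iff.mpr h16)).mp h5

end Vale.Agent.P011.Six
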