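import Vale.Agent.P011.Six.Cont
import Vale.Agent.P011.Six.Nrm
import Vale.Agent.P011.One.StepOne

/-!
Symmetric elements commuting with the quaternion algebra.
-/

open Module NumberField IsDedekindDomain Filter Topology

set_option linter.unusedSectionVars false

namespace Vale.Agent.P011.Six

open Vale.Agent.P011.Arith Vale.Agent.P011.Even Vale.Agent.P011.Two Vale.Agent.P011.One

variable {k K D : Type} [Field k] [NumberField k] [Field K] [NumberField K] [StarRing K]
  [DivisionRing D] [StarRing D] [Algebra k K] [Algebra k D] [Algebra K D] [IsScalarTower k K D]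
  {d : kˣ} {s : K} {α β : kˣ} {i j : D}

theorem cj_comm {R : Type} [Field R] [Algebra R D] {q : D} (hq : q ≠ 0) {y : D}
    (h : q * y = y * q) : cj R q hq y = y := cj_eq h

theorem comm_of_cj {R : Type} [Field R] [Algebra R D] {q : D} (hq : q ≠ 0) {y : D}
    (h : cj R q hq y = y) : q * y = y * q := by
  rw [cj_apply, mul_inv_eq_iff_eq_mul₀ hq] at h
  exact h

theorem Base.ij0 (hb : Base k α β i j) : i * j ≠ 0 := mul_ne_zero hb.i0 hb.j0

theorem Base.ijij (hb : Base k α β i j) : i * j * (i * j) = algebraMap k D (-(α * β)) := by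
  have h1 : j * i = -(i * j) := by rw [hb.ij, neg_neg]
  calc i * j * (i * j) = i * (j * i) * j := by simp only [mul_assoc]
    _ = -(i * i * (j * j)) := by rw [h1]; simp only [mul_assoc, mul_neg, neg_mul]
    _ = _ := by rw [hb.ii, hb.jj, map_neg, map_mul]

theorem Base.sij (hb : Base k α β i j) : star (i * j) = -(i * j) := by
  rw [star_mul, hb.si, hb.sj, neg_mul_neg, hb.ij, neg_neg]

/-- The average over the quaternion group. -/
noncomputable def avg (R : Type) [Field R] [Algebra R D] (hb : Base k α β i j) : D →ₗ[R] D :=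
  (4 : R)⁻¹ • (LinearMap.id + (cj R i hb.i0).toLinearMap + (cj R j hb.j0).toLinearMap +
    (cj R (i * j) hb.ij0).toLinearMap)

theorem avg_apply (R : Type) [Field R] [Algebra R D] (hb : Base k α β i j) (y : D) :
    avg R hb y = (4 : R)⁻¹ • (y + i * y * i⁻¹ + j * y * j⁻¹ + i * j * y * (i * j)⁻¹) := rfl

variable {R : Type} [Field R] [CharZero R] [Algebra R D]

theorem avg_eq (hb : Base k α β i j) {y : D} (hi : i * y = y * i) (hj : j * y = y * j) :
    avg R hb y = y := by
  have h1 : i * j * y = y * (i * j) := by rw [mul_assoc, hj, ← mul_assoc, hi, mul_assoc]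
  rw [avg_apply, hi, hj, h1, mul_assoc, mul_inv_cancel₀ hb.i0, mul_assoc, mul_inv_cancel₀ hb.j0,
    mul_assoc y, mul_inv_cancel₀ hb.ij0]
  simp only [mul_one]
  have h2 : y + y + y + y = (4 : R) • y := by
    have : (4 : R) = 1 + 1 + 1 + 1 := by norm_num
    rw [this, add_smul, add_smul, add_smul, one_smul]
  rw [h2, smul_smul, inv_mul_cancel₀ (by norm_num), one_smul]

theorem conj_conj {R : Type} [Ring R] (a b y a' b' : R) :
    a * (b * y * b') * a' = (a * b) * y * (b' * a') := by simp only [mul_assoc]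

theorem conj_scalar {D : Type} [DivisionRing D] {a b c : D} (ha : a ≠ 0) (hb : b ≠ 0)
    (hc : ∀ y, c * y = y * c) (h : a = c * b) (y : D) : a * y * a⁻¹ = b * y * b⁻¹ := by
  have hc0 : c ≠ 0 := by
    rintro rfl
    rw [zero_mul] at h
    exact ha h
  rw [h, mul_inv_rev, mul_assoc c b y, hc (b * y), mul_assoc, ← mul_assoc c,
    show c * b⁻¹ = b⁻¹ * c from hc _, mul_assoc b⁻¹, mul_inv_cancel₀ hc0, mul_one]

theorem avg_i (hb : Base k α β i j) (y : D) : i * avg R hb y = avg R hb y * i := by
  rw [← mul_inv_eq_iff_eq_mul₀ hb.i0, avg_apply, mul_smul_comm, smul_mul_assoc]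
  congr 1
  have h1 : j * i = -(i * j) := by rw [hb.ij, neg_neg]
  rw [mul_add, mul_add, mul_add, add_mul, add_mul, add_mul, conj_conj, conj_conj, conj_conj]
  have e1 : i * i * y * (i⁻¹ * i⁻¹) = y := by
    rw [← mul_inv_rev, hb.ii, Algebra.commutes, mul_assoc, mul_inv_cancel₀, mul_one]
    rw [Ne, map_eq_zero]
    exact α.ne_zero
  have e2 : i * (i * j) * y * ((i * j)⁻¹ * i⁻¹) = j * y * j⁻¹ := by
    rw [← mul_inv_rev]
    refine conj_scalar (c := algebraMap k D α) (mul_ne_zero hb.i0 hb.ij0) hb.j0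
      (fun y => Algebra.commutes _ _) ?_ y
    rw [← mul_assoc, hb.ii]
  have e3 : i * j * y * (j⁻¹ * i⁻¹) = i * j * y * (i * j)⁻¹ := by rw [mul_inv_rev]
  rw [e1, e2, e3]
  abel

theorem avg_j (hb : Base k α β i j) (y : D) : j * avg R hb y = avg R hb y * j := by
  rw [← mul_inv_eq_iff_eq_mul₀ hb.j0, avg_apply, mul_smul_comm, smul_mul_assoc]
  congr 1
  have h1 : j * i = -(i * j) := by rw [hb.ij, neg_neg]
  rw [mul_add, mul_add, mul_add, add_mul, add_mul, add_mul, conj_conj, conj_conj, conj_conj]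
  have e1 : j * j * y * (j⁻¹ * j⁻¹) = y := by
    rw [← mul_inv_rev, hb.jj, Algebra.commutes, mul_assoc, mul_inv_cancel₀, mul_one]
    rw [Ne, map_eq_zero]
    exact β.ne_zero
  have e2 : j * (i * j) * y * ((i * j)⁻¹ * j⁻¹) = i * y * i⁻¹ := by
    rw [← mul_inv_rev]
    refine conj_scalar (c := -algebraMap k D β) (mul_ne_zero hb.j0 hb.ij0) hb.i0
      (fun y => by rw [neg_mul, mul_neg, Algebra.commutes]) ?_ y
    rw [← mul_assoc, h1, neg_mul, mul_assoc, hb.jj, neg_mul, Algebra.commutes]
  have e3 : j * i * y * (i⁻¹ * j⁻¹) = i * j * y * (i * j)⁻¹ := by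
    rw [← mul_inv_rev]
    refine conj_scalar (c := -1) (mul_ne_zero hb.j0 hb.i0) hb.ij0
      (fun y => by rw [neg_mul, mul_neg, mul_one, one_mul]) ?_ y
    rw [h1, neg_mul, one_mul]
  rw [e1, e2, e3]
  abel

theorem avg_star (hS : Setting k K D d s) (hb : Base k α β i j) (y : D) :
    star (avg k hb y) = avg k hb (star y) := by
  have h1 := star_cj (D := D) hb.i0 hb.si hb.ii
  have h2 := star_cj (D := D) hb.j0 hb.sj hb.jj
  have h3 := star_cj (D := D) hb.ij0 hb.sij hb.ijij
  have hst : ∀ (c : k) (x : D), star (c • x) = c • star x := fun c x => (sig hS).map_smul c x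
  change star ((4 : k)⁻¹ • (y + cj k i hb.i0 y + cj k j hb.j0 y + cj k (i * j) hb.ij0 y)) = _
  rw [hst, star_add, star_add, star_add, h1, h2, h3]
  rfl

/-- The projection on the symmetric elements commuting with `i` and `j`. -/
noncomputable def prj (hS : Setting k K D d s) (hb : Base k α β i j) : D →ₗ[k] D :=
  (2 : k)⁻¹ • (avg k hb).comp (LinearMap.id + sig hS)

theorem prj_apply (hS : Setting k K D d s) (hb : Base k α β i j) (y : D) :
    prj hS hb y = (2 : k)⁻¹ • avg k hb (y + star y) := rfl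

theorem prj_star (hS : Setting k K D d s) (hb : Base k α β i j) (y : D) :
    star (prj hS hb y) = prj hS hb y := by
  have hst : ∀ (c : k) (x : D), star (c • x) = c • star x := fun c x => (sig hS).map_smul c x
  rw [prj_apply, hst, avg_star hS, star_add, star_star, add_comm]

theorem prj_i (hS : Setting k K D d s) (hb : Base k α β i j) (y : D) :
    i * prj hS hb y = prj hS hb y * i := by
  rw [prj_apply, mul_smul_comm, smul_mul_assoc, avg_i]

theorem prj_j (hS : Setting k K D d s) (hb : Base k α β i j) (y : D) :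
    j * prj hS hb y = prj hS hb y * j := by
  rw [prj_apply, mul_smul_comm, smul_mul_assoc, avg_j]

theorem prj_eq (hS : Setting k K D d s) (hb : Base k α β i j) {y : D} (hs : star y = y)
    (hi : i * y = y * i) (hj : j * y = y * j) : prj hS hb y = y := by
  rw [prj_apply, hs, avg_eq hb, ← two_smul k y, smul_smul, inv_mul_cancel₀ two_ne_zero, one_smul]
  · rw [mul_add, add_mul, hi]
  · rw [mul_add, add_mul, hj]

/-- There are symmetric elements outside `k` which commute with `i` and `j`. -/
theorem exists_sym (hS : Setting k K D d s) (hdeg : finrank K D = 6 ^ 2)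
    (hb : Base k α β i j) : ∃ Y : D, star Y = Y ∧ i * Y = Y * i ∧ j * Y = Y * j ∧
      ∀ c : k, algebraMap k D c ≠ Y := by
  by_contra hcon
  push Not at hcon
  have hfD := hS.fin
  have hS0 := sS_ne (D := D) hS
  have hcharD : CharZero D := charZero_of_injective_algebraMap (algebraMap k D).injective
  have hSc : ∀ y : D, algebraMap K D s * y = y * algebraMap K D s := sS_comm
  have hkD : ∀ x : k, algebraMap K D (algebraMap k K x) = algebraMap k D x := fun x =>
    (IsScalarTower.algebraMap_apply k K D x).symm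
  have hC : ∀ y : D, i * y = y * i → j * y = y * j → ∃ c : K, algebraMap K D c = y := by
    intro y hi hj
    have hsi : i * star y = star y * i := by
      have h1 := congrArg star hi
      rw [star_mul, star_mul, hb.si, mul_neg, neg_mul] at h1
      exact (neg_injective h1).symm
    have hsj : j * star y = star y * j := by
      have h1 := congrArg star hj
      rw [star_mul, star_mul, hb.sj, mul_neg, neg_mul] at h1
      exact (neg_injective h1).symm
    obtain ⟨a, ha⟩ := hcon (y + star y) (by rw [star_add, star_star, add_comm])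
      (by rw [mul_add, add_mul, hi, hsi]) (by rw [mul_add, add_mul, hj, hsj])
    obtain ⟨b, hbb⟩ := hcon (algebraMap K D s * (y - star y)) (by
      rw [star_mul, star_sub, star_star, star_S hS, mul_neg, ← hSc, ← mul_neg, neg_sub])
      (by rw [← mul_assoc, ← hSc, mul_assoc, mul_sub, hi, hsi, ← sub_mul, mul_assoc])
      (by rw [← mul_assoc, ← hSc, mul_assoc, mul_sub, hj, hsj, ← sub_mul, mul_assoc])
    refine ⟨2⁻¹ * (algebraMap k K a + s⁻¹ * algebraMap k K b), ?_⟩
    rw [map_mul, map_add, map_mul, hkD, hkD, ha, hbb, map_inv₀, map_inv₀, map_ofNat,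
      inv_mul_cancel_left₀ hS0, inv_mul_eq_iff_eq_mul₀ (two_ne_zero : (2 : D) ≠ 0)]
    noncomm_ring
  have hspan : ∀ y : D, y ∈ Submodule.span K ({1, i, j, i * j} : Set D) := by
    intro y
    have hcK : CharZero K := inferInstance
    have h4 : (4 : K) ≠ 0 := by norm_num
    have key : ∀ z : D, ∃ c : K, algebraMap K D c = avg K hb z := fun z =>
      hC _ (avg_i hb z) (avg_j hb z)
    obtain ⟨c₀, h0⟩ := key y
    obtain ⟨c₁, h1⟩ := key (y * i⁻¹)
    obtain ⟨c₂, h2⟩ := key (y * j⁻¹)
    obtain ⟨c₃, h3⟩ := key (y * (i * j)⁻¹)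
    have hi0 := hb.i0
    have hj0 := hb.j0
    have hij0 := hb.ij0
    have hji : j * i = -(i * j) := by rw [hb.ij, neg_neg]
    -- the values of the conjugations
    obtain ⟨Y₁, hY₁⟩ : ∃ Y₁, Y₁ = i * y * i⁻¹ := ⟨_, rfl⟩
    obtain ⟨Y₂, hY₂⟩ : ∃ Y₂, Y₂ = j * y * j⁻¹ := ⟨_, rfl⟩
    obtain ⟨Y₃, hY₃⟩ : ∃ Y₃, Y₃ = i * j * y * (i * j)⁻¹ := ⟨_, rfl⟩
    have cji : cj K i hi0 i = i := cj_eq rfl
    have cjj : cj K i hi0 j = -j := cj_eq (by rw [hb.ij, neg_mul])
    have cjji : cj K j hj0 i = -i := cj_eq (by rw [hji, neg_mul])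
    have cjjj : cj K j hj0 j = j := cj_eq rfl
    have cji3 : cj K (i * j) hij0 i = -i := cj_eq (by rw [mul_assoc, hji, mul_neg, neg_mul])
    have cjj3 : cj K (i * j) hij0 j = -j := cj_eq (by
      rw [neg_mul, ← mul_assoc, hji, neg_mul, neg_neg])
    have hav : ∀ z : D, avg K hb z = (4 : K)⁻¹ • (z + cj K i hi0 z + cj K j hj0 z +
        cj K (i * j) hij0 z) := fun z => rfl
    have cy1 : cj K i hi0 y = Y₁ := hY₁.symm
    have cy2 : cj K j hj0 y = Y₂ := hY₂.symm
    have cy3 : cj K (i * j) hij0 y = Y₃ := hY₃.symm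
    have e0 : (4 : K) • algebraMap K D c₀ = y + Y₁ + Y₂ + Y₃ := by
      rw [h0, hav, smul_smul, mul_inv_cancel₀ h4, one_smul, cy1, cy2, cy3]
    have e1 : (4 : K) • (algebraMap K D c₁ * i) = y + Y₁ - Y₂ - Y₃ := by
      rw [← smul_mul_assoc, h1, hav, smul_smul, mul_inv_cancel₀ h4, one_smul]
      simp only [map_mul, map_inv₀, cji, cjji, cji3, cy1, cy2, cy3, add_mul]
      rw [inv_neg, mul_neg, mul_neg, neg_mul, neg_mul, inv_mul_cancel_right₀ hi0,
        inv_mul_cancel_right₀ hi0, inv_mul_cancel_right₀ hi0, inv_mul_cancel_right₀ hi0]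
      abel
    have e2 : (4 : K) • (algebraMap K D c₂ * j) = y - Y₁ + Y₂ - Y₃ := by
      rw [← smul_mul_assoc, h2, hav, smul_smul, mul_inv_cancel₀ h4, one_smul]
      simp only [map_mul, map_inv₀, cjj, cjjj, cjj3, cy1, cy2, cy3, add_mul]
      rw [inv_neg, mul_neg, mul_neg, neg_mul, neg_mul, inv_mul_cancel_right₀ hj0,
        inv_mul_cancel_right₀ hj0, inv_mul_cancel_right₀ hj0, inv_mul_cancel_right₀ hj0]
      abel
    have e3 : (4 : K) • (algebraMap K D c₃ * (i * j)) = y - Y₁ - Y₂ + Y₃ := by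
      rw [← smul_mul_assoc, h3, hav, smul_smul, mul_inv_cancel₀ h4, one_smul]
      simp only [map_mul, map_inv₀, cji, cjj, cjji, cjjj, cji3, cjj3, cy1, cy2, cy3, add_mul]
      rw [mul_neg i j, neg_mul i j, neg_mul_neg, inv_neg, mul_neg, mul_neg, neg_mul, neg_mul,
        inv_mul_cancel_right₀ hij0, inv_mul_cancel_right₀ hij0, inv_mul_cancel_right₀ hij0,
        inv_mul_cancel_right₀ hij0]
      abel
    have e4 : (4 : K) • (algebraMap K D c₀ + algebraMap K D c₁ * i + algebraMap K D c₂ * j +
        algebraMap K D c₃ * (i * j)) = (4 : K) • y := by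
      rw [smul_add, smul_add, smul_add, e0, e1, e2, e3]
      have : (4 : K) • y = y + y + y + y := by
        have : (4 : K) = 1 + 1 + 1 + 1 := by norm_num
        rw [this, add_smul, add_smul, add_smul, one_smul]
      rw [this]
      abel
    have e5 : algebraMap K D c₀ + algebraMap K D c₁ * i + algebraMap K D c₂ * j +
        algebraMap K D c₃ * (i * j) = y := smul_right_injective D h4 e4
    rw [← e5, Algebra.algebraMap_eq_smul_one, ← Algebra.smul_def, ← Algebra.smul_def,
      ← Algebra.smul_def]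
    refine add_mem (add_mem (add_mem ?_ ?_) ?_) ?_ <;>
      refine Submodule.smul_mem _ _ (Submodule.subset_span ?_) <;> simp
  have htop : Submodule.span K ({1, i, j, i * j} : Set D) = ⊤ := by
    rw [eq_top_iff]
    exact fun y _ => hspan y
  have h1 : finrank K (Submodule.span K ({1, i, j, i * j} : Set D)) ≤ 4 := by
    classical
    have h2 := finrank_span_finset_le_card (R := K) ({1, i, j, i * j} : Finset D)
    simp only [Finset.coe_insert, Finset.coe_singleton] at h2
    exact h2.trans Finset.card_le_four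
  rw [htop, finrank_top, hdeg] at h1
  omega

end Vale.Agent.P011.Six
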